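import Vale.Agent.P352.NF.Defs
import Vale.Agent.P352.ND.Defs

open MeasureTheory Filter Topology
open scoped SchwartzMap

namespace Vale.Agent.P352.MS

open GF H246 H496 H755 H15

noncomputable section

variable {D : Type*} [NormedAddCommGroup D] [InnerProductSpace ℂ D]

/-- The charges of the null energy density `T_aa` on null hyperplanes are generators of the Poincaré
transformations: its integrals generate the translations along `a`, and its first moments the
Lorentz transformations in the planes of `a` and `x`. -/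
structure NullP (Q : Theory D) (T : Ix → Ix → Fld D) (A : (V → V) → D → D) : Prop where
  zero : ∀ a b κ y ψ v w, Adm a b κ ψ → Tendsto (fun R => inner ℂ w (sm T (fun m n z =>
    eta m * a m * (eta n * a n) * ctf a b κ y ψ R z) v)) atTop
    (𝓝 ((∫ u, (ψ u : ℂ)) * inner ℂ w (A (fun _ => a) v)))
  one : ∀ a b κ y ψ (x : V) v w, Adm a b κ ψ → Tendsto (fun R => inner ℂ w (sm T (fun m n z =>
    eta m * a m * (eta n * a n) * GF.mdot x z * ctf a b κ y ψ R z) v)) atTop
    (𝓝 ((∫ u, (ψ u : ℂ)) * inner ℂ w (A (fun z => GF.mdot x z • a - GF.mdot a z • x) v) +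
      (∫ u : ℝ, (u : ℂ) * (ψ u : ℂ)) * inner ℂ w (A (fun _ => x) v)))

/-- The second moments `M f = - ∫ f (a·x) (x·x) T_aa(x) dx` of the null energy density `T_aa`
between null hyperplanes exist for the null vector `a`, as a tempered distribution on the line with
values in the operators on `D`. -/
structure OneMom (Q : Theory D) (T : Ix → Ix → Fld D) (A : (V → V) → D → D) (a : V)
    (M : 𝓢(ℝ, ℂ) → D → D) : Prop extends Rep Q A where
  null : IsNull a
  lin : ∀ (f g : 𝓢(ℝ, ℂ)) (c : ℂ) v, M (f + c • g) v = M f v + c • M g v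
  cont : ∀ v w, Continuous fun f : 𝓢(ℝ, ℂ) => inner ℂ w (M f v)
  mom : ∀ b κ y ψ (f : 𝓢(ℝ, ℂ)) v w, Adm a b κ ψ → (∀ u, f u = ψ u) → Tendsto (fun R =>
    inner ℂ w (sm T (fun m n x => eta m * a m * (eta n * a n) * -GF.mdot x x *
      ctf a b κ y ψ R x) v)) atTop (𝓝 (inner ℂ w (M f v)))

/-- The second moments `K a` of the null energy density `T_aa` on the null hyperplanes `a·x = 0`
exist for all null vectors `a`, as operators on `D`, and they are weakly continuous under
translations. -/
structure NullK (Q : Theory D) (T : Ix → Ix → Fld D) (A : (V → V) → D → D) (K : V → D → D) :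
    Prop extends Rep Q A where
  mom : Mom Q T K
  cont : ∀ a b v w, IsNull a → IsNull b →
    Continuous fun u : ℝ => inner ℂ w (Q.U 1 GF.one (u • b) (K a (Q.U 1 GF.one (-(u • b)) v)))

end

end Vale.Agent.P352.MS
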