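import Vale.Agent.P352.ND.A3b
import Vale.Agent.P352.N86.K.C8a
import Vale.Agent.P352.H755.R7d

/-!
# P352 MO, block B: the vectors `U(W_R) T(f) Ω` tend weakly to zero

`W_R` is the similitude `u b + l a + w ↦ u b + R² l a + R w`, where `a`, `b` are null vectors with
`a·b = 1` and `w` is orthogonal to both.
-/

set_option linter.all false

noncomputable section

open MeasureTheory SchwartzMap Complex Filter Topology
open scoped SchwartzMap ComplexConjugate ENNReal LineDeriv

namespace Vale.Agent.P352.MO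

open GF (Ix V Fn Sch ev pd bar sim o bas)
open H246 H496 H15 H755 H746 ND N86 N86.C8
open UniformSpace (Completion)

variable {D : Type*} [NormedAddCommGroup D] [InnerProductSpace ℂ D] {Q : GF.Theory D}
  {T : Ix → Ix → GF.Fld D} {A : (V → V) → D → D}

/-- similitudes and translations -/
lemma b_UsL (Rp : H15.Rep Q A) {s : ℝ} (hs : 0 < s) {L : Ix → V} (hL : GF.IsLor L) (y : V)
    (v : D) :
    Q.U 1 GF.one (sim s L 0 y) (Q.U s L 0 v) = Q.U s L 0 (Q.U 1 GF.one y v) := by
  rw [Rp.mul 1 GF.one _ s L 0 v one_pos hs isLor_one hL,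
    Rp.mul s L 0 1 GF.one y v hs one_pos hL isLor_one]
  have e1 : (fun m => sim 1 GF.one 0 (L m)) = fun m => sim 1 L 0 (GF.one m) := by
    funext m n
    simp [sim, GF.one, bas]
  have e2 : sim 1 GF.one (sim s L 0 y) 0 = sim s L 0 y := by
    funext n
    simp [sim]
  rw [e1, e2, one_mul, mul_one]

lemma b_nU {s : ℝ} (hs : 0 < s) {L : Ix → V} (hL : GF.IsLor L) (x : V) (v : D) :
    ‖Q.U s L x v‖ = ‖v‖ := by
  have h5 := Q.U_inner s L x v v hs hL
  rw [inner_self_eq_norm_sq_to_K, inner_self_eq_norm_sq_to_K] at h5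
  have h6 : ‖Q.U s L x v‖ ^ 2 = ‖v‖ ^ 2 := by exact_mod_cast h5
  exact (pow_left_inj₀ (norm_nonneg _) (norm_nonneg _) (by norm_num)).1 h6

/-! ### Vectors invariant under the translations along a null hyperplane -/

/-- orthogonal null vectors are proportional -/
lemma b_par {a c : V} (ha : GF.mdot a a = 0) (hc : GF.mdot c c = 0) (hac : GF.mdot a c = 0)
    (j : Ix) : a o * c j - a j * c o = 0 := by
  have h1 : ∑ j, (a o * c j - a j * c o) ^ 2 =
      -((a o) ^ 2 * GF.mdot c c - 2 * a o * c o * GF.mdot a c + (c o) ^ 2 * GF.mdot a a) := by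
    rw [gm, gm, gm]
    simp only [Fin.sum_univ_four, GF.o]
    ring
  rw [ha, hc, hac] at h1
  have h2 : ∑ j, (a o * c j - a j * c o) ^ 2 = 0 := by rw [h1]; ring
  have h3 := (Finset.sum_eq_zero_iff_of_nonneg fun j _ => sq_nonneg (a o * c j - a j * c o)).1 h2 j
    (Finset.mem_univ j)
  exact pow_eq_zero_iff (two_ne_zero) |>.1 h3

/-- a curve of rotations moving a null vector -/
lemma b_curve {a : V} (ha : IsNull a) : ∃ L : ℝ → Ix → V, L 0 = GF.one ∧ (∀ e, GF.IsLor (L e)) ∧
    (∃ w : Ix → V, ∀ m n, HasDerivAt (fun e => L e m n) (w m n) 0) ∧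
    ∀ᶠ e in 𝓝[≠] (0 : ℝ), GF.mdot a (sim 1 (L e) 0 a) ≠ 0 := by
  have hi : ∃ i : Ix, i ≠ o ∧ a i ≠ 0 := by
    by_contra hcon
    push Not at hcon
    have h1 : GF.mdot a a = (a o) ^ 2 := by
      have e1 := hcon 1 (by decide)
      have e2 := hcon 2 (by decide)
      have e3 := hcon 3 (by decide)
      rw [gm, e1, e2, e3]
      simp [GF.o]
      ring
    rw [ha.1] at h1
    have := ha.2
    nlinarith
  obtain ⟨i, hi0, hai⟩ := hi
  have hj : ∃ j : Ix, j ≠ o ∧ j ≠ i := by
    clear hai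
    revert i
    decide
  obtain ⟨j, hj0, hji⟩ := hj
  set w : Ix → V := fun m n => if m = i ∧ n = j then 1 else if m = j ∧ n = i then -1 else 0 with hw
  have hanti : ∀ m n, GF.eta n * w m n = -(GF.eta m * w n m) := by
    intro m n
    simp only [hw]
    by_cases h1 : m = i ∧ n = j
    · obtain ⟨rfl, rfl⟩ := h1
      simp [GF.eta, hi0, hj0, hji]
    · by_cases h2 : m = j ∧ n = i
      · obtain ⟨rfl, rfl⟩ := h2
        simp [GF.eta, hi0, hj0, Ne.symm hji]
      · have h3 : ¬ (n = i ∧ m = j) := fun h => h2 ⟨h.2, h.1⟩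
        have h4 : ¬ (n = j ∧ m = i) := fun h => h1 ⟨h.2, h.1⟩
        rw [if_neg h1, if_neg h2, if_neg h3, if_neg h4]
        simp
  obtain ⟨L, L0, hL, dL⟩ := H746.exists_lor hanti
  refine ⟨L, L0, hL, ⟨w, dL⟩, ?_⟩
  set g : ℝ → ℝ := fun e => a o * sim 1 (L e) 0 a j - a j * sim 1 (L e) 0 a o with hg
  have hds : ∀ n, HasDerivAt (fun e => sim 1 (L e) 0 a n) (∑ m, a m * w m n) 0 := by
    intro n
    have h1 : HasDerivAt (fun e => ∑ m, a m * L e m n) (∑ m, a m * w m n) 0 :=
      HasDerivAt.fun_sum fun m _ => (dL m n).const_mul (a m)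
    have e : (fun e => sim 1 (L e) 0 a n) = fun e => ∑ m, a m * L e m n := by
      funext e
      simp [sim]
    rw [e]
    exact h1
  have hsj : ∑ m, a m * w m j = a i := by
    rw [Finset.sum_eq_single i]
    · simp [hw]
    · intro m _ hm
      have h1 : ¬ (m = i ∧ j = j) := fun h => hm h.1
      have h2 : ¬ (m = j ∧ j = i) := fun h => hji h.2
      have h3 : w m j = 0 := by
        show (if m = i ∧ j = j then (1:ℝ) else if m = j ∧ j = i then -1 else 0) = 0
        rw [if_neg h1, if_neg h2]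
      rw [h3, mul_zero]
    · intro h; exact absurd (Finset.mem_univ _) h
  have hs0 : ∑ m, a m * w m o = 0 := by
    refine Finset.sum_eq_zero fun m _ => ?_
    have h1 : ¬ (m = i ∧ o = j) := fun h => hj0 h.2.symm
    have h2 : ¬ (m = j ∧ o = i) := fun h => hi0 h.2.symm
    have h3 : w m o = 0 := by
      show (if m = i ∧ o = j then (1:ℝ) else if m = j ∧ o = i then -1 else 0) = 0
      rw [if_neg h1, if_neg h2]
    rw [h3, mul_zero]
  have hgd : HasDerivAt g (a o * a i) 0 := by
    have h1 := ((hds j).const_mul (a o)).sub ((hds o).const_mul (a j))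
    rw [hsj, hs0, mul_zero, sub_zero] at h1
    exact h1
  have hne : a o * a i ≠ 0 := mul_ne_zero ha.2.ne' hai
  filter_upwards [hgd.eventually_ne (c := 0) hne] with e he h0
  apply he
  refine b_par ha.1 ?_ h0 j
  rw [md_LL (hL e)]
  exact ha.1

/-- continuity of the extension -/
lemma b_cont (Rp : H15.Rep Q A) {L : ℝ → Ix → V} (L0 : L 0 = GF.one) (hL : ∀ e, GF.IsLor (L e))
    {w : Ix → V} (dL : ∀ m n, HasDerivAt (fun e => L e m n) (w m n) 0) (z : Completion D) :
    Tendsto (fun e => Ue Q one_pos (hL e) 0 z) (𝓝 0) (𝓝 z) := by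
  have h1 : ∀ v : D, Tendsto (fun e => Q.U 1 (L e) 0 v) (𝓝 0) (𝓝 v) := by
    intro v
    have h := Rp.der (fun _ => 1) L (fun _ => 0) (fun x n => ∑ m, x m * w m n) v rfl L0 rfl
      (fun e => ⟨one_pos, hL e⟩) ?_
    · have h2 := h.continuousAt.tendsto
      simp only [L0] at h2
      have h3 : Q.U 1 GF.one 0 v = v := U0 v
      rw [h3] at h2
      exact h2
    · intro n x
      have h1 : HasDerivAt (fun e => ∑ m, x m * L e m n) (∑ m, x m * w m n) 0 :=
        HasDerivAt.fun_sum fun m _ => (dL m n).const_mul (x m)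
      have e : (fun e => sim 1 (L e) 0 x n) = fun e => ∑ m, x m * L e m n := by
        funext e
        simp [sim]
      rw [e]
      exact h1
  rw [Metric.tendsto_nhds]
  intro ε hε
  obtain ⟨v, hv⟩ := UniformSpace.Completion.denseRange_coe.exists_dist_lt z (by positivity : (0 : ℝ) < ε / 3)
  filter_upwards [Metric.tendsto_nhds.1 (h1 v) (ε / 3) (by positivity)] with e he
  have e1 : Ue Q one_pos (hL e) 0 z - z =
      Ue Q one_pos (hL e) 0 (z - v) + ((Q.U 1 (L e) 0 v - v : D) : Completion D) +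
        ((v : Completion D) - z) := by
    rw [map_sub, Ue_coe, UniformSpace.Completion.coe_sub]
    abel
  rw [dist_eq_norm, e1]
  have h2 : ‖Ue Q one_pos (hL e) 0 (z - v)‖ < ε / 3 := by
    rw [Ue_norm, ← dist_eq_norm]
    exact hv
  have h3 : ‖((Q.U 1 (L e) 0 v - v : D) : Completion D)‖ < ε / 3 := by
    rw [UniformSpace.Completion.norm_coe, ← dist_eq_norm]
    exact he
  have h4 : ‖(v : Completion D) - z‖ < ε / 3 := by
    rw [← dist_eq_norm, dist_comm]
    exact hv
  have h5 := norm_add_le (Ue Q one_pos (hL e) 0 (z - v) + ((Q.U 1 (L e) 0 v - v : D) : Completion D))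
    ((v : Completion D) - z)
  have h6 := norm_add_le (Ue Q one_pos (hL e) 0 (z - v)) ((Q.U 1 (L e) 0 v - v : D) : Completion D)
  linarith

lemma Ue_Ue (x y : V) (z : Completion D) : Ue Q one_pos isLor_one x (Ue Q one_pos isLor_one y z) =
    Ue Q one_pos isLor_one (x + y) z := by
  refine UniformSpace.Completion.induction_on z (isClosed_eq ?_ ?_) fun v => ?_
  · fun_prop
  · fun_prop
  · rw [Ue_coe, Ue_coe, Ue_coe, UU]

lemma Ue_zero (z : Completion D) : Ue Q one_pos isLor_one 0 z = z := by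
  refine UniformSpace.Completion.induction_on z (isClosed_eq ?_ ?_) fun v => ?_
  · fun_prop
  · fun_prop
  · rw [Ue_coe, U0]

lemma Ue_UsL (Rp : H15.Rep Q A) {s : ℝ} (hs : 0 < s) {L : Ix → V} (hL : GF.IsLor L) (y : V)
    (z : Completion D) :
    Ue Q one_pos isLor_one (sim s L 0 y) (Ue Q hs hL 0 z) =
      Ue Q hs hL 0 (Ue Q one_pos isLor_one y z) := by
  refine UniformSpace.Completion.induction_on z (isClosed_eq ?_ ?_) fun v => ?_
  · fun_prop
  · fun_prop
  · rw [Ue_coe, Ue_coe, Ue_coe, Ue_coe, b_UsL Rp hs hL]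

/-- **vectors invariant under the translations along a null hyperplane are translation
invariant** -/
theorem inv_null (Rp : H15.Rep Q A) {a : V} (ha : IsNull a) {z : Completion D}
    (hz : ∀ x : V, GF.mdot a x = 0 → Ue Q one_pos isLor_one x z = z) (y : V) :
    Ue Q one_pos isLor_one y z = z := by
  obtain ⟨L, L0, hL, ⟨w, dL⟩, hne⟩ := b_curve ha
  have hc := b_cont (Q := Q) Rp L0 hL dL z
  have hev : ∀ᶠ e in 𝓝[≠] (0 : ℝ), inner ℂ z (Ue Q one_pos isLor_one y (Ue Q one_pos (hL e) 0 z)) =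
      inner ℂ z (Ue Q one_pos (hL e) 0 z) := by
    filter_upwards [hne] with e he
    set a' : V := sim 1 (L e) 0 a with ha'
    set t : ℝ := GF.mdot a y / GF.mdot a a' with ht
    have h1 : Ue Q one_pos isLor_one (t • a') (Ue Q one_pos (hL e) 0 z) =
        Ue Q one_pos (hL e) 0 z := by
      have h2 := Ue_UsL Rp one_pos (hL e) (t • a) z
      rw [simL_smul, ← ha', hz (t • a) (by rw [md_smul, ha.1, mul_zero])] at h2
      exact h2
    have h2 : y = (y - t • a') + t • a' := by abel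
    have h3 : GF.mdot a (t • a' - y) = 0 := by
      rw [md_sub, md_smul, ht, div_mul_cancel₀ _ he, sub_self]
    have h4 : Ue Q one_pos isLor_one y (Ue Q one_pos (hL e) 0 z) =
        Ue Q one_pos isLor_one (y - t • a') (Ue Q one_pos (hL e) 0 z) := by
      conv_lhs => rw [h2, ← Ue_Ue, h1]
    rw [h4, ← Ue_inner (Q := Q) one_pos isLor_one (t • a' - y), Ue_Ue, hz _ h3]
    have h5 : t • a' - y + (y - t • a') = 0 := by abel
    rw [h5, Ue_zero]
  have hl1 : Tendsto (fun e => inner ℂ z (Ue Q one_pos isLor_one y (Ue Q one_pos (hL e) 0 z)))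
      (𝓝[≠] 0) (𝓝 (inner ℂ z (Ue Q one_pos isLor_one y z))) := by
    have h1 : Tendsto (fun e => Ue Q one_pos isLor_one y (Ue Q one_pos (hL e) 0 z)) (𝓝[≠] 0)
        (𝓝 (Ue Q one_pos isLor_one y z)) :=
      ((Ue Q one_pos isLor_one y).continuous.tendsto z).comp (hc.mono_left nhdsWithin_le_nhds)
    exact tendsto_const_nhds.inner h1
  have hl2 : Tendsto (fun e => inner ℂ z (Ue Q one_pos (hL e) 0 z))
      (𝓝[≠] 0) (𝓝 (inner ℂ z z)) :=
    tendsto_const_nhds.inner (hc.mono_left nhdsWithin_le_nhds)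
  have h1 : inner ℂ z (Ue Q one_pos isLor_one y z) = inner ℂ z z :=
    tendsto_nhds_unique (hl1.congr' hev) hl2
  have h2 : inner ℂ (Ue Q one_pos isLor_one y z) z = inner ℂ z z := by
    rw [← inner_conj_symm, h1, inner_conj_symm]
  have h3 : inner ℂ (Ue Q one_pos isLor_one y z - z) (Ue Q one_pos isLor_one y z - z) = (0 : ℂ) := by
    rw [inner_sub_left, inner_sub_right, inner_sub_right, Ue_inner, h1, h2]
    ring
  exact sub_eq_zero.1 (inner_self_eq_zero.1 h3)

/-- weak form -/
theorem inv_null' (Rp : H15.Rep Q A) {a : V} (ha : IsNull a) {z : Completion D}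
    (hz : ∀ (x : V) (v : D), GF.mdot a x = 0 →
      inner ℂ z ((Q.U 1 GF.one x v : D) : Completion D) = inner ℂ z (v : Completion D))
    (y : V) (v : D) :
    inner ℂ z ((Q.U 1 GF.one y v : D) : Completion D) = inner ℂ z (v : Completion D) := by
  have h1 : ∀ x : V, GF.mdot a x = 0 → Ue Q one_pos isLor_one x z = z := by
    intro x hx
    apply ext_coe
    intro v
    have h2 : (v : Completion D) = Ue Q one_pos isLor_one x
        ((Q.U 1 GF.one (-x) v : D) : Completion D) := by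
      rw [Ue_coe, UU, add_neg_cancel, U0]
    have h3 := hz (-x) v (by rw [← neg_one_smul ℝ, md_smul, hx, mul_zero])
    have h4 := congrArg (starRingEnd ℂ) h3
    rw [inner_conj_symm, inner_conj_symm] at h4
    rw [← h4]
    conv_lhs => rw [h2]
    rw [Ue_inner]
  have h2 := inv_null Rp ha h1 y
  rw [← Ue_coe one_pos isLor_one]
  conv_lhs => rw [← h2]
  rw [Ue_inner]

/-! ### The weak limit -/

/-- the preimage of `x`, `a·x = 0`, under `W_R` -/
def wpre (a b : V) (R : ℝ) (x : V) : V :=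
  R⁻¹ • (R⁻¹ • (GF.mdot b x • a) + (x - GF.mdot b x • a))

lemma sim_wpre {a b : V} (ha : IsNull a) (hab : GF.mdot a b = 1) {R : ℝ} (hR : 0 < R)
    {L : Ix → V} (hLa : sim 1 L 0 a = R • a)
    (hLw : ∀ w, GF.mdot a w = 0 → GF.mdot b w = 0 → sim 1 L 0 w = w) {x : V}
    (hx : GF.mdot a x = 0) : sim R L 0 (wpre a b R x) = x := by
  have h1 : GF.mdot a (x - GF.mdot b x • a) = 0 := by rw [md_sub, md_smul, ha.1, hx]; ring
  have h2 : GF.mdot b (x - GF.mdot b x • a) = 0 := by
    rw [md_sub, md_smul, md_comm b a, hab]; ring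
  rw [wpre, sim_s, simL_smul, simL_add, simL_smul, simL_smul, hLa, hLw _ h1 h2]
  simp only [smul_add, smul_smul, smul_sub]
  rw [mul_inv_cancel₀ hR.ne', one_smul]
  have e : R * (R⁻¹ * (R⁻¹ * (GF.mdot b x * R))) = GF.mdot b x := by field_simp
  have e2 : R * (R⁻¹ * GF.mdot b x) = GF.mdot b x := by field_simp
  rw [e, e2]
  abel

lemma wpre_tend (a b x : V) : Tendsto (fun R : ℝ => wpre a b R x) atTop (𝓝 0) := by
  unfold wpre
  have h1 : Tendsto (fun R : ℝ => R⁻¹ • (R⁻¹ • (GF.mdot b x • a) + (x - GF.mdot b x • a))) atTop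
      (𝓝 ((0 : ℝ) • ((0 : ℝ) • (GF.mdot b x • a) + (x - GF.mdot b x • a)))) :=
    tendsto_inv_atTop_zero.smul ((tendsto_inv_atTop_zero.smul_const _).add_const _)
  simpa using h1

lemma near_wpre (v : D) {ε : ℝ} (hε : 0 < ε) (a b x : V) :
    ∀ᶠ R : ℝ in atTop, ‖Q.U 1 GF.one (wpre a b R x) v - v‖ < ε := by
  have h1 : Tendsto (fun R : ℝ => (WithLp.toLp 2 (wpre a b R x) : Mink)) atTop (𝓝 0) := by
    have h := ((PiLp.continuous_toLp 2 fun _ : Ix => ℝ).tendsto 0).comp (wpre_tend a b x)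
    exact h
  have h2 : Tendsto (fun R : ℝ => Q.U 1 GF.one (wpre a b R x) v) atTop (𝓝 v) := by
    have h3 := ((continuous_U1a (Q := Q) v).tendsto 0).comp h1
    rw [U1_zero_all] at h3
    exact h3
  have h3 := Metric.tendsto_nhds.1 h2 ε hε
  simpa only [dist_eq_norm] using h3

/-- **the vectors `U(W_R) ψ` tend weakly to zero**, if `ψ` is orthogonal to the translation
invariant vectors -/
theorem weak_gen (Rp : H15.Rep Q A) {a b : V} (ha : IsNull a) (hab : GF.mdot a b = 1)
    {L : ℝ → Ix → V} (hL : ∀ R, 0 < R → GF.IsLor (L R))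
    (hLa : ∀ R, 0 < R → sim 1 (L R) 0 a = R • a)
    (hLw : ∀ R w, 0 < R → GF.mdot a w = 0 → GF.mdot b w = 0 → sim 1 (L R) 0 w = w) {ψ : D}
    (hψ : ∀ z : Completion D, (∀ (x : V) (v : D),
      inner ℂ z ((Q.U 1 GF.one x v : D) : Completion D) = inner ℂ z (v : Completion D)) →
      inner ℂ z (ψ : Completion D) = 0)
    (z : Completion D) :
    Tendsto (fun R => inner ℂ z ((Q.U R (L R) 0 ψ : D) : Completion D)) atTop (𝓝 0) := by
  set P : Submodule ℂ (Completion D) :=
    { carrier := {z | Tendsto (fun R : ℝ => inner ℂ z ((Q.U R (L R) 0 ψ : D) : Completion D))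
        atTop (𝓝 0)}
      zero_mem' := by simp
      add_mem' := fun {a b} ha hb => by
        have h := Tendsto.add ha hb
        simp only [add_zero] at h
        simpa only [Set.mem_setOf_eq, inner_add_left] using h
      smul_mem' := fun c a ha => by
        have h := Tendsto.const_mul (conj c) ha
        simp only [mul_zero] at h
        simpa only [Set.mem_setOf_eq, inner_smul_left] using h } with hP
  have hcl : IsClosed (P : Set (Completion D)) := by
    rw [← closure_subset_iff_isClosed]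
    intro z hz
    show Tendsto _ _ _
    rw [Metric.tendsto_nhds]
    intro ε hε
    obtain ⟨z', hz', hd⟩ := Metric.mem_closure_iff.1 hz (ε / (2 * (‖ψ‖ + 1))) (by positivity)
    have h1 : Tendsto (fun R : ℝ => inner ℂ z' ((Q.U R (L R) 0 ψ : D) : Completion D))
        atTop (𝓝 0) := hz'
    filter_upwards [Metric.tendsto_nhds.1 h1 (ε / 2) (half_pos hε), eventually_gt_atTop (0 : ℝ)]
      with R hs hs0
    rw [dist_zero_right] at hs ⊢
    have e : inner ℂ z ((Q.U R (L R) 0 ψ : D) : Completion D) =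
        inner ℂ (z - z') ((Q.U R (L R) 0 ψ : D) : Completion D) +
          inner ℂ z' ((Q.U R (L R) 0 ψ : D) : Completion D) := by
      rw [inner_sub_left]; ring
    rw [e]
    refine (norm_add_le _ _).trans_lt ?_
    have h2 : ‖inner ℂ (z - z') ((Q.U R (L R) 0 ψ : D) : Completion D)‖ ≤ ‖z - z'‖ * ‖ψ‖ := by
      refine (norm_inner_le_norm _ _).trans ?_
      rw [UniformSpace.Completion.norm_coe, b_nU hs0 (hL R hs0)]
    have h3 : ‖z - z'‖ * ‖ψ‖ ≤ ε / 2 := by
      rw [dist_eq_norm] at hd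
      calc ‖z - z'‖ * ‖ψ‖ ≤ (ε / (2 * (‖ψ‖ + 1))) * (‖ψ‖ + 1) := by
            gcongr
            linarith
        _ = ε / 2 := by field_simp
    linarith
  have hrange : ∀ (x : V) (v : D), GF.mdot a x = 0 →
      (((Q.U 1 GF.one x v - v : D)) : Completion D) ∈ P := by
    intro x v hx
    show Tendsto _ _ _
    rw [Metric.tendsto_nhds]
    intro ε hε
    filter_upwards [near_wpre (Q := Q) ψ (ε := ε / (‖v‖ + 1)) (by positivity) a b (-x),
      eventually_gt_atTop (0 : ℝ)] with R hs hs0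
    have hx' : GF.mdot a (-x) = 0 := by rw [← neg_one_smul ℝ, md_smul, hx, mul_zero]
    rw [dist_zero_right, UniformSpace.Completion.inner_coe, inner_sub_left]
    have h1 : inner ℂ (Q.U 1 GF.one x v) (Q.U R (L R) 0 ψ) =
        inner ℂ v (Q.U R (L R) 0 (Q.U 1 GF.one (wpre a b R (-x)) ψ)) := by
      rw [← b_UsL Rp hs0 (hL R hs0), sim_wpre ha hab hs0 (hLa R hs0) (fun w => hLw R w hs0) hx',
        ← Q.U_inner 1 GF.one x v _ one_pos isLor_one, UU, add_neg_cancel]
      congr 1
      exact (U1_zero_all (Q := Q) _).symm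
    rw [h1, ← inner_sub_right]
    have h2 : Q.U R (L R) 0 (Q.U 1 GF.one (wpre a b R (-x)) ψ) - Q.U R (L R) 0 ψ =
        Q.U R (L R) 0 (Q.U 1 GF.one (wpre a b R (-x)) ψ - ψ) := by
      have h3 := U_add (Q := Q) hs0 (hL R hs0) 0 (Q.U 1 GF.one (wpre a b R (-x)) ψ - ψ) ψ
      rw [sub_add_cancel] at h3
      rw [h3, add_sub_cancel_right]
    rw [h2]
    refine (norm_inner_le_norm _ _).trans_lt ?_
    rw [b_nU hs0 (hL R hs0)]
    calc ‖v‖ * ‖Q.U 1 GF.one (wpre a b R (-x)) ψ - ψ‖
        ≤ ‖v‖ * (ε / (‖v‖ + 1)) := by gcongr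
      _ < (‖v‖ + 1) * (ε / (‖v‖ + 1)) := by
          have : 0 < ε / (‖v‖ + 1) := by positivity
          nlinarith
      _ = ε := by field_simp
  have horth : ∀ z : Completion D, z ∈ Pᗮ → z ∈ P := by
    intro z hz
    have h1 : ∀ (x : V) (v : D), GF.mdot a x = 0 →
        inner ℂ z ((Q.U 1 GF.one x v : D) : Completion D) = inner ℂ z (v : Completion D) := by
      intro x v hx
      have h2 := (Submodule.mem_orthogonal' P z).1 hz _ (hrange x v hx)
      rw [UniformSpace.Completion.coe_sub, inner_sub_right] at h2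
      exact sub_eq_zero.1 h2
    have h2 := inv_null' Rp ha h1
    show Tendsto _ _ _
    refine tendsto_const_nhds.congr' ?_
    filter_upwards [eventually_gt_atTop (0 : ℝ)] with R hs0
    have h3 : ∀ v : D, inner ℂ (ContinuousLinearMap.adjoint (Ue Q hs0 (hL R hs0) 0) z)
        (v : Completion D) = inner ℂ z ((Q.U R (L R) 0 v : D) : Completion D) := by
      intro v
      rw [ContinuousLinearMap.adjoint_inner_left, Ue_coe]
    have h4 := hψ (ContinuousLinearMap.adjoint (Ue Q hs0 (hL R hs0) 0) z) ?_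
    · rw [h3] at h4
      exact h4.symm
    · intro x v
      rw [h3, h3, ← b_UsL Rp hs0 (hL R hs0), h2]
  have hcomp : IsComplete (P : Set (Completion D)) := hcl.isComplete
  haveI : CompleteSpace P := hcomp.completeSpace_coe
  have h9 : z ∈ P := by
    obtain ⟨y, hy, w, hw, rfl⟩ := Submodule.exists_add_mem_mem_orthogonal (K := P) z
    exact P.add_mem hy (horth w hw)
  exact h9

/-- **the vectors `U(W_R) T(f) Ω` tend weakly to zero** -/
theorem weak_W (hT : Q.IsStress T) (Rp : H15.Rep Q A) {a b : V} (ha : IsNull a) (hb : IsNull b)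
    (hab : GF.mdot a b = 1) {L : ℝ → Ix → V} (hL : ∀ R, 0 < R → GF.IsLor (L R))
    (hLa : ∀ R, 0 < R → sim 1 (L R) 0 a = R • a)
    (hLb : ∀ R, 0 < R → sim 1 (L R) 0 b = R⁻¹ • b)
    (hLw : ∀ R w, 0 < R → GF.mdot a w = 0 → GF.mdot b w = 0 → sim 1 (L R) 0 w = w)
    (m n : Ix) (k : 𝓢(Mink, ℂ)) (z : Completion D) :
    Tendsto (fun R => inner ℂ z ((Q.U R (L R) 0 (T m n (fl k) Q.vac) : D) : Completion D)) atTop
      (𝓝 0) :=
  weak_gen Rp ha hab hL hLa hLw (fun z hz => inv_orth hT hz m n k) z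

end Vale.Agent.P352.MO

end
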