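import Vale.Agent.P352.MO.Defs
import Vale.Agent.P352.ND.A3c
import Vale.Agent.P352.NF.F4a

/-!
# P352 MO: auxiliary definitions
-/

set_option linter.all false

noncomputable section

open MeasureTheory Filter Topology SchwartzMap
open scoped SchwartzMap ComplexConjugate ContDiff

namespace Vale.Agent.P352.MO

open GF (Ix V Fn Fld Theory Sch IsLor bas eta o sim pd tr ev bar)
open H246 H496 H755 H15 H846 ND

/-- the similitude `u b + l a + w ↦ u b + R² l a + R w` -/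
def WR (a b : V) (R : ℝ) (z : V) : V := GF.mdot a z • b + (R ^ 2 * GF.mdot b z) • a +
  R • (z - GF.mdot a z • b - GF.mdot b z • a)

/-- the source of the current `X^n T_mn` with the density `ξ dζ` -/
def Src (ζ ξ : V → ℝ) (X : V → V) : Ix → Ix → V → ℝ := fun m n x =>
  dr m ζ x * ξ x * (eta n * X x n)

/-- the data: a primitive `Ψ` of the profile `ψ`, the height `h` and the position `σ` of the bend -/
structure Bend (ψ Ψ σ : ℝ → ℝ) (c1 c2 h δ : ℝ) : Prop where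
  psi : Tst ψ
  h0 : 0 < h
  d0 : 0 < δ
  c12 : c1 < c2
  smooth : ContDiff ℝ ∞ Ψ
  der : ∀ u, deriv Ψ u = ψ u
  low : ∀ u, u ≤ c1 → Ψ u = 0
  high : ∀ u, c2 ≤ u → Ψ u = ∫ t, ψ t
  ssm : ContDiff ℝ ∞ σ
  s0 : ∀ t, -δ ≤ t → σ t = 0
  s1 : ∀ t, t ≤ -(2 * δ) → σ t = 1
  s01 : ∀ t, 0 ≤ σ t ∧ σ t ≤ 1

/-- the bent surface -/
def et (a b : V) (Ψ σ : ℝ → ℝ) (h R : ℝ) (x : V) : ℝ :=
  Ψ (GF.mdot a x - h * σ (GF.mdot b x / R ^ 2))

/-- the difference of the flat and the bent surface -/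
def df (a b : V) (Ψ σ : ℝ → ℝ) (h R : ℝ) (x : V) : ℝ := Ψ (GF.mdot a x) - et a b Ψ σ h R x

/-- near which the cutoff is one -/
def Flat (a b : V) (κ : V → ℝ) (ρ : ℝ) : Prop := ∀ (t : ℝ) (w : V), GF.mdot a w = 0 →
  GF.mdot b w = 0 → |t| ≤ ρ → -GF.mdot w w ≤ ρ → κ (t • a + w) = 1

end Vale.Agent.P352.MO

end
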