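import Vale.Agent.P352.ND.A3a
import Vale.Agent.P352.H846.Sw1
import Vale.Agent.P352.H846.CutTst
import Vale.Agent.P352.H755.R7h

/-!
# P352 MO: bent null surfaces, boosted frames
-/

set_option linter.all false

noncomputable section

open MeasureTheory Filter Topology Set
open scoped ContDiff ComplexConjugate SchwartzMap

namespace Vale.Agent.P352.MO

open GF (Ix V Fn bas eta pd bar sim o)
open H246 H496 H15 H755 H846

/-- one below `-2`, zero above `-1` -/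
def sg (t : ℝ) : ℝ := Real.smoothTransition (-t - 1)

lemma contDiff_sg : ContDiff ℝ ∞ sg :=
  Real.smoothTransition.contDiff.comp (contDiff_neg.sub contDiff_const)

lemma sg_one {t : ℝ} (h : t ≤ -2) : sg t = 1 :=
  Real.smoothTransition.one_of_one_le (by linarith)

lemma sg_zero {t : ℝ} (h : -1 ≤ t) : sg t = 0 :=
  Real.smoothTransition.zero_of_nonpos (by linarith)

lemma sg_nonneg (t : ℝ) : 0 ≤ sg t := Real.smoothTransition.nonneg _

lemma sg_le_one (t : ℝ) : sg t ≤ 1 := Real.smoothTransition.le_one _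

/-- the bent surface -/
def Bt (a b : V) (Ψ : ℝ → ℝ) (h δ R : ℝ) (x : V) : ℝ :=
  Ψ (GF.mdot a x - h * sg (GF.mdot b x / (δ * R ^ 2)))

/-- the primitive -/
def prm (ψ : ℝ → ℝ) (u : ℝ) : ℝ := ∫ t in Set.Iic u, ψ t

/-- the charge density on the bent surface -/
def s2 (a b : V) (κ : V → ℝ) (Ψ : ℝ → ℝ) (h δ R : ℝ) (X : V → V) : Ix → Ix → V → ℝ :=
  fun m n x => dr m (Bt a b Ψ h δ R) x * cut a b κ R x * (eta n * X x n)

/-- the source between the flat and the bent surface -/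
def rr (a b : V) (κ : V → ℝ) (Ψ : ℝ → ℝ) (h δ R : ℝ) (X : V → V) : Ix → Ix → V → ℝ :=
  fun m n x => (Ψ (GF.mdot a x) - Bt a b Ψ h δ R x) * dr m (cut a b κ R) x * (eta n * X x n)

/-- `Ψ` is a primitive of `ψ` that increases from zero to `c` between `p` and `q` -/
structure Stp (Ψ ψ : ℝ → ℝ) (p q c : ℝ) : Prop where
  cd : ContDiff ℝ ∞ Ψ
  der : ∀ u, HasDerivAt Ψ (ψ u) u
  lo : ∀ u, u ≤ p → Ψ u = 0
  hi : ∀ u, q ≤ u → Ψ u = c

variable {Ψ ψ : ℝ → ℝ} {p q c : ℝ}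

/-- primitives of test functions -/
theorem stp_prm (hψ : Tst ψ) (hs : ∀ u, ψ u ≠ 0 → p ≤ u ∧ u ≤ q) :
    Stp (prm ψ) ψ p q (∫ u, ψ u) := by
  have hc : Continuous ψ := hψ.1.continuous
  have hi : Integrable ψ := hc.integrable_of_hasCompactSupport hψ.2
  have hlo : ∀ t, t ≤ p → ψ t = 0 := by
    have h1 : IsClosed {t | ψ t = 0} := isClosed_eq hc continuous_const
    have h2 : Iio p ⊆ {t | ψ t = 0} := fun t ht => by
      by_contra h
      exact absurd (hs t h).1 (not_le.2 ht)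
    have h3 := closure_minimal h2 h1
    rw [closure_Iio] at h3
    exact fun t ht => h3 ht
  have hhi : ∀ t, q < t → ψ t = 0 := fun t ht => by
    by_contra h
    exact absurd (hs t h).2 (not_le.2 ht)
  have hd : ∀ u, HasDerivAt (prm ψ) (ψ u) u := by
    intro u
    have h1 : HasDerivAt (fun u => ∫ t in (0:ℝ)..u, ψ t) (ψ u) u :=
      intervalIntegral.integral_hasDerivAt_right (hc.intervalIntegrable _ _)
        (hc.stronglyMeasurableAtFilter _ _) hc.continuousAt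
    have h2 : prm ψ = fun u => (∫ t in Iic (0:ℝ), ψ t) + ∫ t in (0:ℝ)..u, ψ t := by
      funext v
      have h3 := intervalIntegral.integral_Iic_sub_Iic (μ := volume) (f := ψ) (a := 0) (b := v)
        hi.integrableOn hi.integrableOn
      unfold prm
      linarith
    rw [h2]
    exact h1.const_add _
  refine ⟨?_, hd, fun u hu => ?_, fun u hu => ?_⟩
  · rw [contDiff_infty_iff_deriv]
    refine ⟨fun u => (hd u).differentiableAt, ?_⟩
    have : deriv (prm ψ) = ψ := funext fun u => (hd u).deriv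
    rw [this]
    exact hψ.1
  · exact setIntegral_eq_zero_of_forall_eq_zero fun t ht => hlo t (le_trans ht hu)
  · refine setIntegral_eq_integral_of_forall_compl_eq_zero fun t ht => hhi t ?_
    have h1 : u < t := not_le.1 ht
    linarith

variable {a b : V} {h δ R : ℝ}

lemma contDiff_Bt (hΨ : ContDiff ℝ ∞ Ψ) : ContDiff ℝ ∞ (Bt a b Ψ h δ R) :=
  hΨ.comp ((contDiff_mdot a).sub (contDiff_const.mul
    (contDiff_sg.comp ((contDiff_mdot b).div_const _))))

/-- where the bent surface is flat -/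
lemma Bt_flat (hδ : 0 < δ) (hR : 0 < R) {x : V} (hx : -(δ * R ^ 2) ≤ GF.mdot b x) :
    Bt a b Ψ h δ R x = Ψ (GF.mdot a x) := by
  have h1 : (0:ℝ) < δ * R ^ 2 := by positivity
  unfold Bt
  rw [sg_zero, mul_zero, sub_zero]
  rw [le_div_iff₀ h1]
  linarith

lemma Bt_bent (hδ : 0 < δ) (hR : 0 < R) {x : V} (hx : GF.mdot b x ≤ -(2 * (δ * R ^ 2))) :
    Bt a b Ψ h δ R x = Ψ (GF.mdot a x - h) := by
  have h1 : (0:ℝ) < δ * R ^ 2 := by positivity
  unfold Bt
  rw [sg_one, mul_one]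
  rw [div_le_iff₀ h1]
  linarith

lemma Stp.Bt_lo (hΨ : Stp Ψ ψ p q c) (hh : 0 ≤ h) {x : V} (hx : GF.mdot a x ≤ p) :
    Bt a b Ψ h δ R x = 0 := by
  apply hΨ.lo
  have := mul_nonneg hh (sg_nonneg (GF.mdot b x / (δ * R ^ 2)))
  linarith

lemma Stp.Bt_hi (hΨ : Stp Ψ ψ p q c) (hh : 0 ≤ h) {x : V} (hx : q + h ≤ GF.mdot a x) :
    Bt a b Ψ h δ R x = c := by
  apply hΨ.hi
  have := mul_le_mul_of_nonneg_left (sg_le_one (GF.mdot b x / (δ * R ^ 2))) hh
  linarith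

/-! ### the boosts -/

/-- the boost with `a ↦ R a`, `b ↦ R⁻¹ b` -/
def WL (a b : V) (R : ℝ) : Ix → V := bst a b (R - 1) (R⁻¹ - 1)

lemma isLor_WL (ha : IsNull a) (hb : IsNull b) (hab : GF.mdot a b = 1) (hR : 0 < R) :
    GF.IsLor (WL a b R) := by
  refine isLor_bst ha hb hab (by linarith) ?_
  have : R * R⁻¹ = 1 := mul_inv_cancel₀ hR.ne'
  linarith

lemma sim_WL (a b : V) (R : ℝ) (x : V) :
    sim 1 (WL a b R) 0 x = x + ((R - 1) * GF.mdot b x) • a + ((R⁻¹ - 1) * GF.mdot a x) • b :=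
  sim_bst a b _ _ x

lemma WL_a (ha : IsNull a) (hab : GF.mdot a b = 1) : sim 1 (WL a b R) 0 a = R • a := by
  rw [sim_WL, ha.1, mdot_symm b a, hab]
  module

lemma WL_b (hb : IsNull b) (hab : GF.mdot a b = 1) : sim 1 (WL a b R) 0 b = R⁻¹ • b := by
  rw [sim_WL, hb.1, hab]
  module

lemma WL_w {w : V} (haw : GF.mdot a w = 0) (hbw : GF.mdot b w = 0) :
    sim 1 (WL a b R) 0 w = w := by
  rw [sim_WL, haw, hbw]
  module

/-- frames -/
theorem exists_W (ha : IsNull a) (hb : IsNull b) (hab : GF.mdot a b = 1) : ∃ L : ℝ → Ix → V,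
    (∀ R, 0 < R → GF.IsLor (L R)) ∧ (∀ R, 0 < R → sim 1 (L R) 0 a = R • a) ∧
    (∀ R, 0 < R → sim 1 (L R) 0 b = R⁻¹ • b) ∧
    ∀ R w, 0 < R → GF.mdot a w = 0 → GF.mdot b w = 0 → sim 1 (L R) 0 w = w :=
  ⟨WL a b, fun _ hR => isLor_WL ha hb hab hR, fun _ _ => WL_a ha hab, fun _ _ => WL_b hb hab,
    fun _ _ _ h1 h2 => WL_w h1 h2⟩

lemma sim_RWL (a b : V) (R : ℝ) (x : V) : sim R (WL a b R) 0 x = R • sim 1 (WL a b R) 0 x := by
  funext n
  simp [sim]

lemma mdot_sm2 (a x : V) (u w : ℝ) (b c : V) : GF.mdot a (x + u • b + w • c) =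
    GF.mdot a x + u * GF.mdot a b + w * GF.mdot a c := by
  simp only [mdx, Pi.add_apply, Pi.smul_apply, smul_eq_mul]
  ring

lemma mdot_smr (a x : V) (u : ℝ) : GF.mdot a (u • x) = u * GF.mdot a x := by
  simp only [mdx, Pi.smul_apply, smul_eq_mul]
  ring

/-- the similitude `W_R`: `u ↦ u` -/
lemma mdot_a_W (ha : IsNull a) (hab : GF.mdot a b = 1) (hR : 0 < R) (x : V) :
    GF.mdot a (sim R (WL a b R) 0 x) = GF.mdot a x := by
  rw [sim_RWL, mdot_smr, sim_WL, mdot_sm2, ha.1, hab]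
  field_simp
  ring

/-- the similitude `W_R`: `l ↦ R² l` -/
lemma mdot_b_W (hb : IsNull b) (hab : GF.mdot a b = 1) (x : V) :
    GF.mdot b (sim R (WL a b R) 0 x) = R ^ 2 * GF.mdot b x := by
  rw [sim_RWL, mdot_smr, sim_WL, mdot_sm2, hb.1, mdot_symm b a, hab]
  ring

lemma prj_W (ha : IsNull a) (hb : IsNull b) (hab : GF.mdot a b = 1) (hR : 0 < R) (x : V) :
    prj a b (sim R (WL a b R) 0 x) = R • prj a b x := by
  unfold prj
  rw [mdot_a_W ha hab hR, mdot_b_W hb hab, sim_RWL, sim_WL]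
  have h1 : R * R⁻¹ = 1 := mul_inv_cancel₀ hR.ne'
  have h2 : R * (R⁻¹ - 1) = 1 - R := by rw [mul_sub, h1, mul_one]
  simp only [smul_add, smul_sub, smul_smul]
  rw [← mul_assoc R (R⁻¹ - 1), h2]
  module

lemma cv_W (ha : IsNull a) (hb : IsNull b) (hab : GF.mdot a b = 1) (hR : 0 < R) (x : V) :
    cv a b R (sim R (WL a b R) 0 x) = cv a b 1 x := by
  rw [cv_prj, cv_prj, prj_W ha hb hab hR, mdot_b_W hb hab, smul_smul, inv_mul_cancel₀ hR.ne']
  have h1 : R ^ 2 * GF.mdot b x / R ^ 2 = GF.mdot b x / 1 ^ 2 := by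
    field_simp
  rw [h1, inv_one]

lemma cut_W (ha : IsNull a) (hb : IsNull b) (hab : GF.mdot a b = 1) (hR : 0 < R) (κ : V → ℝ)
    (x : V) : cut a b κ R (sim R (WL a b R) 0 x) = cut a b κ 1 x := by
  rw [cut_cv, cut_cv, cv_W ha hb hab hR]

lemma Bt_W (ha : IsNull a) (hb : IsNull b) (hab : GF.mdot a b = 1) (hR : 0 < R) (x : V) :
    Bt a b Ψ h δ R (sim R (WL a b R) 0 x) = Bt a b Ψ h δ 1 x := by
  unfold Bt
  rw [mdot_a_W ha hab hR, mdot_b_W hb hab]
  congr 3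
  congr 1
  field_simp

end Vale.Agent.P352.MO

end
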