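import Vale.Agent.P352.MO.Bt
import Vale.Agent.P352.MO.B
import Vale.Agent.P352.SL.M1a

/-!
# P352 MO, block C: the sources are homogeneous under the similitudes `W_R`
-/

set_option linter.all false

noncomputable section

open MeasureTheory SchwartzMap Filter Topology
open scoped SchwartzMap ComplexConjugate ContDiff

namespace Vale.Agent.P352.MO

open GF (Ix V Fn Sch ev pd bar sim o bas eta)
open H246 H246R H496 H15 H755 H746 ND
open UniformSpace (Completion)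

variable {D : Type*} [NormedAddCommGroup D] [InnerProductSpace ℂ D] {Q : GF.Theory D}
  {T : Ix → Ix → GF.Fld D} {A : (V → V) → D → D}

/-- the chain rule -/
lemma c_dr_sim {f : V → ℝ} (hf : ContDiff ℝ ∞ f) (s : ℝ) (L : Ix → V) (k : Ix) (x : V) :
    dr k (fun x => f (sim s L 0 x)) x = s * ∑ m, L k m * dr m f (sim s L 0 x) := by
  have e : ∀ t : ℝ, sim s L 0 (x + bas k t) = sim s L 0 x + t • (s • L k) := by
    intro t
    have e1 : (bas k t : V) = t • bas k 1 := by funext n; simp [bas]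
    have e2 : sim 1 L 0 (bas k 1) = L k := by funext n; simp [sim, bas]
    rw [sim_s s L (x + bas k t), sim_s s L x, simL_add, smul_add, e1, simL_smul, e2, smul_comm]
  have h2 : HasFDerivAt f (fderiv ℝ f (sim s L 0 x)) (sim s L 0 x) :=
    ((hf.differentiable (by simp)) _).hasFDerivAt
  have h3 : HasDerivAt (fun t : ℝ => sim s L 0 x + t • (s • L k)) (s • L k) 0 := by
    simpa using ((hasDerivAt_id (0:ℝ)).smul_const (s • L k)).const_add (sim s L 0 x)
  have h4 : HasDerivAt (fun t : ℝ => f (sim s L 0 x + t • (s • L k)))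
      (fderiv ℝ f (sim s L 0 x) (s • L k)) 0 := by
    have h5 : HasFDerivAt f (fderiv ℝ f (sim s L 0 x)) (sim s L 0 x + (0:ℝ) • (s • L k)) := by
      simpa using h2
    exact h5.comp_hasDerivAt (0:ℝ) h3
  unfold dr
  simp only [e]
  rw [h4.deriv, map_smul, smul_eq_mul]
  congr 1
  conv_lhs => rw [← H846.bas_sum (L k)]
  rw [map_sum]
  refine Finset.sum_congr rfl fun m _ => ?_
  rw [map_smul, smul_eq_mul, ← dr_fd hf]
  rfl

lemma fld_sum {B : GF.Fld D} (hB : Q.fld B) {ι : Type*} (t : Finset ι) (c : ι → ℝ)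
    (g : ι → V → ℝ) (hg : ∀ i, Tst (g i)) (v : D) :
    B (fun x => ((∑ i ∈ t, c i * g i x : ℝ) : ℂ)) v = ∑ i ∈ t, (c i : ℂ) • B (fun x => (g i x : ℂ)) v := by
  have e : (fun x : V => ((∑ i ∈ t, c i * g i x : ℝ) : ℂ)) =
      fl (∑ i ∈ t, (c i : ℂ) • sc (hg i)) := by
    funext x
    unfold fl
    rw [SchwartzMap.sum_apply]
    push_cast
    refine Finset.sum_congr rfl fun i _ => ?_
    rw [Pi.smul_apply, sc_apply, smul_eq_mul]
  have h := map_sum (fcl hB v) (fun i => (c i : ℂ) • sc (hg i)) t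
  have h1 : fcl hB v (∑ i ∈ t, (c i : ℂ) • sc (hg i)) = B (fl (∑ i ∈ t, (c i : ℂ) • sc (hg i))) v := rfl
  rw [e, ← h1, h]
  refine Finset.sum_congr rfl fun i _ => ?_
  rw [map_smul]
  have h2 : fcl hB v (sc (hg i)) = B (fl (sc (hg i))) v := rfl
  rw [h2, fl_sc]

/-- covariance of the smeared tensor -/
lemma sm_cov (hT : Q.IsStress T) {F : Ix → Ix → V → ℝ} (hF : ∀ m n, Tst (F m n)) {s : ℝ}
    {L : Ix → V} (hs : 0 < s) (hL : GF.IsLor L) (v : D) :
    sm T F (Q.U s L 0 v) = Q.U s L 0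
      (sm T (fun k l x => ∑ p : Ix × Ix, L k p.1 * L l p.2 * F p.1 p.2 (sim s L 0 x)) v) := by
  have hU : ∀ (u : Ix → Ix → D), Q.U s L 0 (∑ k, ∑ l, u k l) = ∑ k, ∑ l, Q.U s L 0 (u k l) := by
    intro u
    have h := map_sum (UL (Q := Q) hs hL 0) (fun k => ∑ l, u k l) Finset.univ
    have h1 : UL (Q := Q) hs hL 0 (∑ k, ∑ l, u k l) = Q.U s L 0 (∑ k, ∑ l, u k l) := rfl
    rw [h1] at h
    rw [h]
    refine Finset.sum_congr rfl fun k _ => ?_
    exact map_sum (UL (Q := Q) hs hL 0) (u k) Finset.univ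
  have hU2 : ∀ (u : Ix × Ix → D), Q.U s L 0 (∑ p, u p) = ∑ p, Q.U s L 0 (u p) := by
    intro u
    exact map_sum (UL (Q := Q) hs hL 0) u Finset.univ
  unfold sm
  rw [hU]
  have e1 : ∀ m n, T m n (fun x => (F m n x : ℂ)) (Q.U s L 0 v) =
      ∑ k, ∑ l, (L k m * L l n : ℂ) • Q.U s L 0 (T k l (fun x => (F m n (sim s L 0 x) : ℂ)) v) :=
    fun m n => hT.cov m n s L 0 _ v hs hL (tstIs (hF m n))
  have e2 : ∀ k l, Q.U s L 0 (T k l (fun x => ((∑ p : Ix × Ix, L k p.1 * L l p.2 *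
      F p.1 p.2 (sim s L 0 x) : ℝ) : ℂ)) v) = ∑ p : Ix × Ix, (L k p.1 * L l p.2 : ℂ) •
        Q.U s L 0 (T k l (fun x => (F p.1 p.2 (sim s L 0 x) : ℂ)) v) := by
    intro k l
    rw [fld_sum (Q.bose_fld _ (hT.bose k l)) Finset.univ (fun p : Ix × Ix => L k p.1 * L l p.2)
      (fun p x => F p.1 p.2 (sim s L 0 x)) (fun p => tst_sim (hF p.1 p.2) hs hL), hU2]
    refine Finset.sum_congr rfl fun p _ => ?_
    rw [U_smul hs hL]
    push_cast
    rfl
  simp only [e1, e2]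
  rw [← Fintype.sum_prod_type' (f := fun m n => ∑ k, ∑ l, (L k m * L l n : ℂ) •
    Q.U s L 0 (T k l (fun x => (F m n (sim s L 0 x) : ℂ)) v))]
  rw [Finset.sum_comm]
  refine Finset.sum_congr rfl fun k _ => ?_
  rw [Finset.sum_comm]

lemma sm_smul (hT : Q.IsStress T) {F : Ix → Ix → V → ℝ} (hF : ∀ m n, Tst (F m n)) (c : ℝ) (v : D) :
    sm T (fun m n x => c * F m n x) v = (c : ℂ) • sm T F v := by
  unfold sm
  rw [Finset.smul_sum]
  refine Finset.sum_congr rfl fun m _ => ?_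
  rw [Finset.smul_sum]
  refine Finset.sum_congr rfl fun n _ => ?_
  have h := fld_sum (Q.bose_fld _ (hT.bose m n)) {()} (fun _ => c) (fun _ => F m n)
    (fun _ => hF m n) v
  simpa only [Finset.sum_singleton] using h

/-- homogeneous sources on the vacuum -/
theorem sm_vac (hT : Q.IsStress T) {F G : Ix → Ix → V → ℝ} (hF : ∀ m n, Tst (F m n))
    (hG : ∀ m n, Tst (G m n)) {s : ℝ} {L : Ix → V} (hs : 0 < s) (hL : GF.IsLor L) {c : ℝ}
    (h : ∀ k l x, ∑ p : Ix × Ix, L k p.1 * L l p.2 * F p.1 p.2 (sim s L 0 x) = c * G k l x) :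
    sm T F Q.vac = (c : ℂ) • Q.U s L 0 (sm T G Q.vac) := by
  have h1 := sm_cov hT hF hs hL Q.vac
  simp only [h] at h1
  rw [Q.U_vac _ _ _ hs hL, sm_smul hT hG, U_smul hs hL] at h1
  exact h1

/-- **the vacuum expectation of homogeneous sources** -/
theorem vac_lim (hT : Q.IsStress T) (Rp : H15.Rep Q A) {a b : V} (ha : IsNull a) (hb : IsNull b)
    (hab : GF.mdot a b = 1) {F : ℝ → Ix → Ix → V → ℝ} (hF : ∀ R, 1 ≤ R → ∀ m n, Tst (F R m n))
    (j : ℕ) (h : ∀ R, 1 ≤ R → ∀ k l x, ∑ p : Ix × Ix, WL a b R k p.1 * WL a b R l p.2 *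
      F R p.1 p.2 (sim R (WL a b R) 0 x) = (R ^ j)⁻¹ * F 1 k l x) (z : D) :
    Tendsto (fun R => inner ℂ z (sm T (F R) Q.vac)) atTop (𝓝 0) := by
  have h1 : Tendsto (fun R => inner ℂ (z : Completion D)
      ((Q.U R (WL a b R) 0 (sm T (F 1) Q.vac) : D) : Completion D)) atTop (𝓝 0) := by
    refine weak_gen Rp ha hab (L := WL a b) (fun R hR => isLor_WL ha hb hab hR)
      (fun R hR => WL_a ha hab) (fun R w hR h1 h2 => WL_w h1 h2) ?_ _
    intro z' hz'
    obtain ⟨k, hk⟩ : ∃ k : Ix → Ix → 𝓢(Mink, ℂ), ∀ m n, fl (k m n) = fun x => (F 1 m n x : ℂ) :=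
      ⟨fun m n => sc (hF 1 le_rfl m n), fun m n => fl_sc _⟩
    have e : sm T (F 1) Q.vac = ∑ m, ∑ n, T m n (fl (k m n)) Q.vac := by
      unfold sm
      simp only [hk]
    have e2 : ((∑ m, ∑ n, T m n (fl (k m n)) Q.vac : D) : Completion D) =
        ∑ m, ∑ n, ((T m n (fl (k m n)) Q.vac : D) : Completion D) := by
      have h3 := map_sum (UniformSpace.Completion.toComplL (𝕜 := ℂ) (E := D))
        (fun m => ∑ n, T m n (fl (k m n)) Q.vac) Finset.univ
      refine h3.trans (Finset.sum_congr rfl fun m _ => ?_)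
      exact map_sum (UniformSpace.Completion.toComplL (𝕜 := ℂ) (E := D))
        (fun n => T m n (fl (k m n)) Q.vac) Finset.univ
    rw [e, e2, inner_sum]
    refine Finset.sum_eq_zero fun m _ => ?_
    rw [inner_sum]
    exact Finset.sum_eq_zero fun n _ => inv_orth hT hz' m n _
  simp only [UniformSpace.Completion.inner_coe] at h1
  rw [tendsto_zero_iff_norm_tendsto_zero] at h1 ⊢
  refine squeeze_zero' (Eventually.of_forall fun R => norm_nonneg _) ?_ h1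
  filter_upwards [eventually_ge_atTop (1 : ℝ)] with R hR
  have hR0 : 0 < R := by linarith
  rw [sm_vac hT (hF R hR) (hF 1 le_rfl) hR0 (isLor_WL ha hb hab hR0) (h R hR), inner_smul_right,
    norm_mul]
  have h2 : ‖(((R ^ j)⁻¹ : ℝ) : ℂ)‖ ≤ 1 := by
    rw [Complex.norm_real, Real.norm_eq_abs, abs_of_nonneg (by positivity)]
    exact inv_le_one_of_one_le₀ (one_le_pow₀ hR)
  calc _ ≤ 1 * ‖inner ℂ z (Q.U R (WL a b R) 0 (sm T (F 1) Q.vac))‖ := by gcongr
    _ = _ := one_mul _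

/-! ### The two sources -/

variable {a b : V} {κ : V → ℝ} {Ψ : ℝ → ℝ} {h δ R : ℝ} {X : V → V}

/-- homogeneous vector fields -/
def Hom (a b : V) (j : ℕ) (X : V → V) : Prop := ∀ R : ℝ, 1 ≤ R → ∀ z,
  X (sim R (WL a b R) 0 z) = (R ^ j)⁻¹ • sim R (WL a b R) 0 (X z)

lemma src_gen (hR : 0 < R) {L : Ix → V} (hL : GF.IsLor L) {f f1 g g1 : V → ℝ} (hf : ContDiff ℝ ∞ f)
    (hff : ∀ x, f (sim R L 0 x) = f1 x) (hgg : ∀ x, g (sim R L 0 x) = g1 x) {c : ℝ}
    (hX : ∀ z, X (sim R L 0 z) = c • sim R L 0 (X z)) (k l : Ix) (x : V) :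
    ∑ p : Ix × Ix, L k p.1 * L l p.2 * (dr p.1 f (sim R L 0 x) * g (sim R L 0 x) *
      (eta p.2 * X (sim R L 0 x) p.2)) = c * (dr k f1 x * g1 x * (eta l * X x l)) := by
  have h1 : (fun x => f (sim R L 0 x)) = f1 := funext hff
  have h2 := c_dr_sim hf R L k x
  rw [h1] at h2
  have h3 : ∑ n, L l n * (eta n * X (sim R L 0 x) n) = c * (R * (eta l * X x l)) := by
    have h4 : ∑ n, L l n * (eta n * X (sim R L 0 x) n) = GF.mdot (L l) (X (sim R L 0 x)) := by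
      unfold GF.mdot
      exact Finset.sum_congr rfl fun n _ => by ring
    rw [h4, hX, md_smul, sim_s, md_smul, md_L hL]
  have h5 : ∑ p : Ix × Ix, L k p.1 * L l p.2 * (dr p.1 f (sim R L 0 x) * g (sim R L 0 x) *
      (eta p.2 * X (sim R L 0 x) p.2)) = (∑ m, L k m * dr m f (sim R L 0 x)) * g (sim R L 0 x) *
        ∑ n, L l n * (eta n * X (sim R L 0 x) n) := by
    rw [Fintype.sum_prod_type, Finset.sum_mul, Finset.sum_mul]
    refine Finset.sum_congr rfl fun m _ => ?_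
    rw [Finset.mul_sum]
    exact Finset.sum_congr rfl fun n _ => by ring
  rw [h5, h3, h2, hgg]
  ring

lemma s2_hom (ha : IsNull a) (hb : IsNull b) (hab : GF.mdot a b = 1) (hΨ : ContDiff ℝ ∞ Ψ)
    {j : ℕ} (hX : Hom a b j X) (R : ℝ) (hR : 1 ≤ R) (k l : Ix) (x : V) :
    ∑ p : Ix × Ix, WL a b R k p.1 * WL a b R l p.2 *
      s2 a b κ Ψ h δ R X p.1 p.2 (sim R (WL a b R) 0 x) = (R ^ j)⁻¹ * s2 a b κ Ψ h δ 1 X k l x := by
  have hR0 : 0 < R := by linarith
  exact src_gen hR0 (isLor_WL ha hb hab hR0) (contDiff_Bt hΨ)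
    (fun x => Bt_W ha hb hab hR0 x) (fun x => cut_W ha hb hab hR0 κ x) (hX R hR) k l x

lemma c_cdcut (hκ : ContDiff ℝ ∞ κ) (R : ℝ) : ContDiff ℝ ∞ (cut a b κ R) :=
  hκ.comp (H846.contDiff_cv a b R)

lemma rr_hom (ha : IsNull a) (hb : IsNull b) (hab : GF.mdot a b = 1) (hκ : ContDiff ℝ ∞ κ)
    {j : ℕ} (hX : Hom a b j X) (R : ℝ) (hR : 1 ≤ R) (k l : Ix) (x : V) :
    ∑ p : Ix × Ix, WL a b R k p.1 * WL a b R l p.2 *
      rr a b κ Ψ h δ R X p.1 p.2 (sim R (WL a b R) 0 x) = (R ^ j)⁻¹ * rr a b κ Ψ h δ 1 X k l x := by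
  have hR0 : 0 < R := by linarith
  have h1 := src_gen hR0 (isLor_WL ha hb hab hR0) (c_cdcut (a := a) (b := b) hκ R)
    (fun x => cut_W ha hb hab hR0 κ x)
    (g := fun x => Ψ (GF.mdot a x) - Bt a b Ψ h δ R x)
    (g1 := fun x => Ψ (GF.mdot a x) - Bt a b Ψ h δ 1 x)
    (fun x => by rw [mdot_a_W ha hab hR0, Bt_W ha hb hab hR0]) (hX R hR) k l x
  have e1 : ∀ p : Ix × Ix, WL a b R k p.1 * WL a b R l p.2 *
      rr a b κ Ψ h δ R X p.1 p.2 (sim R (WL a b R) 0 x) = WL a b R k p.1 * WL a b R l p.2 *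
      (dr p.1 (cut a b κ R) (sim R (WL a b R) 0 x) * (Ψ (GF.mdot a (sim R (WL a b R) 0 x)) -
        Bt a b Ψ h δ R (sim R (WL a b R) 0 x)) * (eta p.2 * X (sim R (WL a b R) 0 x) p.2)) := by
    intro p
    unfold rr
    ring
  simp only [e1]
  rw [h1]
  unfold rr
  ring

lemma hom_b (hb : IsNull b) (hab : GF.mdot a b = 1) : Hom a b 0 (fun _ => b) := by
  intro R hR z
  have hR0 : R ≠ 0 := by positivity
  show b = (R ^ 0)⁻¹ • sim R (WL a b R) 0 b
  rw [pow_zero, inv_one, one_smul, sim_RWL, WL_b hb hab, smul_smul, mul_inv_cancel₀ hR0, one_smul]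

lemma hom_a (ha : IsNull a) (hab : GF.mdot a b = 1) : Hom a b 2 (fun _ => a) := by
  intro R hR z
  have hR0 : R ≠ 0 := by positivity
  show a = (R ^ 2)⁻¹ • sim R (WL a b R) 0 a
  rw [sim_RWL, WL_a ha hab, smul_smul, smul_smul]
  have : (R ^ 2)⁻¹ * R * R = 1 := by field_simp
  rw [this, one_smul]

lemma hom_w {w : V} (haw : GF.mdot a w = 0) (hbw : GF.mdot b w = 0) : Hom a b 1 (fun _ => w) := by
  intro R hR z
  have hR0 : R ≠ 0 := by positivity
  show w = (R ^ 1)⁻¹ • sim R (WL a b R) 0 w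
  rw [sim_RWL, WL_w haw hbw, smul_smul, pow_one, inv_mul_cancel₀ hR0, one_smul]

lemma hom_rob (ha : IsNull a) (hb : IsNull b) (hab : GF.mdot a b = 1) :
    Hom a b 0 (SL.ro a b) := by
  intro R hR z
  have hR0 : 0 < R := by linarith
  unfold SL.ro
  rw [mdot_a_W ha hab hR0, mdot_b_W hb hab, pow_zero, inv_one, one_smul, sim_RWL, simL_sub,
    simL_smul, simL_smul, WL_a ha hab, WL_b hb hab, smul_sub, smul_comm R (GF.mdot b z),
    smul_comm R (GF.mdot a z), smul_smul R R⁻¹, mul_inv_cancel₀ hR0.ne', one_smul]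
  module

lemma mdot_w_W {w : V} (haw : GF.mdot a w = 0) (hbw : GF.mdot b w = 0) (R : ℝ) (x : V) :
    GF.mdot w (sim R (WL a b R) 0 x) = R * GF.mdot w x := by
  rw [sim_RWL, mdot_smr, sim_WL, mdot_sm2, md_comm w a, haw, md_comm w b, hbw]
  ring

lemma hom_row (ha : IsNull a) (hb : IsNull b) (hab : GF.mdot a b = 1) {w : V}
    (haw : GF.mdot a w = 0) (hbw : GF.mdot b w = 0) : Hom a b 1 (SL.ro a w) := by
  intro R hR z
  have hR0 : 0 < R := by linarith
  unfold SL.ro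
  rw [mdot_a_W ha hab hR0, mdot_w_W haw hbw, pow_one, sim_RWL, simL_sub,
    simL_smul, simL_smul, WL_a ha hab, WL_w haw hbw, smul_smul, inv_mul_cancel₀ hR0.ne', one_smul]
  module

end Vale.Agent.P352.MO

end
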