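import Vale.Agent.P352.MO.P6
import Vale.Agent.P352.MO.S3
import Vale.Agent.P352.SL.Conv

/-!
# P352 MO: sharp second moments define smeared ones, and are determined by them
-/

set_option linter.all false

noncomputable section

open MeasureTheory Filter Topology Set SchwartzMap
open scoped ContDiff ComplexConjugate SchwartzMap

namespace Vale.Agent.P352.MO

open GF (Ix V Fn Fld bas eta pd bar sim o IsLor)
open H246 H496 H15 H755 H121 H846 NF SL

variable {D : Type*} [NormedAddCommGroup D] [InnerProductSpace ℂ D] {Q : GF.Theory D}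
  {T : Ix → Ix → GF.Fld D} {J : Ix → GF.Fld D} {A : (V → V) → D → D} {K : V → D → D}
  {M M' : V → 𝓢(ℝ, ℂ) → D → D}

lemma XB_neg (R : Rep Q A) (a b : V) (v : D) :
    A (XB a b) v = -A (ro a b) v := by
  have s0 : IsSim 0 (fun _ : V => (0 : V)) := const_sim 0
  have h1 := R.add 0 0 (-1) _ _ v s0 (XB_sim a b)
  have e : (fun z : V => (fun _ : V => (0 : V)) z + (-1 : ℝ) • XB a b z) =
      fun z => GF.mdot b z • a - GF.mdot a z • b := by
    funext z n
    simp only [XB, Pi.add_apply, Pi.sub_apply, Pi.smul_apply, smul_eq_mul, Pi.zero_apply]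
    ring
  rw [e] at h1
  have h2 : A (ro a b) v = A (fun _ => 0) v + ((-1 : ℝ) : ℂ) • A (XB a b) v := h1
  rw [h2, H755.A_zero' R]
  push_cast
  rw [zero_add, neg_one_smul, neg_neg]

lemma conv_lim (hT : Q.IsStress T) (R : Rep Q A) (hm : Mom Q T K) (g1 : Gen1 Q T A) {a b : V}
    {κ : V → ℝ} {ψ : ℝ → ℝ} (hA : Adm a b κ ψ) (y : V) (v w : D) :
    Tendsto (fun R => mt T w v (fun m n x => eta m * a m * (eta n * a n) * -GF.mdot x x *
      ctf a b κ y ψ R x)) atTop (𝓝 ((∫ u, (ψ u : ℂ) * Kh Q K a b w v u) +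
        2 * ((∫ u, ((u * ψ u : ℝ) : ℂ)) * inner ℂ w (A (XB a b) v)) -
        2 * ((∫ u, ((u * (u * ψ u) : ℝ) : ℂ)) * inner ℂ w (A (fun _ => b) v)))) := by
  have hA1 := Adm.umul hA
  have h1 := Mom.tt hm hA y v w
  have h2 := g1 a b κ y _ b v w hA1
  have e0 : (∫ u, (ψ u : ℂ) * Kh Q K a b w v u) +
        2 * ((∫ u, ((u * ψ u : ℝ) : ℂ)) * inner ℂ w (A (XB a b) v)) -
        2 * ((∫ u, ((u * (u * ψ u) : ℝ) : ℂ)) * inner ℂ w (A (fun _ => b) v)) =
      (∫ u, (ψ u : ℂ) * Kh Q K a b w v u) + (-2) *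
        ((∫ u, ((u * ψ u : ℝ) : ℂ)) * inner ℂ w (A (ro a b) v) + (∫ u : ℝ, (u : ℂ) * ((u * ψ u : ℝ) : ℂ)) *
            inner ℂ w (A (fun _ => b) v)) := by
    rw [XB_neg R, inner_neg_right]
    have : ∫ u : ℝ, (u : ℂ) * ((u * ψ u : ℝ) : ℂ) = ∫ u, ((u * (u * ψ u) : ℝ) : ℂ) :=
      integral_congr_ae (Eventually.of_forall fun u => by push_cast; ring)
    rw [this]
    ring
  rw [e0]
  refine (h1.add (h2.const_mul (-2))).congr' ?_
  filter_upwards [eventually_ge_atTop 1] with R hR
  have t1 : ∀ m n, Tst (Fm a b κ y ψ R m n) := fun m n => Fm_tst hA y hR m n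
  have t2 : ∀ m n, Tst fun x => eta m * a m * (eta n * a n) * GF.mdot b x *
      ctf a b κ y (fun u => u * ψ u) R x := by
    intro m n
    have t3 : Tst (Fg a b κ y (fun u => u * ψ u) R (XB a b) m n) :=
      Fg_tst hA1 y hR (XB_sim a b) m n
    have t4 : Tst (Fg a b κ y (fun u => u * (u * ψ u)) R (fun _ => b) m n) :=
      Fg_tst (Adm.umul hA1) y hR (const_sim b) m n
    have e : (fun x => eta m * a m * (eta n * a n) * GF.mdot b x *
      ctf a b κ y (fun u => u * ψ u) R x) = fun x =>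
        Fg a b κ y (fun u => u * (u * ψ u)) R (fun _ => b) m n x -
          Fg a b κ y (fun u => u * ψ u) R (XB a b) m n x := by
      funext x
      simp only [Fg]
      have c2 : ctf a b κ y (fun u => u * (u * ψ u)) R x =
          GF.mdot a x * ctf a b κ y (fun u => u * ψ u) R x := by
        unfold ctf
        ring
      rw [c2]
      unfold XB
      simp only [Pi.sub_apply, Pi.smul_apply, smul_eq_mul]
      ring
    rw [e]
    exact ⟨t4.1.sub t3.1, t4.2.sub t3.2⟩
  have e1 := mt_add hT t1 t2 (-2) w v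
  push_cast at e1
  show mt T w v _ + -2 * mt T w v _ = _
  rw [← e1]
  congr 1
  funext m n x
  simp only [Fm]
  have c1 : ctf a b κ y (fun u => u * ψ u) R x = GF.mdot a x * ctf a b κ y ψ R x := by
    unfold ctf
    ring
  rw [c1]
  unfold H15.sq
  ring

/-- **Sharp second moments define smeared ones.** -/
theorem sec_of (hT : Q.IsStress T) (R : Rep Q A) (hm : Mom Q T K) (g1 : Gen1 Q T A)
    (hk : ∀ a b, IsNull a → IsNull b → GF.mdot a b = 1 →
      H731.KC Q A a (K a) (Cop Q A K a b)) :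
    ∃ C : V → D → D, (∀ a b v, IsNull a → IsNull b → GF.mdot a b = 1 →
      C a v = Cop Q A K a b v) ∧ SecMom Q T A (Mk A K C) := by
  have huniq : ∀ a b b' v, IsNull a → IsNull b → IsNull b' → GF.mdot a b = 1 →
      GF.mdot a b' = 1 → Cop Q A K a b v = Cop Q A K a b' v := by
    intro a b b' v ha hb hb' hab hab'
    have h1 := (hk a b ha hb hab).tra b v
    have h2 := (hk a b' ha hb' hab').tra b v
    rw [h1, hab] at h2
    have h3 : ((2 * 1 : ℝ) : ℂ) • Cop Q A K a b v = ((2 * 1 : ℝ) : ℂ) • Cop Q A K a b' v :=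
      sub_right_injective h2
    exact smul_right_injective D (by norm_num : ((2 * 1 : ℝ) : ℂ) ≠ 0) h3
  classical
  let db : V → V := fun a => if h : IsNull a then (H755.exists_dual h).choose else 0
  have hdb : ∀ a, IsNull a → IsNull (db a) ∧ GF.mdot a (db a) = 1 := by
    intro a ha
    have : db a = (H755.exists_dual ha).choose := dif_pos ha
    rw [this]
    exact (H755.exists_dual ha).choose_spec
  refine ⟨fun a => Cop Q A K a (db a), fun a b v ha hb hab =>
    huniq a _ _ v ha (hdb a ha).1 hb (hdb a ha).2 hab, ?_⟩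
  refine { toRep := R, lin := ?_, cont := ?_, mom := ?_ }
  · intro a f g c v _
    show Mk _ _ _ _ _ _ = _
    unfold Mk
    rw [← I0_apply, ← I0_apply, ← I0_apply, ← I1_apply, ← I1_apply, ← I1_apply, map_add, map_add,
      map_smul, map_smul]
    simp only [smul_eq_mul]
    module
  · intro a v w _
    have : (fun f : 𝓢(ℝ, ℂ) => inner ℂ w (Mk A K (fun a => Cop Q A K a (db a)) a f v)) =
        fun f => I0 f * inner ℂ w (K a v) - 2 * I1 f *
          inner ℂ w (A (fun z => z) v + Cop Q A K a (db a) v) := by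
      funext f
      unfold Mk
      rw [← I0_apply, ← I1_apply, inner_sub_right, inner_smul_right, inner_smul_right]
    rw [this]
    exact (I0.continuous.mul continuous_const).sub
      ((continuous_const.mul I1.continuous).mul continuous_const)
  · intro a b κ y ψ f v w hA hf
    have hψ := hA.2.2.2.2.2
    have hl := conv_lim hT R hm g1 hA y v w
    have hl2 : inner ℂ w (Mk A K (fun a => Cop Q A K a (db a)) a f v) =
        (∫ u, (ψ u : ℂ) * Kh Q K a b w v u) +
        2 * ((∫ u, ((u * ψ u : ℝ) : ℂ)) * inner ℂ w (A (XB a b) v)) -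
        2 * ((∫ u, ((u * (u * ψ u) : ℝ) : ℂ)) * inner ℂ w (A (fun _ => b) v)) := by
      have hC : Cop Q A K a (db a) v = Cop Q A K a b v :=
        huniq a _ _ v hA.1 (hdb a hA.1).1 hA.2.1 (hdb a hA.1).2 hA.2.2.1
      have hK : ∀ u : ℝ, Kh Q K a b w v u = inner ℂ w (K a v) -
          (u : ℂ) * (2 * (inner ℂ w (A (fun z => z) v) + inner ℂ w (A (XB a b) v) +
            inner ℂ w (Cop Q A K a b v))) + (u : ℂ) * (u : ℂ) * (2 * inner ℂ w (A (fun _ => b) v)) := by
        intro u
        have h1 := (hk a b hA.1 hA.2.1 hA.2.2.1).tra (u • b) v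
        have h2 : A (H148.XK a (u • b)) v = A (XX a (u • b)) v := rfl
        rw [h2, A_XX R hA.2.1.1 hA.2.2.1, md_smul, hA.2.2.1, mul_one] at h1
        unfold Kh
        rw [h1]
        simp only [inner_add_right, inner_sub_right, inner_smul_right]
        push_cast
        ring
      have j0 : Integrable fun u => (ψ u : ℂ) * inner ℂ w (K a v) := tst_intR hψ continuous_const
      have j1 : Integrable fun u => (ψ u : ℂ) * ((u : ℂ) * (2 * (inner ℂ w (A (fun z => z) v) +
          inner ℂ w (A (XB a b) v) + inner ℂ w (Cop Q A K a b v)))) := tst_intR hψ (by fun_prop)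
      have j2 : Integrable fun u => (ψ u : ℂ) * ((u : ℂ) * (u : ℂ) *
          (2 * inner ℂ w (A (fun _ => b) v))) := tst_intR hψ (by fun_prop)
      have e : (fun u => (ψ u : ℂ) * Kh Q K a b w v u) = fun u => ((ψ u : ℂ) * inner ℂ w (K a v) -
          (ψ u : ℂ) * ((u : ℂ) * (2 * (inner ℂ w (A (fun z => z) v) +
            inner ℂ w (A (XB a b) v) + inner ℂ w (Cop Q A K a b v))))) +
          (ψ u : ℂ) * ((u : ℂ) * (u : ℂ) * (2 * inner ℂ w (A (fun _ => b) v))) := by
        funext u
        rw [hK]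
        ring
      have j3 : Integrable fun u => (ψ u : ℂ) * inner ℂ w (K a v) -
          (ψ u : ℂ) * ((u : ℂ) * (2 * (inner ℂ w (A (fun z => z) v) +
            inner ℂ w (A (XB a b) v) + inner ℂ w (Cop Q A K a b v)))) := j0.sub j1
      rw [e, integral_add j3 j2, integral_sub j0 j1, integral_mul_const]
      have e0 : ∫ u : ℝ, f u = ∫ u : ℝ, (ψ u : ℂ) :=
        integral_congr_ae (Eventually.of_forall fun u => hf u)
      have e1 : ∫ u : ℝ, (u : ℂ) * f u = ∫ u : ℝ, ((u * ψ u : ℝ) : ℂ) :=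
        integral_congr_ae (Eventually.of_forall fun u => by simp only [hf]; push_cast; rfl)
      have e3 : ∫ u : ℝ, (ψ u : ℂ) * ((u : ℂ) * (2 * (inner ℂ w (A (fun z => z) v) +
          inner ℂ w (A (XB a b) v) + inner ℂ w (Cop Q A K a b v)))) =
          (∫ u : ℝ, ((u * ψ u : ℝ) : ℂ)) * (2 * (inner ℂ w (A (fun z => z) v) +
          inner ℂ w (A (XB a b) v) + inner ℂ w (Cop Q A K a b v))) := by
        rw [← integral_mul_const]
        refine integral_congr_ae (Eventually.of_forall fun u => ?_)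
        simp only
        push_cast
        ring
      have e4 : ∫ u : ℝ, (ψ u : ℂ) * ((u : ℂ) * (u : ℂ) * (2 * inner ℂ w (A (fun _ => b) v))) =
          (∫ u : ℝ, ((u * (u * ψ u) : ℝ) : ℂ)) * (2 * inner ℂ w (A (fun _ => b) v)) := by
        rw [← integral_mul_const]
        refine integral_congr_ae (Eventually.of_forall fun u => ?_)
        simp only
        push_cast
        ring
      unfold Mk
      rw [inner_sub_right, inner_smul_right, inner_smul_right, inner_add_right, e0, e1, e3, e4]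
      simp only [hC]
      ring
    rw [hl2]
    exact hl

theorem sec_unique (h : SecMom Q T A M) (h' : SecMom Q T A M') {a : V} (ha : IsNull a)
    (f : 𝓢(ℝ, ℂ)) (v : D) : M a f v = M' a f v := by
  refine ext_inner_left ℂ fun w => ?_
  refine m1_ext (F := fun f => inner ℂ w (M a f v)) (G := fun f => inner ℂ w (M' a f v))
    (h.cont a v w ha) (h'.cont a v w ha) (fun f hf => ?_) f
  obtain ⟨b, hb, hab⟩ := H755.exists_dual ha
  obtain ⟨κ, hκ, hκ1⟩ := exists_kp
  have key : ∀ (p : ℝ → ℝ) (hp : Tst p), inner ℂ w (M a (tS p hp) v) =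
      inner ℂ w (M' a (tS p hp) v) := fun p hp =>
    tendsto_nhds_unique (h.mom a b κ 0 p _ v w ⟨ha, hb, hab, hκ, hκ1, hp⟩ fun u => rfl)
      (h'.mom a b κ 0 p _ v w ⟨ha, hb, hab, hκ, hκ1, hp⟩ fun u => rfl)
  obtain ⟨p, q, hp, hq, hpq⟩ := m1_parts hf
  rw [hpq, h.lin a _ _ _ v ha, h'.lin a _ _ _ v ha, inner_add_right, inner_add_right,
    inner_smul_right, inner_smul_right, key, key]

/-- the smeared second moments in terms of the sharp ones -/
theorem sec_eq (hT : Q.IsStress T) (h : SecMom Q T A M) (hm : Mom Q T K) (g1 : Gen1 Q T A)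
    (hk : ∀ a b, IsNull a → IsNull b → GF.mdot a b = 1 →
      H731.KC Q A a (K a) (Cop Q A K a b)) :
    ∃ C : V → D → D, (∀ a b v, IsNull a → IsNull b → GF.mdot a b = 1 →
      C a v = Cop Q A K a b v) ∧ ∀ a f v, IsNull a → M a f v = (∫ u : ℝ, f u) • K a v -
        (2 * ∫ u : ℝ, (u : ℂ) * f u) • (A (fun z => z) v + C a v) := by
  obtain ⟨C, hC, h'⟩ := sec_of hT h.toRep hm g1 hk
  exact ⟨C, hC, fun a f v ha => sec_unique h h' ha f v⟩

/-- the smeared second moments, if the tensor fields of real dimension generate the theory: the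
second moment on the plane `a·x = u` is `K a - 2 u A (fun z => z)` -/
theorem sec_tgen (hT : Q.IsStress T) (h : SecMom Q T A M) (hm : Mom Q T K) (g1 : Gen1 Q T A)
    (hk : ∀ a b, IsNull a → IsNull b → GF.mdot a b = 1 →
      H731.KC Q A a (K a) (Cop Q A K a b)) (hg : TGen Q) {a : V} (ha : IsNull a)
    (f : 𝓢(ℝ, ℂ)) (v : D) :
    M a f v = (∫ u : ℝ, f u) • K a v - (2 * ∫ u : ℝ, (u : ℂ) * f u) • A (fun z => z) v := by
  obtain ⟨C, hC, h1⟩ := sec_eq hT h hm g1 hk
  obtain ⟨b, hb, hab⟩ := H755.exists_dual ha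
  have h2 : C a v = 0 := by
    rw [hC a b v ha hb hab]
    exact kc_zero hT hm hg (fun l d Φ hΦ μ => gl_ten h.toRep hΦ μ) (hk a b ha hb hab) v
  rw [h1 a f v ha, h2, add_zero]

/-- **Special conformal generators**, if the tensor fields of real dimension generate the
theory. -/
theorem confGen_of (hT : Q.IsStress T) (R : Rep Q A) (hm : Mom Q T K) (hg : TGen Q)
    (hcov : ∀ s L r a b v, 0 < s → 0 < r → IsLor L → IsNull a → IsNull b →
      sim 1 L 0 a = r • b → Q.U s L 0 (K a v) = ((r / s : ℝ) : ℂ) • K b (Q.U s L 0 v))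
    (hk : ∀ a b, IsNull a → IsNull b → GF.mdot a b = 1 →
      H731.KC Q A a (K a) (Cop Q A K a b)) : ConfGen Q A K where
  toRep := R
  symm a v w ha := by
    obtain ⟨b, hb, hab⟩ := H755.exists_dual ha
    exact (hk a b ha hb hab).ks v w
  cov s L r a b v hs hr hL ha hb hab := hcov s L r a b v hs hr hL ha hb hab
  tra a x v ha := by
    obtain ⟨b, hb, hab⟩ := H755.exists_dual ha
    have h1 : Q.U 1 GF.one x (K a (Q.U 1 GF.one (-x) v)) = K a v + A (XX a x) v -
      ((2 * GF.mdot a x : ℝ) : ℂ) • Cop Q A K a b v := (hk a b ha hb hab).tra x v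
    rw [kc_zero hT hm hg (fun l d Φ hΦ μ => gl_ten R hΦ μ) (hk a b ha hb hab) v, smul_zero,
      sub_zero] at h1
    exact h1

end Vale.Agent.P352.MO
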