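import Vale.Agent.P352.H755.R7h

/-!
# P352 MO: conservation for the sources of Poincaré currents
-/

set_option linter.all false

noncomputable section

open MeasureTheory Filter Topology Set
open scoped ContDiff ComplexConjugate

namespace Vale.Agent.P352.MO

open GF (Ix V Fn bas eta pd bar sim o)
open H246 H496 H15 H755

variable {D : Type*} [NormedAddCommGroup D] [InnerProductSpace ℂ D] {Q : GF.Theory D}
  {T : Ix → Ix → GF.Fld D}

/-- the product rule -/
lemma dr_mul {f g : V → ℝ} (hf : ContDiff ℝ ∞ f) (hg : ContDiff ℝ ∞ g) (m : Ix) (x : V) :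
    dr m (fun x => f x * g x) x = dr m f x * g x + f x * dr m g x := by
  have h1 := (diff_line hf m x).mul (diff_line hg m x)
  have e0 : x + bas m 0 = x := by rw [bas_t, zero_smul, add_zero]
  have h2 := h1.deriv
  unfold dr
  refine Eq.trans ?_ (h2.trans ?_)
  · rfl
  · rw [e0]
    rfl

lemma cd_dr {f : V → ℝ} (hf : ContDiff ℝ ∞ f) (m : Ix) : ContDiff ℝ ∞ (dr m f) := by
  have e : dr m f = fun x => fderiv ℝ f x (bas m 1) := funext fun x => dr_fd hf m x
  rw [e]
  exact (hf.fderiv_right (m := ∞) (by simp)).clm_apply contDiff_const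

lemma supp_dr {f : V → ℝ} (hf : ContDiff ℝ ∞ f) (m : Ix) : tsupport (dr m f) ⊆ tsupport f := by
  have e : dr m f = fun x => fderiv ℝ f x (bas m 1) := funext fun x => dr_fd hf m x
  rw [e]
  refine (closure_mono fun x hx => ?_).trans (tsupport_fderiv_subset ℝ (f := f))
  intro h0
  apply hx
  show fderiv ℝ f x (bas m 1) = 0
  rw [h0]
  rfl

lemma tst_of {f : V → ℝ} (hf : ContDiff ℝ ∞ f) {K : Set V} (hK : IsCompact K)
    (hs : tsupport f ⊆ K) : Tst f := ⟨hf, hK.of_isClosed_subset (isClosed_tsupport f) hs⟩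

/-- the derivative of an infinitesimal Poincaré transformation -/
lemma dr_sim {X : V → V} {c : V} {w : Ix → V} (hX : ∀ z n, X z n = c n + 0 * z n + ∑ m, z m * w m n)
    (m n : Ix) (x : V) : dr m (fun x => eta n * X x n) x = eta n * w m n := by
  have e : (fun t : ℝ => eta n * X (x + bas m t) n) = fun t : ℝ => eta n * X x n +
      t * (eta n * w m n) + t ^ 2 * 0 := by
    funext t
    have e1 : ∑ k, (x + bas m t) k * w k n = (∑ k, x k * w k n) + t * w m n := by
      rw [show (fun k => (x + bas m t) k * w k n) = fun k => x k * w k n +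
        (if k = m then t * w m n else 0) from ?_, Finset.sum_add_distrib]
      · simp
      · funext k
        simp only [Pi.add_apply, bas]
        split_ifs with h
        · subst h; ring
        · ring
    rw [hX, hX, e1]
    ring
  unfold dr
  rw [e]
  exact (hasDeriv_poly _ _ _).deriv

/-- **Conservation**: partial integration in the sources of Poincaré currents. -/
theorem src_ibp (hT : Q.IsStress T) {ζ ξ : V → ℝ} (hζ : ContDiff ℝ ∞ ζ) (hξ : ContDiff ℝ ∞ ξ)
    {S : Set V} (hS : IsCompact S) (hs : tsupport ζ ∩ tsupport ξ ⊆ S) {X : V → V}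
    (hX : IsSim 0 X) (v : D) :
    sm T (fun m n x => dr m ζ x * ξ x * (eta n * X x n)) v =
      -sm T (fun m n x => ζ x * dr m ξ x * (eta n * X x n)) v := by
  obtain ⟨c, w, hw, hXe⟩ := id hX
  have hXc : ∀ n, ContDiff ℝ ∞ fun x => eta n * X x n := fun n =>
    contDiff_const.mul (contDiff_sim hX n)
  have t1 : ∀ m n, Tst fun x => dr m ζ x * ξ x * (eta n * X x n) := fun m n => by
    refine tst_of (((cd_dr hζ m).mul hξ).mul (hXc n)) hS ?_
    refine (tsupport_mul_subset_left.trans ?_).trans hs
    exact subset_inter (tsupport_mul_subset_left.trans (supp_dr hζ m)) tsupport_mul_subset_right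
  have t2 : ∀ m n, Tst fun x => ζ x * dr m ξ x * (eta n * X x n) := fun m n => by
    refine tst_of ((hζ.mul (cd_dr hξ m)).mul (hXc n)) hS ?_
    refine (tsupport_mul_subset_left.trans ?_).trans hs
    exact subset_inter tsupport_mul_subset_left (tsupport_mul_subset_right.trans (supp_dr hξ m))
  have t3 : ∀ m n, Tst fun x => ζ x * ξ x * (eta n * w m n) := fun m n => by
    refine tst_of ((hζ.mul hξ).mul contDiff_const) hS ?_
    refine (tsupport_mul_subset_left.trans ?_).trans hs
    exact subset_inter tsupport_mul_subset_left tsupport_mul_subset_right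
  have t0 : ∀ n, Tst fun x => ζ x * ξ x * (eta n * X x n) := fun n => by
    refine tst_of ((hζ.mul hξ).mul (hXc n)) hS ?_
    refine (tsupport_mul_subset_left.trans ?_).trans hs
    exact subset_inter tsupport_mul_subset_left tsupport_mul_subset_right
  refine ext_inner_left ℂ fun z => ?_
  have h1 := mt_cons (Q := Q) hT t0 z v
  have h2 : mt T z v (fun m n x => ζ x * ξ x * (eta n * w m n)) = 0 := by
    refine mt_anti hT t3 (fun m n x => ?_) z v
    rw [hw]
    ring
  have s12 : ∀ m n, Tst fun x => dr m ζ x * ξ x * (eta n * X x n) +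
      1 * (ζ x * dr m ξ x * (eta n * X x n)) :=
    fun m n => ⟨(t1 m n).1.add (contDiff_const.mul (t2 m n).1), (t1 m n).2.add ((t2 m n).2.mul_left)⟩
  have h3 := mt_add hT t1 t2 1 z v
  have h4 := mt_add hT (F := fun m n x => dr m ζ x * ξ x * (eta n * X x n) +
      1 * (ζ x * dr m ξ x * (eta n * X x n))) s12 t3 1 z v
  have e : (fun m n x => dr m ζ x * ξ x * (eta n * X x n) +
      1 * (ζ x * dr m ξ x * (eta n * X x n)) + 1 * (ζ x * ξ x * (eta n * w m n))) =
      fun m n x => dr m (fun x => ζ x * ξ x * (eta n * X x n)) x := by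
    funext m n x
    rw [dr_mul (hζ.mul hξ) (hXc n), dr_mul hζ hξ, dr_sim hXe]
    ring
  rw [e, h1, h3, h2] at h4
  rw [inner_neg_right]
  push_cast at h4
  unfold H755.mt at h4
  linear_combination -h4

end Vale.Agent.P352.MO

end
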