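import Vale.Agent.P352.MO.D
import Vale.Agent.P352.MO.Bt

/-!
# P352 MO: the flat and the bent charges
-/

set_option linter.all false

noncomputable section

open MeasureTheory Filter Topology Set
open scoped ContDiff ComplexConjugate

namespace Vale.Agent.P352.MO

open GF (Ix V Fn bas eta pd bar sim o)
open H246 H496 H15 H755 H846

variable {D : Type*} [NormedAddCommGroup D] [InnerProductSpace ℂ D] {Q : GF.Theory D}
  {T : Ix → Ix → GF.Fld D}

/-- slabs cut off by `cut` are compact -/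
lemma slab_cpt {a b : V} {κ : V → ℝ} (hbb : GF.mdot b b = 0) (hab : GF.mdot a b = 1)
    (hκ : HasCompactSupport κ) {R : ℝ} (hR : R ≠ 0) (p q : ℝ) :
    ∃ S : Set V, IsCompact S ∧ ∀ x, cv a b R x ∈ tsupport κ → GF.mdot a x ∈ Icc p q → x ∈ S := by
  have hc : Continuous fun z : V × ℝ => R • (z.1 - GF.mdot b z.1 • a) + z.2 • b +
      (R ^ 2 * GF.mdot b z.1) • a := by
    have h2 := (contDiff_mdot b).continuous
    fun_prop
  refine ⟨_, (hκ.isCompact.prod (isCompact_Icc (a := p) (b := q))).image hc, fun x hx hu => ?_⟩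
  refine ⟨(cv a b R x, GF.mdot a x), ⟨hx, hu⟩, ?_⟩
  show R • (cv a b R x - GF.mdot b (cv a b R x) • a) + GF.mdot a x • b +
      (R ^ 2 * GF.mdot b (cv a b R x)) • a = x
  rw [mdot_cv hbb hab]
  unfold cv
  have hR2 : R ^ 2 * (GF.mdot b x / R ^ 2) = GF.mdot b x := by field_simp
  rw [hR2, add_sub_cancel_left, smul_smul, mul_inv_cancel₀ hR, one_smul]
  abel

lemma supp_cut (a b : V) (κ : V → ℝ) (R : ℝ) {x : V} (hx : x ∈ tsupport (cut a b κ R)) :
    cv a b R x ∈ tsupport κ := by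
  have h1 : IsClosed (cv a b R ⁻¹' tsupport κ) :=
    (isClosed_tsupport κ).preimage (contDiff_cv a b R).continuous
  refine closure_minimal (fun z hz => ?_) h1 hx
  exact subset_tsupport _ hz

section

variable {Ψ ψ : ℝ → ℝ} {p q c h δ R : ℝ} {a b : V}

lemma supp_df (hΨ : Stp Ψ ψ p q c) (hh : 0 ≤ h) {x : V}
    (hx : x ∈ tsupport fun x => Ψ (GF.mdot a x) - Bt a b Ψ h δ R x) :
    GF.mdot a x ∈ Icc p (q + h) := by
  have h1 : IsClosed {x : V | GF.mdot a x ∈ Icc p (q + h)} :=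
    isClosed_Icc.preimage (contDiff_mdot a).continuous
  refine closure_minimal (fun z hz => ?_) h1 hx
  by_contra hn
  apply hz
  show Ψ (GF.mdot a z) - Bt a b Ψ h δ R z = 0
  rcases not_and_or.1 (fun h' : p ≤ GF.mdot a z ∧ GF.mdot a z ≤ q + h => hn h') with h2 | h2
  · rw [not_le] at h2
    rw [hΨ.Bt_lo hh h2.le, hΨ.lo _ h2.le, sub_zero]
  · rw [not_le] at h2
    rw [hΨ.Bt_hi hh h2.le, hΨ.hi _ (by linarith), sub_self]

lemma cd_df (hΨ : Stp Ψ ψ p q c) :
    ContDiff ℝ ∞ fun x => Ψ (GF.mdot a x) - Bt a b Ψ h δ R x :=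
  (hΨ.cd.comp (contDiff_mdot a)).sub (contDiff_Bt hΨ.cd)

lemma cd_cut {κ : V → ℝ} (hκ : ContDiff ℝ ∞ κ) : ContDiff ℝ ∞ (cut a b κ R) :=
  hκ.comp (contDiff_cv a b R)

lemma exists_S (hΨ : Stp Ψ ψ p q c) (hh : 0 ≤ h) {κ : V → ℝ} (hbb : GF.mdot b b = 0)
    (hab : GF.mdot a b = 1) (hκ : HasCompactSupport κ) (hR : R ≠ 0) :
    ∃ S : Set V, IsCompact S ∧ (tsupport fun x => Ψ (GF.mdot a x) - Bt a b Ψ h δ R x) ∩
      tsupport (cut a b κ R) ⊆ S := by
  obtain ⟨S, hS, h1⟩ := slab_cpt hbb hab hκ hR p (q + h)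
  exact ⟨S, hS, fun x hx => h1 x (supp_cut a b κ R hx.2) (supp_df hΨ hh hx.1)⟩

lemma dr_flat (hΨ : Stp Ψ ψ p q c) (m : Ix) (x : V) :
    dr m (fun x => Ψ (GF.mdot a x)) x = eta m * a m * ψ (GF.mdot a x) := by
  unfold dr
  have e : (fun t : ℝ => Ψ (GF.mdot a (x + bas m t))) =
      fun t : ℝ => Ψ (GF.mdot a x + t * (eta m * a m) + t ^ 2 * 0) := by
    funext t
    rw [bas_t, md_add, md_smul, md_bas, mul_zero, add_zero]
  rw [e]
  have h3 : HasDerivAt Ψ (ψ (GF.mdot a x)) (GF.mdot a x + 0 * (eta m * a m) + 0 ^ 2 * 0) := by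
    have := hΨ.der (GF.mdot a x)
    simpa using this
  have h4 := (h3.comp (0:ℝ) (hasDeriv_poly (GF.mdot a x) (eta m * a m) 0)).deriv
  refine Eq.trans ?_ (h4.trans ?_)
  · rfl
  · ring

lemma dr_sub {f g : V → ℝ} (hf : ContDiff ℝ ∞ f) (hg : ContDiff ℝ ∞ g) (m : Ix) (x : V) :
    dr m (fun x => f x - g x) x = dr m f x - dr m g x := by
  have h1 := (diff_line hf m x).sub (diff_line hg m x)
  unfold dr
  exact h1.deriv

lemma psi_zero (hΨ : Stp Ψ ψ p q c) {u : ℝ} (h : u < p ∨ q < u) : ψ u = 0 := by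
  have h1 : deriv Ψ u = ψ u := (hΨ.der u).deriv
  rw [← h1]
  rcases h with h | h
  · have h2 : Ψ =ᶠ[𝓝 u] fun _ => 0 := by
      filter_upwards [Iio_mem_nhds h] with v hv
      exact hΨ.lo v (le_of_lt hv)
    rw [h2.deriv_eq, deriv_const]
  · have h2 : Ψ =ᶠ[𝓝 u] fun _ => c := by
      filter_upwards [Ioi_mem_nhds h] with v hv
      exact hΨ.hi v (le_of_lt hv)
    rw [h2.deriv_eq, deriv_const]

/-- support of the derivative of the bent surface -/
lemma supp_Bt (hΨ : Stp Ψ ψ p q c) (hh : 0 ≤ h) {m : Ix} {x : V}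
    (hx : x ∈ tsupport (dr m (Bt a b Ψ h δ R))) : GF.mdot a x ∈ Icc p (q + h) := by
  have h1 : IsClosed {x : V | GF.mdot a x ∈ Icc p (q + h)} :=
    isClosed_Icc.preimage (contDiff_mdot a).continuous
  refine closure_minimal (fun z hz => ?_) h1 hx
  by_contra hn
  apply hz
  have hc := (contDiff_mdot a).continuous
  have hfd : dr m (Bt a b Ψ h δ R) z = fderiv ℝ (Bt a b Ψ h δ R) z (bas m 1) :=
    dr_fd (contDiff_Bt hΨ.cd) m z
  rcases not_and_or.1 (fun h' : p ≤ GF.mdot a z ∧ GF.mdot a z ≤ q + h => hn h') with h2 | h2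
  · rw [not_le] at h2
    have h3 : Bt a b Ψ h δ R =ᶠ[𝓝 z] fun _ => 0 := by
      filter_upwards [hc.continuousAt.preimage_mem_nhds (Iio_mem_nhds h2)] with v hv
      exact hΨ.Bt_lo hh (le_of_lt hv)
    rw [hfd, h3.fderiv_eq]
    simp
  · rw [not_le] at h2
    have h3 : Bt a b Ψ h δ R =ᶠ[𝓝 z] fun _ => c := by
      filter_upwards [hc.continuousAt.preimage_mem_nhds (Ioi_mem_nhds h2)] with v hv
      exact hΨ.Bt_hi hh (le_of_lt hv)
    rw [hfd, h3.fderiv_eq]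
    simp

/-- the sources are test functions -/
lemma s2_tst (hΨ : Stp Ψ ψ p q c) (hh : 0 ≤ h) {κ : V → ℝ} (hbb : GF.mdot b b = 0)
    (hab : GF.mdot a b = 1) (hκ : Tst κ) (hR : R ≠ 0) {r : ℝ} {X : V → V} (hX : IsSim r X)
    (m n : Ix) : Tst (s2 a b κ Ψ h δ R X m n) := by
  obtain ⟨S, hS, h1⟩ := slab_cpt hbb hab hκ.2 hR p (q + h)
  refine tst_of (((cd_dr (contDiff_Bt hΨ.cd) m).mul (cd_cut hκ.1)).mul
    (contDiff_const.mul (contDiff_sim hX n))) hS fun x hx => ?_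
  have h2 := tsupport_mul_subset_left hx
  exact h1 x (supp_cut a b κ R (tsupport_mul_subset_right h2))
    (supp_Bt hΨ hh (tsupport_mul_subset_left h2))

lemma rr_tst (hΨ : Stp Ψ ψ p q c) (hh : 0 ≤ h) {κ : V → ℝ} (hbb : GF.mdot b b = 0)
    (hab : GF.mdot a b = 1) (hκ : Tst κ) (hR : R ≠ 0) {r : ℝ} {X : V → V} (hX : IsSim r X)
    (m n : Ix) : Tst (rr a b κ Ψ h δ R X m n) := by
  obtain ⟨S, hS, h1⟩ := exists_S (δ := δ) hΨ hh hbb hab hκ.2 hR
  refine tst_of (((cd_df hΨ).mul (cd_dr (cd_cut hκ.1) m)).mul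
    (contDiff_const.mul (contDiff_sim hX n))) hS fun x hx => ?_
  have h2 := tsupport_mul_subset_left hx
  exact h1 ⟨tsupport_mul_subset_left h2, supp_dr (cd_cut hκ.1) m (tsupport_mul_subset_right h2)⟩

lemma flat_tst (hΨ : Stp Ψ ψ p q c) {κ : V → ℝ} (hψ : ContDiff ℝ ∞ ψ) (hbb : GF.mdot b b = 0)
    (hab : GF.mdot a b = 1) (hκ : Tst κ) (hR : R ≠ 0) {r : ℝ} {X : V → V} (hX : IsSim r X)
    (m n : Ix) : Tst fun x => eta m * a m * (eta n * X x n) * ctf a b κ 0 ψ R x := by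
  obtain ⟨S, hS, h1⟩ := slab_cpt hbb hab hκ.2 hR p q
  have e : ctf a b κ 0 ψ R = fun x => cut a b κ R x * ψ (GF.mdot a x) := by
    funext x
    unfold ctf
    rw [sub_zero]
  refine tst_of ((contDiff_const.mul (contDiff_const.mul (contDiff_sim hX n))).mul ?_) hS
    fun x hx => ?_
  · rw [e]
    exact (cd_cut hκ.1).mul (hψ.comp (contDiff_mdot a))
  · have h2 := tsupport_mul_subset_right hx
    rw [e] at h2
    refine h1 x (supp_cut a b κ R (tsupport_mul_subset_left h2)) ?_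
    have h3 := tsupport_mul_subset_right h2
    have h4 : IsClosed {x : V | GF.mdot a x ∈ Icc p q} :=
      isClosed_Icc.preimage (contDiff_mdot a).continuous
    refine closure_minimal (fun z hz => ?_) h4 h3
    by_contra hn
    apply hz
    rcases not_and_or.1 (fun h' : p ≤ GF.mdot a z ∧ GF.mdot a z ≤ q => hn h') with h5 | h5
    · exact psi_zero hΨ (Or.inl (not_le.1 h5))
    · exact psi_zero hΨ (Or.inr (not_le.1 h5))

/-- **The flat charge is the bent charge minus the difference.** -/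
theorem flat_eq (hT : Q.IsStress T) (hΨ : Stp Ψ ψ p q c) (hψ : ContDiff ℝ ∞ ψ) (hh : 0 ≤ h)
    {κ : V → ℝ} (hbb : GF.mdot b b = 0) (hab : GF.mdot a b = 1) (hκ : Tst κ) (hR : R ≠ 0)
    {X : V → V} (hX : IsSim 0 X) (v : D) :
    sm T (fun m n x => eta m * a m * (eta n * X x n) * ctf a b κ 0 ψ R x) v =
      sm T (s2 a b κ Ψ h δ R X) v - sm T (rr a b κ Ψ h δ R X) v := by
  obtain ⟨S, hS, hs⟩ := exists_S (δ := δ) hΨ hh hbb hab hκ.2 hR
  have h1 := src_ibp hT (cd_df (a := a) (b := b) (h := h) (δ := δ) (R := R) hΨ) (cd_cut hκ.1) hS hs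
    hX v
  have t1 := fun m n => flat_tst (a := a) (b := b) hΨ hψ hbb hab hκ hR hX m n
  have t2 := fun m n => s2_tst (δ := δ) hΨ hh hbb hab hκ hR hX m n
  refine ext_inner_left ℂ fun w => ?_
  have h2 := mt_add hT t1 t2 (-1) w v
  have e : (fun m n x => dr m (fun x => Ψ (GF.mdot a x) - Bt a b Ψ h δ R x) x * cut a b κ R x *
      (eta n * X x n)) = fun m n x => eta m * a m * (eta n * X x n) * ctf a b κ 0 ψ R x +
        -1 * s2 a b κ Ψ h δ R X m n x := by
    funext m n x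
    have e5 : dr m (fun x => Ψ (GF.mdot a x) - Bt a b Ψ h δ R x) x =
        dr m (fun x => Ψ (GF.mdot a x)) x - dr m (Bt a b Ψ h δ R) x :=
      dr_sub (f := fun x => Ψ (GF.mdot a x)) (hΨ.cd.comp (contDiff_mdot a))
        (contDiff_Bt hΨ.cd) m x
    have e3 := dr_flat (a := a) hΨ m x
    rw [e5]
    have e4 : ctf a b κ 0 ψ R x = cut a b κ R x * ψ (GF.mdot a x) := by
      unfold ctf
      rw [sub_zero]
    rw [e3, e4]
    unfold s2
    ring
  rw [e] at h1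
  have h3 : inner ℂ w (sm T (fun m n x => eta m * a m * (eta n * X x n) * ctf a b κ 0 ψ R x +
        -1 * s2 a b κ Ψ h δ R X m n x) v) = -inner ℂ w (sm T (rr a b κ Ψ h δ R X) v) := by
    rw [h1, inner_neg_right]
    rfl
  have h4 : inner ℂ w (sm T (fun m n x => eta m * a m * (eta n * X x n) * ctf a b κ 0 ψ R x +
        -1 * s2 a b κ Ψ h δ R X m n x) v) =
      inner ℂ w (sm T (fun m n x => eta m * a m * (eta n * X x n) * ctf a b κ 0 ψ R x) v) +
        ((-1 : ℝ) : ℂ) * inner ℂ w (sm T (s2 a b κ Ψ h δ R X) v) := h2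
  rw [inner_sub_right]
  push_cast at h4
  linear_combination h3 - h4

end

end Vale.Agent.P352.MO

end
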