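import Vale.Agent.P352.NF.Defs
import Vale.Agent.P352.ND.Defs

open MeasureTheory Filter Topology
open scoped SchwartzMap

namespace Vale.Agent.P352.MO

open GF H246 H496 H755 H15

noncomputable section

variable {D : Type*} [NormedAddCommGroup D] [InnerProductSpace ℂ D]

/-- The second moments `M a f = - ∫ f (a·x) (x·x) T_aa(x) dx` of the null components `T_aa` of the
stress tensor `T` between null hyperplanes exist, as an operator valued tempered distribution
`f ↦ M a f` on the line, with values in the operators on `D`. -/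
structure SecMom (Q : Theory D) (T : Ix → Ix → Fld D) (A : (V → V) → D → D)
    (M : V → 𝓢(ℝ, ℂ) → D → D) : Prop extends Rep Q A where
  lin : ∀ a (f g : 𝓢(ℝ, ℂ)) (c : ℂ) v, IsNull a → M a (f + c • g) v = M a f v + c • M a g v
  cont : ∀ a v w, IsNull a → Continuous fun f : 𝓢(ℝ, ℂ) => inner ℂ w (M a f v)
  mom : ∀ a b κ y ψ (f : 𝓢(ℝ, ℂ)) v w, Adm a b κ ψ → (∀ u, f u = ψ u) → Tendsto (fun R =>
    inner ℂ w (sm T (fun m n x => eta m * a m * (eta n * a n) * -GF.mdot x x *
      ctf a b κ y ψ R x) v)) atTop (𝓝 (inner ℂ w (M a f v)))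

/-- The charges of the null components `T_aa` of the stress tensor and their first moments, on null
hyperplanes orthogonal to `a`, are the generators of the Poincaré transformations. -/
structure GenA (T : Ix → Ix → Fld D) (A : (V → V) → D → D) : Prop where
  zero : ∀ a b κ y ψ v w, Adm a b κ ψ → Tendsto (fun R => inner ℂ w (sm T (fun m n x =>
    eta m * a m * (eta n * a n) * ctf a b κ y ψ R x) v)) atTop
    (𝓝 ((∫ u, (ψ u : ℂ)) * inner ℂ w (A (fun _ => a) v)))
  one : ∀ a b κ y ψ x0 v w, Adm a b κ ψ → Tendsto (fun R => inner ℂ w (sm T (fun m n x =>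
    eta m * a m * (eta n * a n) * GF.mdot x0 x * ctf a b κ y ψ R x) v)) atTop
    (𝓝 ((∫ u, (ψ u : ℂ)) * inner ℂ w (A (fun z => GF.mdot x0 z • a - GF.mdot a z • x0) v) +
      (∫ u, ((u * ψ u : ℝ) : ℂ)) * inner ℂ w (A (fun _ => x0) v)))

/-- `NF.NullMom` with the charges `GenA` -/
structure NMom (Q : Theory D) (T : Ix → Ix → Fld D) (A : (V → V) → D → D) (K : V → D → D) :
    Prop extends Rep Q A where
  gen : GenA T A
  mom : Mom Q T K
  cont : ∀ a b v w, IsNull a → IsNull b →
    Continuous fun u : ℝ => inner ℂ w (Q.U 1 GF.one (u • b) (K a (Q.U 1 GF.one (-(u • b)) v)))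

/-- `SL.SlabMom` with the charges `GenA` -/
structure SMom (Q : Theory D) (T : Ix → Ix → Fld D) (A : (V → V) → D → D)
    (M : V → 𝓢(ℝ, ℂ) → D → D) : Prop extends SecMom Q T A M where
  gen : GenA T A

end

end Vale.Agent.P352.MO
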