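import Vale.Agent.P352.MO.E0
import Vale.Agent.P352.ND.A3c

/-!
# P352 MO: commutators of the charges on bent surfaces with fields
-/

set_option linter.all false

noncomputable section

open MeasureTheory Filter Topology Set
open scoped ContDiff ComplexConjugate SchwartzMap

namespace Vale.Agent.P352.MO

open GF (Ix V Fn bas eta pd bar sim o)
open H246 H496 H15 H755 ND

variable {D : Type*} [NormedAddCommGroup D] [InnerProductSpace ℂ D] {Q : GF.Theory D}
  {T : Ix → Ix → GF.Fld D} {A : (V → V) → D → D}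

/-- **(E)** the commutators of the charges on the bent surface with the fields between the flat and
the raised part are those of the generators of the Poincaré group. -/
theorem e_com (hT : Q.IsStress T) (hP : PCh Q T A) {a b : V} (ha : IsNull a) (hb : IsNull b)
    (hab : GF.mdot a b = 1) {κ : V → ℝ} (hκ : Tst κ) (hκ1 : ∀ᶠ x in 𝓝 0, κ x = 1) {h : ℝ}
    (hh : 0 < h) :
    ∃ δ0 > 0, ∀ δ, 0 < δ → δ ≤ δ0 → ∀ (Ψ ψ : ℝ → ℝ) (p q c : ℝ), Stp Ψ ψ p q c →
      ∀ {X : V → V}, IsSim 0 X → ∀ {B : GF.Fld D}, Q.fld B → ∀ {f : Fn}, H755.CS f →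
      (∀ y ∈ tsupport f, q < GF.mdot a y ∧ GF.mdot a y < p + h) →
      ∀ᶠ R : ℝ in atTop, ∀ v,
        sm T (s2 a b κ Ψ h δ R X) (B f v) - B f (sm T (s2 a b κ Ψ h δ R X) v) =
          (c : ℂ) • (A X (B f v) - B f (A X v)) := by
  obtain ⟨δ0, hδ0, h0⟩ := e_com0 ha hb hab hκ hκ1 hh hT
  refine ⟨δ0, hδ0, fun δ hδ hδδ Ψ ψ p q c hΨ X hX B hB f hf hs => ?_⟩
  filter_upwards [h0 δ hδ hδδ Ψ ψ p q c hΨ hX hB hf hs] with R hR v
  obtain ⟨g, hg, h1⟩ := hR
  rw [h1, com_gen hT hP hX hB hf hg]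

end Vale.Agent.P352.MO

end
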