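import Vale.Agent.P352.MO.Geo

/-!
# P352 MO: commutators of the charges on bent surfaces with fields
-/

set_option linter.all false

noncomputable section

open MeasureTheory Filter Topology Set
open scoped ContDiff ComplexConjugate SchwartzMap

namespace Vale.Agent.P352.MO

open GF (Ix V Fn bas eta pd bar sim o)
open H246 H496 H15 H755 H846

variable {D : Type*} [NormedAddCommGroup D] [InnerProductSpace ℂ D] {Q : GF.Theory D}
  {T : Ix → Ix → GF.Fld D}

lemma po_sim {X : V → V} (hX : IsSim 0 X) : ND.IsPo fun n x => X x n := by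
  obtain ⟨c, w, hw, h⟩ := hX
  exact ⟨c, w, hw, fun n x => by
    show X x n = _
    rw [h]; ring⟩

lemma dr_tm {Θ α : ℝ → ℝ} (hd : ∀ u, HasDerivAt Θ (α u) u) (m : Ix) (x : V) :
    dr m (fun x : V => Θ (x o)) x = if m = o then α (x o) else 0 := by
  unfold dr
  by_cases h : m = o
  · subst h
    have e : ∀ s : ℝ, (x + bas o s) o = x o + s := by intro s; simp [bas]
    simp only [e, if_true]
    have h1 : HasDerivAt (fun s : ℝ => Θ (x o + s)) (α (x o)) 0 := by
      have h2 : HasDerivAt Θ (α (x o)) (x o + 0) := by rw [add_zero]; exact hd _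
      exact h2.comp_const_add (x o) 0
    exact h1.deriv
  · have e : ∀ s : ℝ, (x + bas m s) o = x o := by intro s; simp [bas, Ne.symm h]
    simp only [e, if_neg h]
    exact deriv_const _ _

lemma dr_nh {f g : V → ℝ} {x : V} (h : f =ᶠ[𝓝 x] g) (m : Ix) : dr m f =ᶠ[𝓝 x] dr m g := by
  filter_upwards [eventually_eventually_nhds.2 h] with y hy
  unfold dr
  apply Filter.EventuallyEq.deriv_eq
  have hc : Continuous fun t : ℝ => y + bas m t := by
    have e : (fun t : ℝ => y + bas m t) = fun t : ℝ => y + t • bas m 1 := by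
      funext t
      rw [bas_t]
    rw [e]
    fun_prop
  have h0 : y + bas m 0 = y := by rw [bas_t, zero_smul, add_zero]
  have h1 : Tendsto (fun t : ℝ => y + bas m t) (𝓝 0) (𝓝 y) := by
    have := hc.tendsto 0
    rwa [h0] at this
  exact h1.eventually hy

lemma dr_c (k : ℝ) (m : Ix) (x : V) : dr m (fun _ => k) x = 0 := by
  unfold dr
  exact deriv_const _ _

/-- steps in the past -/
lemma exists_past (M : ℝ) : ∃ Θ α : ℝ → ℝ, Tst α ∧ ∫ u, α u = 1 ∧
    Stp Θ α (-M - 2) (-M - 1) 1 ∧ ∀ u, α u ≠ 0 → -M - 2 ≤ u ∧ u ≤ -M - 1 := by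
  let f : ContDiffBump (-M - 3 / 2 : ℝ) := ⟨1 / 4, 1 / 2, by norm_num, by norm_num⟩
  have h1 : Tst (f.normed volume) := ⟨f.contDiff_normed, f.hasCompactSupport_normed⟩
  have h2 : ∫ u, f.normed volume u = 1 := f.integral_normed
  have h3 : ∀ u, f.normed volume u ≠ 0 → -M - 2 ≤ u ∧ u ≤ -M - 1 := by
    intro u hu
    have h1 : u ∈ Function.support (f.normed volume) := hu
    rw [f.support_normed_eq, Metric.mem_ball, Real.dist_eq, abs_lt] at h1
    have h4 : f.rOut = 1 / 2 := rfl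
    rw [h4] at h1
    constructor <;> linarith [h1.1, h1.2]
  have h4 := stp_prm h1 h3
  rw [h2] at h4
  exact ⟨_, _, h1, h2, h4, h3⟩

variable {Ψ ψ : ℝ → ℝ} {p q c h δ R : ℝ} {a b : V}

lemma mdot_sp (a x : V) : GF.mdot a x = a 0 * x o + GF.mdot a (H755.sp x) := by
  rw [mdx, mdx]
  simp only [H755.sp, o]
  simp
  ring

lemma sp_le (x : V) : ‖H755.sp x‖ ≤ ‖x‖ := by
  rw [pi_norm_le_iff_of_nonneg (norm_nonneg _)]
  intro i
  unfold H755.sp
  by_cases hi : i = o
  · rw [if_pos hi, norm_zero]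
    exact norm_nonneg _
  · rw [if_neg hi]
    exact norm_le_pi_norm x i

/-- the difference of the bent surface and the time surface -/
lemma G_tst (ha : IsNull a) (hΨ : Stp Ψ ψ p q c) (hh : 0 ≤ h) {Θ α : ℝ → ℝ} {s t : ℝ}
    (hΘ : Stp Θ α s t 1) {R' : ℝ} (hR' : 0 < R') :
    Tst fun x : V => (Bt a b Ψ h δ R x - c * Θ (x o)) * H755.chi R' x := by
  have ha0 : 0 < a 0 := ha.2
  refine ⟨((contDiff_Bt hΨ.cd).sub (contDiff_const.mul
    (hΘ.cd.comp (contDiff_apply ℝ ℝ o)))).mul (contDiff_chi R'), ?_⟩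
  obtain ⟨E, hE⟩ : ∃ E, E = |p| + |q| + h + ‖ml a‖ * (2 * R') := ⟨_, rfl⟩
  have hE0 : 0 ≤ E := by rw [hE]; positivity
  obtain ⟨W, hW⟩ : ∃ W, W = |s| + |t| + E / a 0 := ⟨_, rfl⟩
  have hEW : E / a 0 ≤ W := by
    rw [hW]
    have := abs_nonneg s
    have := abs_nonneg t
    linarith
  have hEW' : E ≤ a 0 * W := by
    rw [div_le_iff₀ ha0] at hEW
    linarith
  have hE1 : 0 ≤ E / a 0 := by positivity
  refine HasCompactSupport.intro (isCompact_closedBall (0 : V) (max W (2 * R'))) fun x hx => ?_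
  by_contra hne
  apply hx
  rw [mem_closedBall_zero_iff]
  have h1 := chi_supp hR' (right_ne_zero_of_mul hne)
  refine (norm_le_sp x).trans (max_le_max ?_ h1)
  by_contra hlt
  rw [not_le] at hlt
  apply left_ne_zero_of_mul hne
  have h2 := (abs_mdot_le a (H755.sp x)).trans (mul_le_mul_of_nonneg_left h1 (norm_nonneg _))
  have h3 := abs_le.1 h2
  have h4 := mdot_sp a x
  have hp := neg_abs_le p
  have hp' := abs_nonneg p
  have hq := le_abs_self q
  have hq' := abs_nonneg q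
  have hs := neg_abs_le s
  have hs' := abs_nonneg s
  have ht := le_abs_self t
  have ht' := abs_nonneg t
  rcases lt_abs.1 hlt with h5 | h5
  · have h6 : a 0 * W ≤ a 0 * x o := mul_le_mul_of_nonneg_left h5.le ha0.le
    have h7 : q + h ≤ GF.mdot a x := by
      rw [h4]
      linarith [h3.1]
    rw [hΨ.Bt_hi hh h7, hΘ.hi (x o) (by linarith)]
    ring
  · have h6 : a 0 * x o ≤ a 0 * (-W) := mul_le_mul_of_nonneg_left (by linarith) ha0.le
    have h7 : GF.mdot a x ≤ p := by
      rw [h4]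
      linarith [h3.2]
    rw [hΨ.Bt_lo hh h7, hΘ.lo (x o) (by linarith)]
    ring

/-- the sources of the time charges -/
lemma sm_third (hT : Q.IsStress T) {X : V → V} (hX : IsSim 0 X) {g : V → ℝ} (hg : Tst g) (c : ℝ)
    (v : D) : sm T (fun m n x => if m = o then c * (eta n * X x n * g x) else 0) v =
      (c : ℂ) • ∑ n, T o n (fun x => ((eta n * X x n * g x : ℝ) : ℂ)) v := by
  unfold sm
  rw [Finset.sum_eq_single o]
  · rw [Finset.smul_sum]
    refine Finset.sum_congr rfl fun n _ => ?_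
    simp only [if_true]
    exact fld_cmul (Q.bose_fld _ (hT.bose o n)) c (ND.po_tst (po_sim hX) hg n) v
  · intro m _ hm
    refine Finset.sum_eq_zero fun n _ => ?_
    simp only [if_neg hm]
    exact H846.fld_zero (Q.bose_fld _ (hT.bose m n)) v
  · intro hm
    exact absurd (Finset.mem_univ _) hm

/-- **(E)**, first part: the commutators with the charges on the bent surface are those with the
charges in a slab of time. -/
theorem e_com0 (ha : IsNull a) (hb : IsNull b) (hab : GF.mdot a b = 1) {κ : V → ℝ} (hκ : Tst κ)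
    (hκ1 : ∀ᶠ x in 𝓝 0, κ x = 1) (hh : 0 < h) (hT : Q.IsStress T) :
    ∃ δ0 > 0, ∀ δ, 0 < δ → δ ≤ δ0 → ∀ (Ψ ψ : ℝ → ℝ) (p q c : ℝ), Stp Ψ ψ p q c →
      ∀ {X : V → V}, IsSim 0 X → ∀ {B : GF.Fld D}, Q.fld B → ∀ {f : Fn}, H755.CS f →
      (∀ y ∈ tsupport f, q < GF.mdot a y ∧ GF.mdot a y < p + h) →
      ∀ᶠ R : ℝ in atTop, ∃ g, Ok (tsupport f) g ∧ ∀ v,
        sm T (s2 a b κ Ψ h δ R X) (B f v) - B f (sm T (s2 a b κ Ψ h δ R X) v) =
          (c : ℂ) • com T (fun n x => X x n) g B f v := by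
  obtain ⟨ρ, hρ, hκρ⟩ := Metric.eventually_nhds_iff_ball.1 hκ1
  obtain ⟨δ0, hδ0, hgeo⟩ := geo ha hb hab hh hρ
  refine ⟨δ0, hδ0, fun δ hδ hδδ Ψ ψ p q c hΨ X hX B hB f hf hs => ?_⟩
  obtain ⟨M4, hM4⟩ := hf.2.isCompact.isBounded.subset_closedBall (0 : V)
  obtain ⟨M, hM⟩ : ∃ M, M = |M4| := ⟨_, rfl⟩
  have hM0 : 0 ≤ M := by rw [hM]; exact abs_nonneg _
  have hyM : ∀ y ∈ tsupport f, ‖y‖ ≤ M := by
    intro y hy
    have h3 := hM4 hy
    rw [mem_closedBall_zero_iff] at h3
    rw [hM]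
    exact h3.trans (le_abs_self _)
  have hyi : ∀ y ∈ tsupport f, ∀ i, |y i| ≤ M := fun y hy i => by
    have := norm_le_pi_norm y i
    rw [Real.norm_eq_abs] at this
    exact this.trans (hyM y hy)
  obtain ⟨Θ, α, hα, hα1, hΘ, hαs⟩ := exists_past M
  filter_upwards [hgeo δ hδ hδδ Ψ ψ p q c hΨ (tsupport f) M hyM hs, eventually_gt_atTop (0:ℝ)]
    with R hR hR0
  obtain ⟨N, hN⟩ := hR
  obtain ⟨R', hR'N, hR'M⟩ : ∃ R', N < R' ∧ 3 * (M + 3) + 1 ≤ R' :=
    ⟨max N (3 * (M + 3) + 1) + 1, by linarith [le_max_left N (3 * (M + 3) + 1)],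
      by linarith [le_max_right N (3 * (M + 3) + 1)]⟩
  have hR'0 : 0 < R' := by linarith
  obtain ⟨g, hg⟩ : ∃ g : V → ℝ, g = fun x => α (x o) * H755.chi R' x := ⟨_, rfl⟩
  have hgt : Tst g := by rw [hg]; exact tst_prof hα hR'0
  obtain ⟨G, hG⟩ : ∃ G : V → ℝ, G = fun x => (Bt a b Ψ h δ R x - c * Θ (x o)) * H755.chi R' x :=
    ⟨_, rfl⟩
  have hGt : Tst G := by rw [hG]; exact G_tst ha hΨ hh.le hΘ hR'0
  refine ⟨g, ?_, fun v => ?_⟩
  · rw [hg]
    refine ok_prof hα hα1 (M := M + 3) (by linarith) hR'M (fun u hu => ?_) fun y hy i => ?_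
    · have := hαs u hu
      rw [abs_le]
      constructor <;> linarith [this.1, this.2]
    · linarith [hyi y hy i]
  have t1 : ∀ m n, Tst (s2 a b κ Ψ h δ R X m n) := fun m n =>
    s2_tst hΨ hh.le hb.1 hab hκ hR0.ne' hX m n
  have t2 : ∀ m n, Tst fun x => eta n * X x n * dr m G x := fun m n =>
    ND.po_tst (po_sim hX) (tst_dr hGt m) n
  have t3 : ∀ m n, Tst fun x : V => if m = o then c * (eta n * X x n * g x) else 0 := by
    intro m n
    by_cases hm : m = o
    · simp only [if_pos hm]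
      exact tst_smul contDiff_const (ND.po_tst (po_sim hX) hgt n)
    · simp only [if_neg hm]
      exact H846.tst_zero
  have t12 : ∀ m n, Tst fun x => s2 a b κ Ψ h δ R X m n x - eta n * X x n * dr m G x :=
    fun m n => ⟨(t1 m n).1.sub (t2 m n).1, (t1 m n).2.sub (t2 m n).2⟩
  have t123 : ∀ m n, Tst fun x => s2 a b κ Ψ h δ R X m n x - eta n * X x n * dr m G x -
      if m = o then c * (eta n * X x n * g x) else 0 :=
    fun m n => ⟨(t12 m n).1.sub (t3 m n).1, (t12 m n).2.sub (t3 m n).2⟩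
  have key : ∀ u : D, sm T (s2 a b κ Ψ h δ R X) u = sm T (fun m n x =>
      s2 a b κ Ψ h δ R X m n x - eta n * X x n * dr m G x -
        if m = o then c * (eta n * X x n * g x) else 0) u +
      (c : ℂ) • ∑ n, T o n (fun x => ((eta n * X x n * g x : ℝ) : ℂ)) u := by
    intro u
    rw [H846.sm_sub hT t12 t3, H846.sm_sub hT t1 t2, ND.po_cons hT (po_sim hX) hGt,
      sm_third hT hX hgt]
    abel
  have sep := sm_sep hT hB hf.1 t123 ?_ v
  · rw [key, key, fadd hB hf.1, fsmul hB hf.1, sep]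
    unfold com
    rw [smul_sub]
    abel
  rintro m n x ⟨y, hy, hxy⟩
  have hy0 : |y 0| ≤ M := hyi y hy 0
  have hy0' := abs_le.1 hy0
  have hcx : Continuous fun z : V => z o := continuous_apply o
  have cchi : ∀ {L : ℝ}, L < R' → ‖H755.sp x‖ ≤ L → H755.chi R' =ᶠ[𝓝 x] fun _ => 1 := by
    intro L hL h1
    have h2 : ‖H755.sp x‖ < R' := lt_of_le_of_lt h1 hL
    have h3 : ∀ᶠ z in 𝓝 x, ‖H755.sp z‖ < R' :=
      (contDiff_sp.continuous.norm).continuousAt.eventually (gt_mem_nhds h2)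
    filter_upwards [h3] with z hz
    exact chi_one hR'0 hz.le
  have cchi2 : |x o| ≤ M + 3 → H755.chi R' =ᶠ[𝓝 x] fun _ => 1 := by
    intro h1
    by_contra hn
    have h2 : R' ≤ ‖H755.sp x‖ := by
      by_contra hlt
      rw [not_le] at hlt
      refine hn ?_
      obtain ⟨L, hL1, hL2⟩ := exists_between hlt
      exact cchi hL2 hL1.le
    have h3 := H755.sp_far (M := M + 3) (x := x) (y := y) (by linarith) hR'M h1 h2
      (fun i => by linarith [hyi y hy i])
    exact absurd hxy (not_le.2 h3)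
  -- the derivative of the bent surface
  have e1 : s2 a b κ Ψ h δ R X m n =ᶠ[𝓝 x] fun z => dr m (Bt a b Ψ h δ R) z * (eta n * X z n) := by
    rcases hN x y hy hxy with ⟨-, h1⟩ | ⟨-, h1⟩ | ⟨h1, -⟩
    · filter_upwards [dr_nh h1 m] with z hz
      unfold s2
      rw [hz, dr_c]
      ring
    · filter_upwards [dr_nh h1 m] with z hz
      unfold s2
      rw [hz, dr_c]
      ring
    · have h2 : ∀ᶠ z in 𝓝 x, ‖cv a b R z‖ < ρ :=
        ((contDiff_cv a b R).continuous.norm).continuousAt.eventually (gt_mem_nhds h1)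
      filter_upwards [h2] with z hz
      unfold s2
      rw [cut_cv, hκρ _ (by rwa [mem_ball_zero_iff])]
      ring
  -- the surface of constant time
  have e2 : G =ᶠ[𝓝 x] fun z => Bt a b Ψ h δ R z - c * Θ (z o) := by
    have aux1 : H755.chi R' =ᶠ[𝓝 x] (fun _ => 1) → G =ᶠ[𝓝 x] fun z =>
        Bt a b Ψ h δ R z - c * Θ (z o) := by
      intro h1
      filter_upwards [h1] with z hz
      rw [hG]
      show (Bt a b Ψ h δ R z - c * Θ (z o)) * H755.chi R' z = _
      rw [hz, mul_one]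
    have aux2 : (fun z : V => Bt a b Ψ h δ R z - c * Θ (z o)) =ᶠ[𝓝 x] (fun _ => 0) →
        G =ᶠ[𝓝 x] fun z => Bt a b Ψ h δ R z - c * Θ (z o) := by
      intro h1
      filter_upwards [h1] with z hz
      rw [hG]
      show (Bt a b Ψ h δ R z - c * Θ (z o)) * H755.chi R' z = _
      rw [hz, zero_mul]
    rcases hN x y hy hxy with ⟨h0, h1⟩ | ⟨h0, h1⟩ | ⟨-, h1⟩
    · apply aux2
      have h2 : -M - 1 < x o := by
        have : y 0 ≤ x o := h0
        linarith [hy0'.1]
      filter_upwards [h1, hcx.continuousAt.preimage_mem_nhds (Ioi_mem_nhds h2)] with z hz hz2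
      rw [hz, hΘ.hi _ (le_of_lt hz2)]
      ring
    · by_cases h2 : x o < -M - 2
      · apply aux2
        filter_upwards [h1, hcx.continuousAt.preimage_mem_nhds (Iio_mem_nhds h2)] with z hz hz2
        rw [hz, hΘ.lo _ (le_of_lt hz2)]
        ring
      · apply aux1
        apply cchi2
        rw [not_lt] at h2
        have h3 : x o ≤ y 0 := h0
        rw [abs_le]
        constructor <;> linarith [hy0'.2]
    · exact aux1 (cchi hR'N ((sp_le x).trans h1))
  have e3 : g =ᶠ[𝓝 x] fun z => α (z o) := by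
    by_cases h1 : |x o| ≤ M + 3
    · filter_upwards [cchi2 h1] with z hz
      rw [hg]
      show α (z o) * H755.chi R' z = _
      rw [hz, mul_one]
    · rw [not_le] at h1
      have h2 : ∀ᶠ z in 𝓝 x, M + 3 < |z o| := (hcx.abs).continuousAt.eventually (lt_mem_nhds h1)
      filter_upwards [h2] with z hz
      have h3 : α (z o) = 0 := by
        by_contra hne
        have h4 := hαs _ hne
        have h5 : |z o| ≤ M + 2 := by
          rw [abs_le]
          constructor <;> linarith [h4.1, h4.2]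
        linarith
      rw [hg]
      show α (z o) * H755.chi R' z = _
      rw [h3, zero_mul]
  have hB1 : ContDiff ℝ ∞ (Bt a b Ψ h δ R) := contDiff_Bt hΨ.cd
  have hT1 : ContDiff ℝ ∞ fun z : V => c * Θ (z o) :=
    contDiff_const.mul (hΘ.cd.comp (contDiff_apply ℝ ℝ o))
  have hT2 : ContDiff ℝ ∞ fun z : V => Θ (z o) := hΘ.cd.comp (contDiff_apply ℝ ℝ o)
  filter_upwards [e1, dr_nh e2 m, e3] with z h1 h2 h3
  rw [h1, h2, h3, dr_sub hB1 hT1, dr_mul contDiff_const hT2, dr_c, dr_tm hΘ.der]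
  split_ifs with hm
  · ring
  · ring

end Vale.Agent.P352.MO

end
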