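import Vale.Agent.P352.MO.H
import Vale.Agent.P352.NF.F5

/-!
# P352 MO: the zeroth and first moments of `T_aa` are Poincaré generators
-/

set_option linter.all false

noncomputable section

open MeasureTheory Filter Topology Set
open scoped ContDiff ComplexConjugate SchwartzMap

namespace Vale.Agent.P352.MO

open GF (Ix V Fn bas eta pd bar sim o)
open H246 H496 H15 H755 NF SL

variable {D : Type*} [NormedAddCommGroup D] [InnerProductSpace ℂ D] {Q : GF.Theory D}
  {T : Ix → Ix → GF.Fld D} {A : (V → V) → D → D} {M : V → 𝓢(ℝ, ℂ) → D → D}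

/-- The null plane charges between vectors generated by fields on opposite sides of the slab. -/
def Opp (Q : GF.Theory D) (T : Ix → Ix → GF.Fld D) (A : (V → V) → D → D) : Prop :=
  ∀ a b κ ψ X p q v w, Adm a b κ ψ → ((∃ x, X = fun _ => x) ∨ ∃ x, X = ro a x) →
    (∀ u ∈ tsupport ψ, p < u ∧ u < q) → PW Q (MW {z | q < GF.mdot a z}) v →
    PW Q (MW {z | GF.mdot a z < p}) w → Tendsto (fun R => inner ℂ w
      (sm T (fun m n x => eta m * a m * (eta n * X x n) * ctf a b κ 0 ψ R x) v)) atTop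
      (𝓝 ((∫ u, (ψ u : ℂ)) * inner ℂ w (A X v)))

lemma mdot_neg_le {a : V} (ha : IsNull a) : ∃ c : V, GF.mdot a c = 1 := by
  obtain ⟨b, -, hab⟩ := exists_dual ha
  exact ⟨b, hab⟩

lemma big_above {a : V} (ha : IsNull a) (q : ℝ) : Big (MW {z : V | q < GF.mdot a z}) := by
  obtain ⟨c, hc⟩ := mdot_neg_le ha
  have h1 : GF.mdot (-a) c = -1 := by
    rw [← hc]
    simp only [GF.mdot, Fin.sum_univ_four, Pi.neg_apply]
    ring
  have h2 := big_two (M := q) (M' := -q) one_pos one_pos hc h1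
  refine fun r => ?_
  obtain ⟨b, hb⟩ := h2 r
  exact ⟨b, fun x hx => (hb x hx).1⟩

lemma big_below {a : V} (ha : IsNull a) (p : ℝ) : Big (MW {z : V | GF.mdot a z < p}) := by
  obtain ⟨c, hc⟩ := mdot_neg_le ha
  have h1 : GF.mdot (-a) (-c) = 1 := by
    rw [← hc]
    simp only [GF.mdot, Fin.sum_univ_four, Pi.neg_apply]
    ring
  have h3 : GF.mdot a (-c) = -1 := by
    rw [← hc]
    simp only [GF.mdot, Fin.sum_univ_four, Pi.neg_apply]
    ring
  have h2 := big_two (M := -p) (M' := p) one_pos one_pos h1 h3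
  refine fun r => ?_
  obtain ⟨b, hb⟩ := h2 r
  exact ⟨b, fun x hx => (hb x hx).2⟩

/-- symmetric operators that agree on vectors above between vectors below the slab -/
lemma ident {E G : D → D} (hE : ∀ v w, inner ℂ (E v) w = inner ℂ v (E w))
    (hG : ∀ v w, inner ℂ (G v) w = inner ℂ v (G w)) {S S' : Set Mink} (hS : Big S) (hS' : Big S')
    (h : ∀ v w, PW Q S v → PW Q S' w → inner ℂ w (E v) = inner ℂ w (G v)) (v : D) :
    E v = G v := by
  have h1 : ∀ v, PW Q S v → E v = G v := fun v hv =>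
    (dense_big (Q := Q) hS').eq_of_inner_right ℂ fun w hw => h v w hv hw
  refine (dense_big (Q := Q) hS).eq_of_inner_right ℂ fun w hw => ?_
  rw [← hE, h1 w hw, hG]

/-- limits of matrix elements of `T` are symmetric -/
lemma lim_symm (hT : Q.IsStress T) {F : ℝ → Ix → Ix → V → ℝ}
    (hF : ∀ R, 1 ≤ R → ∀ m n, Tst (F R m n)) {E : D → D}
    (hE : ∀ v w, Tendsto (fun R => mt T w v (F R)) atTop (𝓝 (inner ℂ w (E v)))) (v w : D) :
    inner ℂ (E v) w = inner ℂ v (E w) := by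
  have h1 := hE w v
  have h2 := (Complex.continuous_conj.tendsto _).comp (hE v w)
  have h3 : (fun R => mt T v w (F R)) =ᶠ[atTop] (fun z => conj z) ∘ fun R => mt T w v (F R) := by
    filter_upwards [eventually_ge_atTop 1] with R hR
    exact mt_herm hT (fun m n => hF R hR m n) v w
  have h4 := tendsto_nhds_unique h1 (h2.congr' h3.symm)
  rw [h4]
  exact (inner_conj_symm _ _).symm

/-- the right hand side of the first moments -/
def G1 (A : (V → V) → D → D) (a x : V) (ψ : ℝ → ℝ) (v : D) : D :=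
  ((∫ u, ψ u : ℝ) : ℂ) • A (ro a x) v + ((∫ u, u * ψ u : ℝ) : ℂ) • A (fun _ => x) v

lemma G1_symm (h : Rep Q A) (a x : V) (ψ : ℝ → ℝ) (v w : D) :
    inner ℂ (G1 A a x ψ v) w = inner ℂ v (G1 A a x ψ w) := by
  unfold G1
  rw [inner_add_left, inner_smul_left, inner_smul_left, inner_add_right, inner_smul_right,
    inner_smul_right, H746.A_symm h (ro_sim a x), H746.A_symm h (const_sim x),
    Complex.conj_ofReal, Complex.conj_ofReal]

lemma int_c (ψ : ℝ → ℝ) : ∫ u, (ψ u : ℂ) = ((∫ u, ψ u : ℝ) : ℂ) := integral_complex_ofReal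

lemma int_uc (ψ : ℝ → ℝ) : ∫ u : ℝ, (u : ℂ) * (ψ u : ℂ) = ((∫ u, u * ψ u : ℝ) : ℂ) := by
  rw [← integral_complex_ofReal]
  congr 1
  funext u
  push_cast
  rfl

lemma exists_pq {ψ : ℝ → ℝ} (hψ : Tst ψ) : ∃ p q : ℝ, ∀ u ∈ tsupport ψ, p < u ∧ u < q := by
  obtain ⟨r, hr⟩ := hψ.2.isCompact.isBounded.subset_closedBall (0 : ℝ)
  refine ⟨-r - 1, r + 1, fun u hu => ?_⟩
  have h1 := hr hu
  rw [mem_closedBall_zero_iff, Real.norm_eq_abs] at h1
  have h2 := abs_le.1 h1
  exact ⟨by linarith [h2.1], by linarith [h2.2]⟩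

lemma F0_eq (a b : V) (κ : V → ℝ) (y : V) (ψ : ℝ → ℝ) (R : ℝ) :
    F0 a b κ y ψ R = Fg a b κ y ψ R fun _ => a := rfl

/-- the zeroth moments with centre `0` -/
theorem gen0_zero (hT : Q.IsStress T) (hM : MomS T M) (hR : Rep Q A) (hO : Opp Q T A) {a b : V}
    {κ : V → ℝ} {ψ : ℝ → ℝ} (hA : Adm a b κ ψ) (v w : D) :
    Tendsto (fun R => mt T w v (F0 a b κ 0 ψ R)) atTop
      (𝓝 ((∫ u, (ψ u : ℂ)) * inner ℂ w (A (fun _ => a) v))) := by
  obtain ⟨E, hE⟩ := ex0 hT hM hA 0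
  obtain ⟨p, q, hpq⟩ := exists_pq hA.2.2.2.2.2
  have hs := lim_symm hT (F := fun R => F0 a b κ 0 ψ R) (fun R hR m n => F0_tst hA 0 hR m n) hE
  have hG : ∀ v w : D, inner ℂ (((∫ u, ψ u : ℝ) : ℂ) • A (fun _ => a) v) w =
      inner ℂ v (((∫ u, ψ u : ℝ) : ℂ) • A (fun _ => a) w) := by
    intro v w
    rw [inner_smul_left, inner_smul_right, H746.A_symm hR (const_sim a), Complex.conj_ofReal]
  have h1 := ident (Q := Q) hs hG (big_above hA.1 q) (big_below hA.1 p) (fun v w hv hw => by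
    have h2 := hO a b κ ψ (fun _ => a) p q v w hA (Or.inl ⟨a, rfl⟩) hpq hv hw
    rw [inner_smul_right, ← int_c]
    exact tendsto_nhds_unique (hE v w) h2) v
  have h3 := hE v w
  rw [h1, inner_smul_right, ← int_c] at h3
  exact h3

/-- the first moments with centre `0` -/
theorem gen1_zero (hT : Q.IsStress T) (hM : MomS T M) (hR : Rep Q A) (hO : Opp Q T A) {a b : V}
    {κ : V → ℝ} {ψ : ℝ → ℝ} (hA : Adm a b κ ψ) (x : V) (v w : D) :
    Tendsto (fun R => mt T w v (F1 a b κ 0 ψ x R)) atTop (𝓝 (inner ℂ w (G1 A a x ψ v))) := by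
  obtain ⟨E, hE⟩ := ex1 hT hM hA 0 x
  obtain ⟨p, q, hpq⟩ := exists_pq hA.2.2.2.2.2
  have hs := lim_symm hT (F := fun R => F1 a b κ 0 ψ x R)
    (fun R hR m n => F1_tst hA 0 x hR m n) hE
  have hpq' : ∀ u ∈ tsupport (fun u => u * ψ u), p < u ∧ u < q := fun u hu =>
    hpq u (tsupport_mul_subset_right hu)
  have h1 := ident (Q := Q) hs (G1_symm hR a x ψ) (big_above hA.1 q) (big_below hA.1 p)
    (fun v w hv hw => by
    have h2 := hO a b κ ψ (ro a x) p q v w hA (Or.inr ⟨x, rfl⟩) hpq hv hw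
    have h3 := hO a b κ (fun u => u * ψ u) (fun _ => x) p q v w (Adm.umul hA) (Or.inl ⟨x, rfl⟩) hpq'
      hv hw
    have h4 := h2.add h3
    have h5 : (fun R => mt T w v (F1 a b κ 0 ψ x R)) =ᶠ[atTop] fun R =>
        mt T w v (Fg a b κ 0 ψ R (ro a x)) +
          mt T w v (Fg a b κ 0 (fun u => u * ψ u) R fun _ => x) := by
      filter_upwards [eventually_ge_atTop 1] with R hR'
      have t1 : ∀ m n, Tst (Fg a b κ 0 ψ R (ro a x) m n) := fun m n =>
        Fg_tst hA 0 hR' (ro_sim a x) m n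
      have t2 : ∀ m n, Tst (Fg a b κ 0 (fun u => u * ψ u) R (fun _ => x) m n) := fun m n =>
        Fg_tst (Adm.umul hA) 0 hR' (const_sim x) m n
      have e1 := mt_add hT t1 t2 1 w v
      rw [Complex.ofReal_one, one_mul] at e1
      rw [← e1]
      congr 1
      funext m n z
      simp only [F1, Fg, ro, ctf, Pi.sub_apply, Pi.smul_apply, smul_eq_mul]
      ring
    have h6 := tendsto_nhds_unique (hE v w) (h4.congr' h5.symm)
    rw [h6]
    unfold G1
    rw [inner_add_right, inner_smul_right, inner_smul_right, ← int_c, ← int_c]) v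
  have h3 := hE v w
  rw [h1] at h3
  exact h3

/-! ### general centres -/

/-- **The zeroth moments of `T_aa` are the translations along `a`.** -/
theorem gen0_of (hT : Q.IsStress T) (hM : MomS T M) (hR : Rep Q A) (hO : Opp Q T A) {a b : V}
    {κ : V → ℝ} {ψ : ℝ → ℝ} (hA : Adm a b κ ψ) (y : V) (v w : D) :
    Tendsto (fun R => mt T w v (F0 a b κ y ψ R)) atTop
      (𝓝 ((∫ u, (ψ u : ℂ)) * inner ℂ w (A (fun _ => a) v))) := by
  obtain ⟨ha, hb, hab, hκ, hκ1, hψ⟩ := id hA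
  have hA' : Adm a b κ fun u => ψ (u + GF.mdot a y) := ⟨ha, hb, hab, hκ, hκ1, mo_shift hψ _⟩
  have h1 := gen0_zero hT hM hR hO hA' (Q.U 1 GF.one (-y) v) (Q.U 1 GF.one (-y) w)
  have e1 : ∫ u, (ψ (u + GF.mdot a y) : ℂ) = ∫ u, (ψ u : ℂ) :=
    integral_add_right_eq_self (fun u => (ψ u : ℂ)) (GF.mdot a y)
  have e2 : inner ℂ (Q.U 1 GF.one (-y) w) (A (fun _ => a) (Q.U 1 GF.one (-y) v)) =
      inner ℂ w (A (fun _ => a) v) := by
    rw [← f5_conj hR (const_sim a) y v, ← Q.U_inner 1 GF.one (-y) w _ one_pos isLor_one, Uadd1,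
      neg_add_cancel, Uone]
  rw [e1, e2] at h1
  refine h1.congr' ?_
  filter_upwards [eventually_ge_atTop 1] with R hR
  rw [mt_trans (Q := Q) hT (fun m n => F0_tst hA' 0 hR m n) (-y) w v]
  congr 1
  funext m n z
  have e3 : ctf a b κ 0 (fun u => ψ (u + GF.mdot a y)) R (z + -y) = ctf a b κ y ψ R z := by
    unfold ctf
    have e4 : GF.mdot a (z + -y) + GF.mdot a y = GF.mdot a z := by
      rw [← sub_eq_add_neg, md_sub, sub_add_cancel]
    simp only [sub_zero, ← sub_eq_add_neg] at e4 ⊢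
    simp only [e4]
  simp only [F0]
  rw [e3]

/-- **The first moments of `T_aa` are null rotations, boosts and translations.** -/
theorem gen1_of (hT : Q.IsStress T) (hM : MomS T M) (hR : Rep Q A) (hO : Opp Q T A) {a b : V}
    {κ : V → ℝ} {ψ : ℝ → ℝ} (hA : Adm a b κ ψ) (y x : V) (v w : D) :
    Tendsto (fun R => mt T w v (F1 a b κ y ψ x R)) atTop
      (𝓝 ((∫ u, (ψ u : ℂ)) * inner ℂ w (A (ro a x) v) +
        (∫ u : ℝ, (u : ℂ) * (ψ u : ℂ)) * inner ℂ w (A (fun _ => x) v))) := by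
  obtain ⟨ha, hb, hab, hκ, hκ1, hψ⟩ := id hA
  have hA' : Adm a b κ fun u => ψ (u + GF.mdot a y) := ⟨ha, hb, hab, hκ, hκ1, mo_shift hψ _⟩
  have h1 := gen1_zero hT hM hR hO hA' x (Q.U 1 GF.one (-y) v) (Q.U 1 GF.one (-y) w)
  have h0 := (gen0_zero hT hM hR hO hA' (Q.U 1 GF.one (-y) v)
    (Q.U 1 GF.one (-y) w)).const_mul (GF.mdot x y : ℂ)
  have h2 := h1.add h0
  have iψ : Integrable ψ := hψ.1.continuous.integrable_of_hasCompactSupport hψ.2
  have iuψ : Integrable fun u => u * ψ u :=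
    (tst_umul hψ).1.continuous.integrable_of_hasCompactSupport (tst_umul hψ).2
  have e1 : ∫ u, ψ (u + GF.mdot a y) = ∫ u, ψ u := integral_add_right_eq_self ψ (GF.mdot a y)
  have e1' : ∫ u, u * ψ (u + GF.mdot a y) = (∫ u, u * ψ u) - GF.mdot a y * ∫ u, ψ u := by
    have h3 := integral_add_right_eq_self (μ := volume) (fun u => (u - GF.mdot a y) * ψ u)
      (GF.mdot a y)
    simp only [add_sub_cancel_right] at h3
    rw [h3, ← integral_const_mul, ← integral_sub iuψ (iψ.const_mul _)]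
    congr 1
    funext u
    ring
  have e2 : ∀ X : V → V, IsSim 0 X → inner ℂ (Q.U 1 GF.one (-y) w)
      (A X (Q.U 1 GF.one (-y) v)) = inner ℂ w (A (fun z => X (z - y)) v) := by
    intro X hX
    rw [← f5_conj hR hX y v, ← Q.U_inner 1 GF.one (-y) w _ one_pos isLor_one, Uadd1,
      neg_add_cancel, Uone]
  have e5 : A (fun z => ro a x (z - y)) v = A (ro a x) v - (GF.mdot x y : ℂ) • A (fun _ => a) v +
      (GF.mdot a y : ℂ) • A (fun _ => x) v := by
    have k1 := hR.add 0 0 (-GF.mdot x y) (ro a x) (fun _ => a) v (ro_sim a x) (const_sim a)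
    have s1 : IsSim 0 fun z => ro a x z + (-GF.mdot x y) • a := by
      obtain ⟨c, w', hw', hX⟩ := ro_sim a x
      refine ⟨c + (-GF.mdot x y) • a, w', hw', fun z n => ?_⟩
      simp only [Pi.add_apply, hX z n]
      ring
    have k2 := hR.add 0 0 (GF.mdot a y) (fun z => ro a x z + (-GF.mdot x y) • a) (fun _ => x) v s1
      (const_sim x)
    have e6 : (fun z => ro a x (z - y)) = fun z => ro a x z + (-GF.mdot x y) • a +
        GF.mdot a y • x := by
      funext z
      unfold ro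
      rw [md_sub, md_sub]
      module
    rw [e6, k2, k1]
    push_cast
    module
  have e7 : inner ℂ (Q.U 1 GF.one (-y) w)
      (G1 A a x (fun u => ψ (u + GF.mdot a y)) (Q.U 1 GF.one (-y) v)) +
      (GF.mdot x y : ℂ) * ((∫ u, (ψ (u + GF.mdot a y) : ℂ)) *
        inner ℂ (Q.U 1 GF.one (-y) w) (A (fun _ => a) (Q.U 1 GF.one (-y) v))) =
      (∫ u, (ψ u : ℂ)) * inner ℂ w (A (ro a x) v) +
        (∫ u : ℝ, (u : ℂ) * (ψ u : ℂ)) * inner ℂ w (A (fun _ => x) v) := by
    unfold G1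
    rw [inner_add_right, inner_smul_right, inner_smul_right, e2 _ (ro_sim a x),
      e2 _ (const_sim x), e2 _ (const_sim a), e5, int_c, int_c, int_uc, e1, e1']
    simp only [inner_add_right, inner_sub_right, inner_smul_right]
    push_cast
    ring
  rw [e7] at h2
  refine h2.congr' ?_
  filter_upwards [eventually_ge_atTop 1] with R hR'
  have t1 : ∀ m n, Tst (F1 a b κ 0 (fun u => ψ (u + GF.mdot a y)) x R m n) := fun m n =>
    F1_tst hA' 0 x hR' m n
  have t0 : ∀ m n, Tst (F0 a b κ 0 (fun u => ψ (u + GF.mdot a y)) R m n) := fun m n =>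
    F0_tst hA' 0 hR' m n
  rw [← mt_add hT t1 t0 (GF.mdot x y), mt_trans (Q := Q) hT (fun m n =>
    ⟨(t1 m n).1.add (contDiff_const.mul (t0 m n).1), (t1 m n).2.add ((t0 m n).2.mul_left)⟩) (-y) w v]
  congr 1
  funext m n z
  have e3 : ctf a b κ 0 (fun u => ψ (u + GF.mdot a y)) R (z + -y) = ctf a b κ y ψ R z := by
    unfold ctf
    have e4 : GF.mdot a (z + -y) + GF.mdot a y = GF.mdot a z := by
      rw [← sub_eq_add_neg, md_sub, sub_add_cancel]
    simp only [sub_zero, ← sub_eq_add_neg] at e4 ⊢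
    simp only [e4]
  have e4 : GF.mdot x (z + -y) = GF.mdot x z - GF.mdot x y := by
    rw [← sub_eq_add_neg, md_sub]
  simp only [F0, F1]
  rw [e3, e4]
  ring

end Vale.Agent.P352.MO

end
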