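import Vale.Agent.P352.MO.C
import Vale.Agent.P352.MO.D2
import Vale.Agent.P352.MO.I
import Vale.Agent.P352.ND.A3c

/-!
# P352 MO, block G: the null plane charges between vectors generated by fields on opposite sides
-/

set_option linter.all false

noncomputable section

open MeasureTheory Filter Topology Set
open scoped SchwartzMap ComplexConjugate ContDiff

namespace Vale.Agent.P352.MO

open GF (Ix V Fn Sch ev pd bar sim o bas eta)
open H246 H496 H15 H755 ND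

variable {D : Type*} [NormedAddCommGroup D] [InnerProductSpace ℂ D] {Q : GF.Theory D}
  {T : Ix → Ix → GF.Fld D} {A : (V → V) → D → D}

lemma sm_addv (hT : Q.IsStress T) {F : Ix → Ix → V → ℝ} (hF : ∀ m n, Tst (F m n)) (v w : D) :
    sm T F (v + w) = sm T F v + sm T F w := by
  unfold sm
  rw [← Finset.sum_add_distrib]
  refine Finset.sum_congr rfl fun m _ => ?_
  rw [← Finset.sum_add_distrib]
  exact Finset.sum_congr rfl fun n _ => fadd (Q.bose_fld _ (hT.bose m n)) (tstIs (hF m n)) v w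

lemma sm_smulv (hT : Q.IsStress T) {F : Ix → Ix → V → ℝ} (hF : ∀ m n, Tst (F m n)) (c : ℂ)
    (v : D) : sm T F (c • v) = c • sm T F v := by
  unfold sm
  rw [Finset.smul_sum]
  refine Finset.sum_congr rfl fun m _ => ?_
  rw [Finset.smul_sum]
  exact Finset.sum_congr rfl fun n _ => fsmul (Q.bose_fld _ (hT.bose m n)) (tstIs (hF m n)) c v

/-- vectors generated by the fields in a half space are generated by the fields in a slab -/
lemma exists_h {a : V} {q : ℝ} (p : ℝ) {v : D} (hv : PW Q (MW {z | q < GF.mdot a z}) v) :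
    ∃ h : ℝ, 0 < h ∧ PW Q (MW {z | q < GF.mdot a z ∧ GF.mdot a z < p + h}) v := by
  have mono : ∀ {h h' : ℝ} {v : D}, h ≤ h' →
      PW Q (MW {z | q < GF.mdot a z ∧ GF.mdot a z < p + h}) v →
      PW Q (MW {z | q < GF.mdot a z ∧ GF.mdot a z < p + h'}) v := by
    intro h h' v hh hv
    refine pw_mono ?_ hv
    intro x hx
    exact ⟨hx.1, lt_of_lt_of_le hx.2 (by linarith)⟩
  induction hv with
  | vac => exact ⟨1, one_pos, .vac⟩
  | add _ _ h1 h2 =>
    obtain ⟨h, hh, h3⟩ := h1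
    obtain ⟨h', hh', h4⟩ := h2
    exact ⟨max h h', lt_max_of_lt_left hh, .add (mono (le_max_left _ _) h3)
      (mono (le_max_right _ _) h4)⟩
  | smul c _ h1 =>
    obtain ⟨h, hh, h3⟩ := h1
    exact ⟨h, hh, .smul c h3⟩
  | @fld B g v hB hg _ h1 =>
    obtain ⟨h, hh, h3⟩ := h1
    have hc : Continuous fun x : Mink => GF.mdot a x.ofLp :=
      (H846.contDiff_mdot a).continuous.comp (PiLp.continuous_ofLp 2 _)
    obtain ⟨M, hM⟩ := (hg.1.isCompact.bddAbove_image hc.continuousOn)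
    refine ⟨max h (|M - p| + 1), lt_max_of_lt_left hh, .fld hB ⟨hg.1, fun x hx => ⟨hg.2 hx, ?_⟩⟩
      (mono (le_max_left _ _) h3)⟩
    have h4 : GF.mdot a x.ofLp ≤ M := hM ⟨x, hx, rfl⟩
    have h5 := le_max_right h (|M - p| + 1)
    have h6 := le_abs_self (M - p)
    linarith

section

variable {a b : V} {κ : V → ℝ} {ψ Ψ : ℝ → ℝ} {p q c h : ℝ} {X : V → V}

/-- **the charge on the bent surface on vectors generated by fields above** -/
theorem s2_lim (hT : Q.IsStress T) (Rp : H15.Rep Q A) (ha : IsNull a) (hb : IsNull b)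
    (hab : GF.mdot a b = 1) (hκ : Tst κ) (hΨ : Stp Ψ ψ p q c) (hh : 0 ≤ h) (hX : IsSim 0 X)
    {j : ℕ} (hj : Hom a b j X) {C : ℂ}
    (hE : ∀ (B : GF.Fld D) (f : Fn), Q.fld B → H755.CS f →
      (∀ z ∈ tsupport f, q < GF.mdot a z ∧ GF.mdot a z < p + h) → ∃ δ0 : ℝ, 0 < δ0 ∧
      ∀ δ, 0 < δ → δ ≤ δ0 → ∀ᶠ R : ℝ in atTop, ∀ v, sm T (s2 a b κ Ψ h δ R X) (B f v) -
        B f (sm T (s2 a b κ Ψ h δ R X) v) = C • (A X (B f v) - B f (A X v))) {v : D}
    (hv : PW Q (MW {z | q < GF.mdot a z ∧ GF.mdot a z < p + h}) v) : ∃ δ0 : ℝ, 0 < δ0 ∧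
      ∀ δ, 0 < δ → δ ≤ δ0 → ∀ z : D, Tendsto (fun R => inner ℂ z (sm T (s2 a b κ Ψ h δ R X) v))
        atTop (𝓝 (C * inner ℂ z (A X v))) := by
  have hAs := H746.A_symm Rp hX
  have ht : ∀ δ R : ℝ, 1 ≤ R → ∀ m n, Tst (s2 a b κ Ψ h δ R X m n) := fun δ R hR m n =>
    s2_tst hΨ hh hb.1 hab hκ (by positivity) hX m n
  induction hv with
  | vac =>
    refine ⟨1, one_pos, fun δ hδ hδ1 z => ?_⟩
    rw [H746.A_vac Rp hX, inner_zero_right, mul_zero]
    exact vac_lim hT Rp ha hb hab (F := fun R => s2 a b κ Ψ h δ R X) (ht δ) j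
      (s2_hom ha hb hab hΨ.cd hj) z
  | add _ _ h1 h2 =>
    obtain ⟨d1, hd1, h1⟩ := h1
    obtain ⟨d2, hd2, h2⟩ := h2
    refine ⟨min d1 d2, lt_min hd1 hd2, fun δ hδ hδ1 z => ?_⟩
    rw [SL.sym_add hAs, inner_add_right, mul_add]
    refine ((h1 δ hδ (hδ1.trans (min_le_left _ _)) z).add
      (h2 δ hδ (hδ1.trans (min_le_right _ _)) z)).congr' ?_
    filter_upwards [eventually_ge_atTop (1 : ℝ)] with R hR
    rw [sm_addv hT (ht δ R hR), inner_add_right]
  | smul e _ h1 =>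
    obtain ⟨d1, hd1, h1⟩ := h1
    refine ⟨d1, hd1, fun δ hδ hδ1 z => ?_⟩
    rw [SL.sym_smul hAs, inner_smul_right, mul_left_comm]
    refine ((h1 δ hδ hδ1 z).const_mul e).congr' ?_
    filter_upwards [eventually_ge_atTop (1 : ℝ)] with R hR
    rw [sm_smulv hT (ht δ R hR), inner_smul_right]
  | @fld B g v hB hg _ h1 =>
    obtain ⟨d1, hd1, h1⟩ := h1
    have hin := In_fl.2 hg
    obtain ⟨d2, hd2, h2⟩ := hE B (fl g) hB ⟨hin.1, hin.2.1⟩ fun z hz => hin.2.2 hz
    obtain ⟨B', hB', hadj⟩ := Q.adj B hB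
    refine ⟨min d1 d2, lt_min hd1 hd2, fun δ hδ hδ1 z => ?_⟩
    have hadj2 : ∀ u, inner ℂ z (B (fl g) u) = inner ℂ (B' (bar (fl g)) z) u := by
      intro u
      rw [← inner_conj_symm, hadj _ u z (isTest_fl g), inner_conj_symm]
    have h3 := (h1 δ hδ (hδ1.trans (min_le_left _ _)) (B' (bar (fl g)) z)).add
      (tendsto_const_nhds (x := C * inner ℂ z (A X (B (fl g) v) - B (fl g) (A X v))))
    have e : C * inner ℂ (B' (bar (fl g)) z) (A X v) +
        C * inner ℂ z (A X (B (fl g) v) - B (fl g) (A X v)) =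
        C * inner ℂ z (A X (B (fl g) v)) := by
      rw [inner_sub_right, hadj2 (A X v)]
      ring
    rw [e] at h3
    refine h3.congr' ?_
    filter_upwards [h2 δ hδ (hδ1.trans (min_le_right _ _))] with R hR
    have h4 := congrArg (inner ℂ z) (hR v)
    rw [inner_sub_right, inner_smul_right, hadj2] at h4
    linear_combination -h4

/-- **the difference of the charges on vectors generated by fields below** -/
theorem rr_lim (hT : Q.IsStress T) (Rp : H15.Rep Q A) (ha : IsNull a) (hb : IsNull b)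
    (hab : GF.mdot a b = 1) (hκ : Tst κ) (hΨ : Stp Ψ ψ p q c) (hh : 0 ≤ h) (hX : IsSim 0 X)
    {j : ℕ} (hj : Hom a b j X) {δ : ℝ} (hδ : 0 < δ)
    (hF : ∀ (B : GF.Fld D) (f : Fn), Q.fld B → H755.CS f → (∀ z ∈ tsupport f, GF.mdot a z < p) →
      ∀ᶠ R : ℝ in atTop, ∀ v, sm T (rr a b κ Ψ h δ R X) (B f v) =
        B f (sm T (rr a b κ Ψ h δ R X) v)) {v : D}
    (hv : PW Q (MW {z | GF.mdot a z < p}) v) : ∀ z : D,
      Tendsto (fun R => inner ℂ z (sm T (rr a b κ Ψ h δ R X) v)) atTop (𝓝 0) := by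
  have ht : ∀ R : ℝ, 1 ≤ R → ∀ m n, Tst (rr a b κ Ψ h δ R X m n) := fun R hR m n =>
    rr_tst hΨ hh hb.1 hab hκ (by positivity) hX m n
  induction hv with
  | vac =>
    intro z
    exact vac_lim hT Rp ha hb hab (F := fun R => rr a b κ Ψ h δ R X) ht j
      (rr_hom ha hb hab hκ.1 hj) z
  | add _ _ h1 h2 =>
    intro z
    have h3 := (h1 z).add (h2 z)
    rw [add_zero] at h3
    refine h3.congr' ?_
    filter_upwards [eventually_ge_atTop (1 : ℝ)] with R hR
    rw [sm_addv hT (ht R hR), inner_add_right]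
  | smul e _ h1 =>
    intro z
    have h3 := (h1 z).const_mul e
    rw [mul_zero] at h3
    refine h3.congr' ?_
    filter_upwards [eventually_ge_atTop (1 : ℝ)] with R hR
    rw [sm_smulv hT (ht R hR), inner_smul_right]
  | @fld B g v hB hg _ h1 =>
    intro z
    have hin := In_fl.2 hg
    have h2 := hF B (fl g) hB ⟨hin.1, hin.2.1⟩ fun z hz => hin.2.2 hz
    obtain ⟨B', hB', hadj⟩ := Q.adj B hB
    have hadj2 : ∀ u, inner ℂ z (B (fl g) u) = inner ℂ (B' (bar (fl g)) z) u := by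
      intro u
      rw [← inner_conj_symm, hadj _ u z (isTest_fl g), inner_conj_symm]
    refine (h1 (B' (bar (fl g)) z)).congr' ?_
    filter_upwards [h2] with R hR
    rw [hR v, hadj2]

/-- the null plane charges of homogeneous fields between opposite sides -/
theorem opp_hom (hT : Q.IsStress T) (Rp : H15.Rep Q A) (hA : Adm a b κ ψ)
    (hΨ : Stp Ψ ψ p q c) (hX : IsSim 0 X) {j : ℕ} (hj : Hom a b j X) {C : ℂ}
    (hE : ∀ (h : ℝ) (B : GF.Fld D) (f : Fn), 0 < h → Q.fld B → H755.CS f →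
      (∀ z ∈ tsupport f, q < GF.mdot a z ∧ GF.mdot a z < p + h) → ∃ δ0 : ℝ, 0 < δ0 ∧
      ∀ δ, 0 < δ → δ ≤ δ0 → ∀ᶠ R : ℝ in atTop, ∀ v, sm T (s2 a b κ Ψ h δ R X) (B f v) -
        B f (sm T (s2 a b κ Ψ h δ R X) v) = C • (A X (B f v) - B f (A X v)))
    (hF : ∀ (h : ℝ) (δ : ℝ) (B : GF.Fld D) (f : Fn), 0 < h → 0 < δ → Q.fld B → H755.CS f →
      (∀ z ∈ tsupport f, GF.mdot a z < p) →
      ∀ᶠ R : ℝ in atTop, ∀ v, sm T (rr a b κ Ψ h δ R X) (B f v) =
        B f (sm T (rr a b κ Ψ h δ R X) v)) {v w : D}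
    (hv : PW Q (MW {z | q < GF.mdot a z}) v) (hw : PW Q (MW {z | GF.mdot a z < p}) w) :
    Tendsto (fun R => inner ℂ w
      (sm T (fun m n x => eta m * a m * (eta n * X x n) * ctf a b κ 0 ψ R x) v)) atTop
      (𝓝 (C * inner ℂ w (A X v))) := by
  obtain ⟨ha, hb, hab, hκ, hκ1, hψ⟩ := hA
  obtain ⟨h, hh, hv'⟩ := exists_h p hv
  obtain ⟨δ, hδ, h1⟩ := s2_lim hT Rp ha hb hab hκ hΨ hh.le hX hj (fun B f => hE h B f hh) hv'
  have h2 := h1 δ hδ le_rfl w
  have h3 := rr_lim hT Rp ha hb hab hκ hΨ hh.le hX hj hδ (fun B f => hF h δ B f hh hδ) hw v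
  have h4 := (Complex.continuous_conj.tendsto _).comp h3
  rw [map_zero] at h4
  have h5 := h2.sub h4
  rw [sub_zero] at h5
  refine h5.congr' ?_
  filter_upwards [eventually_ge_atTop (1 : ℝ)] with R hR
  have hR0 : R ≠ 0 := by positivity
  rw [flat_eq hT hΨ hψ.1 (δ := δ) hh.le hb.1 hab hκ hR0 hX v, inner_sub_right]
  have h6 := mt_herm hT (F := rr a b κ Ψ h δ R X)
    (fun m n => rr_tst hΨ hh.le hb.1 hab hκ hR0 hX m n) w v
  unfold H755.mt at h6
  rw [h6]
  rfl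

end

/-- commutators with the charges on the bent surface (block E) -/
def ECom (Q : GF.Theory D) (T : Ix → Ix → GF.Fld D) (A : (V → V) → D → D) : Prop :=
  ∀ (a b : V) (κ : V → ℝ) (ψ : ℝ → ℝ) (X : V → V) (p q h : ℝ) (B : GF.Fld D) (f : Fn),
    Adm a b κ ψ → IsSim 0 X → (∀ u ∈ tsupport ψ, p < u ∧ u < q) → 0 < h → Q.fld B → H755.CS f →
    (∀ z ∈ tsupport f, q < GF.mdot a z ∧ GF.mdot a z < p + h) → ∃ δ0 : ℝ, 0 < δ0 ∧
    ∀ δ, 0 < δ → δ ≤ δ0 → ∀ᶠ R : ℝ in atTop, ∀ v,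
      sm T (s2 a b κ (prm ψ) h δ R X) (B f v) - B f (sm T (s2 a b κ (prm ψ) h δ R X) v) =
        ((∫ u, ψ u : ℝ) : ℂ) • (A X (B f v) - B f (A X v))

/-- the difference of the charges commutes with the fields below (block F) -/
def FCom (Q : GF.Theory D) (T : Ix → Ix → GF.Fld D) : Prop :=
  ∀ (a b : V) (κ : V → ℝ) (ψ : ℝ → ℝ) (X : V → V) (p q h δ : ℝ) (B : GF.Fld D) (f : Fn),
    Adm a b κ ψ → IsSim 0 X → (∀ u ∈ tsupport ψ, p < u ∧ u < q) → 0 < h → 0 < δ → Q.fld B →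
    H755.CS f → (∀ z ∈ tsupport f, GF.mdot a z < p) → ∀ᶠ R : ℝ in atTop, ∀ v,
      sm T (rr a b κ (prm ψ) h δ R X) (B f v) = B f (sm T (rr a b κ (prm ψ) h δ R X) v)

/-- **Block G**: the null plane charges between vectors generated by fields on opposite sides. -/
theorem opp_of (hT : Q.IsStress T) (Rp : H15.Rep Q A) (hE : ECom Q T A) (hF : FCom Q T) :
    Opp Q T A := by
  intro a b κ ψ X p q v w hA hXc hs hv hw
  have hA' := hA
  obtain ⟨ha, hb, hab, hκ, hκ1, hψ⟩ := hA'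
  have hΨ : Stp (prm ψ) ψ p q (∫ u, ψ u) := stp_prm hψ fun u hu =>
    ⟨(hs u (subset_tsupport _ hu)).1.le, (hs u (subset_tsupport _ hu)).2.le⟩
  have hI : ((∫ u, ψ u : ℝ) : ℂ) = ∫ u, (ψ u : ℂ) := integral_ofReal.symm
  -- homogeneous fields
  have key : ∀ (X : V → V) (j : ℕ), IsSim 0 X → Hom a b j X → Tendsto (fun R => inner ℂ w
      (sm T (fun m n x => eta m * a m * (eta n * X x n) * ctf a b κ 0 ψ R x) v)) atTop
      (𝓝 ((∫ u, (ψ u : ℂ)) * inner ℂ w (A X v))) := by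
    intro X j hX hj
    rw [← hI]
    exact opp_hom hT Rp hA hΨ hX hj (fun h B f hh hB hf hz => hE a b κ ψ X p q h B f hA hX hs hh hB hf hz)
      (fun h δ B f hh hδ hB hf hz => hF a b κ ψ X p q h δ B f hA hX hs hh hδ hB hf hz) hv hw
  -- linear combinations
  have lin : ∀ (X Y : V → V) (c : ℝ), IsSim 0 X → IsSim 0 Y →
      Tendsto (fun R => inner ℂ w
      (sm T (fun m n x => eta m * a m * (eta n * X x n) * ctf a b κ 0 ψ R x) v)) atTop
      (𝓝 ((∫ u, (ψ u : ℂ)) * inner ℂ w (A X v))) →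
      Tendsto (fun R => inner ℂ w
      (sm T (fun m n x => eta m * a m * (eta n * Y x n) * ctf a b κ 0 ψ R x) v)) atTop
      (𝓝 ((∫ u, (ψ u : ℂ)) * inner ℂ w (A Y v))) →
      Tendsto (fun R => inner ℂ w
      (sm T (fun m n x => eta m * a m * (eta n * (fun z => X z + c • Y z) x n) *
        ctf a b κ 0 ψ R x) v)) atTop
      (𝓝 ((∫ u, (ψ u : ℂ)) * inner ℂ w (A (fun z => X z + c • Y z) v))) := by
    intro X Y c hX hY h1 h2
    rw [Rp.add 0 0 c X Y v hX hY, inner_add_right, inner_smul_right, mul_add, mul_left_comm]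
    refine (h1.add (h2.const_mul (c : ℂ))).congr' ?_
    filter_upwards [eventually_ge_atTop (1 : ℝ)] with R hR
    have hR0 : R ≠ 0 := by positivity
    have h3 := mt_add hT (fun m n => flat_tst (a := a) (b := b) hΨ hψ.1 hb.1 hab hκ hR0 hX m n)
      (fun m n => flat_tst (a := a) (b := b) hΨ hψ.1 hb.1 hab hκ hR0 hY m n) c w v
    unfold H755.mt at h3
    rw [← h3]
    congr 2
    funext m n x
    simp only [Pi.add_apply, Pi.smul_apply, smul_eq_mul]
    ring
  -- the decomposition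
  have dec : ∀ x : V, ∃ (y : V) (α β : ℝ), GF.mdot a y = 0 ∧ GF.mdot b y = 0 ∧
      x = y + β • a + α • b := by
    intro x
    refine ⟨x - GF.mdot b x • a - GF.mdot a x • b, GF.mdot a x, GF.mdot b x, ?_, ?_, by abel⟩
    · rw [md_sub, md_sub, md_smul, md_smul, ha.1, hab]; ring
    · rw [md_sub, md_sub, md_smul, md_smul, hb.1, md_comm b a, hab]; ring
  rcases hXc with ⟨x, rfl⟩ | ⟨x, rfl⟩
  · obtain ⟨y, α, β, hay, hby, rfl⟩ := dec x
    have k1 := key _ _ (H846.isSim_const y) (hom_w (a := a) (b := b) hay hby)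
    have k2 := key _ _ (H846.isSim_const a) (hom_a ha hab)
    have k3 := key _ _ (H846.isSim_const b) (hom_b (a := a) hb hab)
    have l1 := lin _ _ β (H846.isSim_const y) (H846.isSim_const a) k1 k2
    exact lin _ _ α (H846.isSim_const (y + β • a)) (H846.isSim_const b) l1 k3
  · obtain ⟨y, α, β, hay, hby, rfl⟩ := dec x
    have k1 := key _ _ (SL.ro_sim a y) (hom_row ha hb hab hay hby)
    have k3 := key _ _ (SL.ro_sim a b) (hom_rob ha hb hab)
    have l2 := lin _ _ α (SL.ro_sim a y) (SL.ro_sim a b) k1 k3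
    have e : (fun z => SL.ro a y z + α • SL.ro a b z) = SL.ro a (y + β • a + α • b) := by
      funext z
      unfold SL.ro
      rw [md_add_l, md_add_l, md_smul_l, md_smul_l]
      module
    rw [e] at l2
    exact l2

end Vale.Agent.P352.MO

end
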