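import Vale.Agent.P352.MO.E
import Vale.Agent.P352.MO.G

/-!
# P352 MO: the charges on null hyperplanes between vectors generated by fields on opposite sides
-/

set_option linter.all false

noncomputable section

open MeasureTheory Filter Topology Set
open scoped ContDiff ComplexConjugate SchwartzMap

namespace Vale.Agent.P352.MO

open GF (Ix V Fn bas eta pd bar sim o)
open H246 H496 H15 H755 ND

variable {D : Type*} [NormedAddCommGroup D] [InnerProductSpace ℂ D] {Q : GF.Theory D}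
  {T : Ix → Ix → GF.Fld D} {A : (V → V) → D → D}

lemma supp_pq {ψ : ℝ → ℝ} {p q : ℝ} (hs : ∀ u ∈ tsupport ψ, p < u ∧ u < q) (u : ℝ) (hu : ψ u ≠ 0) :
    p ≤ u ∧ u ≤ q := by
  have h := hs u (subset_tsupport _ (Function.mem_support.2 hu))
  exact ⟨h.1.le, h.2.le⟩

/-- **block E** -/
theorem ecom (hT : Q.IsStress T) (hP : PCh Q T A) : ECom Q T A := by
  intro a b κ ψ X p q h B f hA hX hs hh hB hf hfs
  obtain ⟨ha, hb, hab, hκ, hκ1, hψ⟩ := hA
  obtain ⟨δ0, hδ0, h1⟩ := e_com hT hP ha hb hab hκ hκ1 hh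
  exact ⟨δ0, hδ0, fun δ hδ hδδ =>
    h1 δ hδ hδδ (prm ψ) ψ p q _ (stp_prm hψ (supp_pq hs)) hX hB hf hfs⟩

/-- **block F** -/
theorem fcom (hT : Q.IsStress T) : FCom Q T := by
  intro a b κ ψ X p q h δ B f hA hX hs hh hδ hB hf hfs
  obtain ⟨ha, hb, hab, hκ, hκ1, hψ⟩ := hA
  exact f_com hT ha hb hab hκ (stp_prm hψ (supp_pq hs)) hh.le hδ hX hB hf hfs

/-- **the charges on null hyperplanes between vectors generated by fields on opposite sides** -/
theorem opp (hT : Q.IsStress T) (Rp : H15.Rep Q A) (hP : PCh Q T A) : Opp Q T A :=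
  opp_of hT Rp (ecom hT hP) (fcom hT)

end Vale.Agent.P352.MO

end
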