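import Vale.Agent.P352.SL.M1a
import Vale.Agent.P352.H496.Br5
import Vale.Agent.P352.H755.R7h

/-!
# P352 MO: the zeroth and first moments of `T_aa` exist if the second moments exist
-/

set_option linter.all false

noncomputable section

open MeasureTheory Filter Topology Set
open scoped ContDiff ComplexConjugate SchwartzMap

namespace Vale.Agent.P352.MO

open GF (Ix V Fn bas eta pd bar sim o)
open H246 H496 H15 H755 NF SL

variable {D : Type*} [NormedAddCommGroup D] [InnerProductSpace ℂ D] {Q : GF.Theory D}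
  {T : Ix → Ix → GF.Fld D} {A : (V → V) → D → D} {M : V → 𝓢(ℝ, ℂ) → D → D}

/-- the second moments of `T_aa` exist -/
def MomS (T : Ix → Ix → GF.Fld D) (M : V → 𝓢(ℝ, ℂ) → D → D) : Prop :=
  ∀ a b κ y ψ (f : 𝓢(ℝ, ℂ)) v w, Adm a b κ ψ → (∀ u, f u = ψ u) → Tendsto (fun R =>
    inner ℂ w (sm T (fun m n x => eta m * a m * (eta n * a n) * -GF.mdot x x *
      ctf a b κ y ψ R x) v)) atTop (𝓝 (inner ℂ w (M a f v)))

/-- sources of the zeroth moments -/
def F0 (a b : V) (κ : V → ℝ) (y : V) (ψ : ℝ → ℝ) (R : ℝ) : Ix → Ix → V → ℝ := fun m n z =>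
  eta m * a m * (eta n * a n) * ctf a b κ y ψ R z

/-- sources of the first moments -/
def F1 (a b : V) (κ : V → ℝ) (y : V) (ψ : ℝ → ℝ) (x : V) (R : ℝ) : Ix → Ix → V → ℝ := fun m n z =>
  eta m * a m * (eta n * a n) * GF.mdot x z * ctf a b κ y ψ R z

/-- sources of the second moments about the point `x` -/
def F2 (a b : V) (κ : V → ℝ) (y : V) (ψ : ℝ → ℝ) (x : V) (R : ℝ) : Ix → Ix → V → ℝ := fun m n z =>
  eta m * a m * (eta n * a n) * -GF.mdot (z - x) (z - x) * ctf a b κ y ψ R z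

lemma mo_md (x : V) : ContDiff ℝ ∞ fun z : V => GF.mdot x z := by
  unfold GF.mdot
  fun_prop

lemma mo_md2 (x : V) : ContDiff ℝ ∞ fun z : V => -GF.mdot (z - x) (z - x) := by
  unfold GF.mdot
  fun_prop

lemma F0_tst {a b : V} {κ : V → ℝ} {ψ : ℝ → ℝ} (h : Adm a b κ ψ) (y : V) {R : ℝ} (hR : 1 ≤ R)
    (m n : Ix) : Tst (F0 a b κ y ψ R m n) :=
  tst_smul (f := fun _ => eta m * a m * (eta n * a n)) contDiff_const (ctf_tst h y hR)

lemma F1_tst {a b : V} {κ : V → ℝ} {ψ : ℝ → ℝ} (h : Adm a b κ ψ) (y x : V) {R : ℝ} (hR : 1 ≤ R)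
    (m n : Ix) : Tst (F1 a b κ y ψ x R m n) :=
  tst_smul (f := fun z => eta m * a m * (eta n * a n) * GF.mdot x z)
    (contDiff_const.mul (mo_md x)) (ctf_tst h y hR)

lemma F2_tst {a b : V} {κ : V → ℝ} {ψ : ℝ → ℝ} (h : Adm a b κ ψ) (y x : V) {R : ℝ} (hR : 1 ≤ R)
    (m n : Ix) : Tst (F2 a b κ y ψ x R m n) :=
  tst_smul (f := fun z => eta m * a m * (eta n * a n) * -GF.mdot (z - x) (z - x))
    (contDiff_const.mul (mo_md2 x)) (ctf_tst h y hR)

lemma mo_shift {ψ : ℝ → ℝ} (hψ : Tst ψ) (c : ℝ) : Tst fun u => ψ (u + c) :=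
  ⟨hψ.1.comp (contDiff_id.add contDiff_const), hψ.2.comp_homeomorph (Homeomorph.addRight c)⟩

/-- the translated second moments -/
def Nx (Q : GF.Theory D) (M : V → 𝓢(ℝ, ℂ) → D → D) (a : V) (ψ : ℝ → ℝ) (hψ : Tst ψ) (x : V)
    (v : D) : D :=
  Q.U 1 GF.one x (M a (tS (fun u => ψ (u + GF.mdot a x)) (mo_shift hψ _))
    (Q.U 1 GF.one (-x) v))

lemma F2_lim (hT : Q.IsStress T) (hM : MomS T M) {a b : V} {κ : V → ℝ} {ψ : ℝ → ℝ}
    (hA : Adm a b κ ψ) (hψ : Tst ψ) (y x : V) (v w : D) :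
    Tendsto (fun R => mt T w v (F2 a b κ y ψ x R)) atTop (𝓝 (inner ℂ w (Nx Q M a ψ hψ x v))) := by
  obtain ⟨ha, hb, hab, hκ, hκ1, -⟩ := id hA
  have hA' : Adm a b κ fun u => ψ (u + GF.mdot a x) := ⟨ha, hb, hab, hκ, hκ1, mo_shift hψ _⟩
  have h1 := hM a b κ (y - x) (fun u => ψ (u + GF.mdot a x)) (tS _ (mo_shift hψ _))
    (Q.U 1 GF.one (-x) v) (Q.U 1 GF.one (-x) w) hA' fun u => rfl
  have h2 : inner ℂ w (Nx Q M a ψ hψ x v) = inner ℂ (Q.U 1 GF.one (-x) w)
      (M a (tS (fun u => ψ (u + GF.mdot a x)) (mo_shift hψ _)) (Q.U 1 GF.one (-x) v)) := by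
    unfold Nx
    rw [← Q.U_inner 1 GF.one (-x) w _ one_pos isLor_one, Uadd1, neg_add_cancel, Uone]
  rw [h2]
  refine h1.congr' ?_
  filter_upwards [eventually_ge_atTop 1] with R hR
  have h3 := mt_trans (Q := Q) hT (fun m n => Fs_tst hA' (y - x) hR m n) (-x) w v
  refine h3.trans ?_
  congr 1
  funext m n z
  have e1 : ctf a b κ (y - x) (fun u => ψ (u + GF.mdot a x)) R (z + -x) = ctf a b κ y ψ R z := by
    unfold ctf
    have e2 : z + -x - (y - x) = z - y := by abel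
    have e3 : GF.mdot a (z + -x) + GF.mdot a x = GF.mdot a z := by
      rw [← sub_eq_add_neg, md_sub, sub_add_cancel]
    simp only [e2, e3]
  simp only [Fs, F2]
  rw [e1, ← sub_eq_add_neg]

/-- **the zeroth moments exist** -/
theorem ex0 (hT : Q.IsStress T) (hM : MomS T M) {a b : V} {κ : V → ℝ} {ψ : ℝ → ℝ}
    (hA : Adm a b κ ψ) (y : V) :
    ∃ E : D → D, ∀ v w, Tendsto (fun R => mt T w v (F0 a b κ y ψ R)) atTop
      (𝓝 (inner ℂ w (E v))) := by
  have hψ := hA.2.2.2.2.2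
  set e : V := bas o 1 with he
  have hee : GF.mdot e e = 1 := by
    simp [he, GF.mdot, Fin.sum_univ_four, bas, eta, o]
  refine ⟨fun v => (-(1 / 2) : ℂ) • (Nx Q M a ψ hψ e v + Nx Q M a ψ hψ (-e) v -
    (2 : ℂ) • Nx Q M a ψ hψ 0 v), fun v w => ?_⟩
  have l1 := F2_lim hT hM hA hψ y e v w
  have l2 := F2_lim hT hM hA hψ y (-e) v w
  have l3 := F2_lim hT hM hA hψ y 0 v w
  have l4 := ((l1.add l2).add (l3.const_mul (-2))).const_mul (-(1 / 2) : ℂ)
  have e4 : inner ℂ w ((-(1 / 2) : ℂ) • (Nx Q M a ψ hψ e v + Nx Q M a ψ hψ (-e) v -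
      (2 : ℂ) • Nx Q M a ψ hψ 0 v)) = -(1 / 2) * (inner ℂ w (Nx Q M a ψ hψ e v) +
        inner ℂ w (Nx Q M a ψ hψ (-e) v) + -2 * inner ℂ w (Nx Q M a ψ hψ 0 v)) := by
    rw [inner_smul_right, inner_sub_right, inner_add_right, inner_smul_right]
    ring
  rw [e4]
  refine l4.congr' ?_
  filter_upwards [eventually_ge_atTop 1] with R hR
  have t1 := fun m n => F2_tst hA y e hR m n
  have t2 := fun m n => F2_tst hA y (-e) hR m n
  have t3 := fun m n => F2_tst hA y 0 hR m n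
  have t0 := fun m n => F0_tst hA y hR m n
  have s12 : ∀ m n, Tst fun z => F2 a b κ y ψ e R m n z + 1 * F2 a b κ y ψ (-e) R m n z :=
    fun m n => ⟨(t1 m n).1.add (contDiff_const.mul (t2 m n).1), (t1 m n).2.add ((t2 m n).2.mul_left)⟩
  have m1 := mt_add hT t1 t2 1 w v
  have m2 := mt_add hT (F := fun m n z => F2 a b κ y ψ e R m n z + 1 * F2 a b κ y ψ (-e) R m n z)
    s12 t3 (-2) w v
  have m3 := mt_smul hT t0 (-2) w v
  have key : (fun m n z => F2 a b κ y ψ e R m n z + 1 * F2 a b κ y ψ (-e) R m n z +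
      -2 * F2 a b κ y ψ 0 R m n z) = fun m n z => -2 * F0 a b κ y ψ R m n z := by
    funext m n z
    have k : -GF.mdot (z - e) (z - e) + -GF.mdot (z - -e) (z - -e) -
        2 * -GF.mdot (z - 0) (z - 0) = -2 := by
      have k1 : -GF.mdot (z - e) (z - e) + -GF.mdot (z - -e) (z - -e) -
        2 * -GF.mdot (z - 0) (z - 0) = -2 * GF.mdot e e := by
        simp only [GF.mdot, Fin.sum_univ_four, Pi.sub_apply, Pi.neg_apply, Pi.zero_apply]
        ring
      rw [k1, hee, mul_one]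
    simp only [F2, F0]
    linear_combination (eta m * a m * (eta n * a n) * ctf a b κ y ψ R z) * k
  rw [key] at m2
  have m4 : mt T w v (fun m n z => -2 * F0 a b κ y ψ R m n z) =
      ((-2 : ℝ) : ℂ) * mt T w v (F0 a b κ y ψ R) := m3
  rw [m4, m1] at m2
  push_cast at m2
  linear_combination (1 / 2 : ℂ) * m2

/-- **the first moments exist** -/
theorem ex1 (hT : Q.IsStress T) (hM : MomS T M) {a b : V} {κ : V → ℝ} {ψ : ℝ → ℝ}
    (hA : Adm a b κ ψ) (y x : V) :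
    ∃ E : D → D, ∀ v w, Tendsto (fun R => mt T w v (F1 a b κ y ψ x R)) atTop
      (𝓝 (inner ℂ w (E v))) := by
  have hψ := hA.2.2.2.2.2
  refine ⟨fun v => (1 / 4 : ℂ) • (Nx Q M a ψ hψ x v - Nx Q M a ψ hψ (-x) v), fun v w => ?_⟩
  have l1 := F2_lim hT hM hA hψ y x v w
  have l2 := F2_lim hT hM hA hψ y (-x) v w
  have l4 := (l1.sub l2).const_mul (1 / 4 : ℂ)
  have e4 : inner ℂ w ((1 / 4 : ℂ) • (Nx Q M a ψ hψ x v - Nx Q M a ψ hψ (-x) v)) =
      1 / 4 * (inner ℂ w (Nx Q M a ψ hψ x v) - inner ℂ w (Nx Q M a ψ hψ (-x) v)) := by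
    rw [inner_smul_right, inner_sub_right]
  rw [e4]
  refine l4.congr' ?_
  filter_upwards [eventually_ge_atTop 1] with R hR
  have t1 := fun m n => F2_tst hA y x hR m n
  have t2 := fun m n => F2_tst hA y (-x) hR m n
  have t0 := fun m n => F1_tst hA y x hR m n
  have m1 := mt_add hT t1 t2 (-1) w v
  have m3 := mt_smul hT t0 4 w v
  have key : (fun m n z => F2 a b κ y ψ x R m n z + -1 * F2 a b κ y ψ (-x) R m n z) =
      fun m n z => 4 * F1 a b κ y ψ x R m n z := by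
    funext m n z
    have k : -GF.mdot (z - x) (z - x) - -GF.mdot (z - -x) (z - -x) = 4 * GF.mdot x z := by
      simp only [GF.mdot, Fin.sum_univ_four, Pi.sub_apply, Pi.neg_apply]
      ring
    simp only [F2, F1]
    linear_combination (eta m * a m * (eta n * a n) * ctf a b κ y ψ R z) * k
  rw [key] at m1
  have m4 : mt T w v (fun m n z => 4 * F1 a b κ y ψ x R m n z) =
      ((4 : ℝ) : ℂ) * mt T w v (F1 a b κ y ψ x R) := m3
  rw [m4] at m1
  push_cast at m1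
  linear_combination (-(1 / 4) : ℂ) * m1

end Vale.Agent.P352.MO

end
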