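import Vale.Agent.P352.MO.Bt
import Vale.Agent.P352.MO.H
import Vale.Agent.P352.MO.Defs
import Vale.Agent.P352.ND.C7b

/-!
# P352 MO: the second moments for one null vector determine those for all null vectors
-/

set_option linter.all false

noncomputable section

open MeasureTheory Filter Topology Set
open scoped ContDiff ComplexConjugate SchwartzMap

namespace Vale.Agent.P352.MO

open GF (Ix V Fn bas eta pd bar sim o IsLor)
open H246 H496 H15 H755 NF

variable {D : Type*} [NormedAddCommGroup D] [InnerProductSpace ℂ D] {Q : GF.Theory D}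
  {T : Ix → Ix → GF.Fld D} {A : (V → V) → D → D} {M : V → 𝓢(ℝ, ℂ) → D → D}

lemma sim_lmul (A B : Ix → V) (x : V) : sim 1 (lmul A B) 0 x = sim 1 B 0 (sim 1 A 0 x) := by
  funext n
  simp only [sim, lmul, Pi.zero_apply, zero_add, one_mul, Fin.sum_univ_four]
  ring

/-- Lorentz transformations act transitively on the future null vectors -/
theorem exists_lor_null {a a' : V} (ha : IsNull a) (ha' : IsNull a') :
    ∃ L : Ix → V, IsLor L ∧ sim 1 L 0 a = a' := by
  obtain ⟨n, w, r, hn, hw, hr, h1⟩ := ND.exists_nrt ha ha'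
  obtain ⟨b', hb', hab'⟩ := exists_dual ha'
  refine ⟨lmul (H746.nrt n w) (WL a' b' r⁻¹), isLor_lmul (H746.isLor_nrt hn hw)
    (isLor_WL ha' hb' hab' (inv_pos.2 hr)), ?_⟩
  rw [sim_lmul, h1, simL_smul, WL_a ha' hab', smul_smul, mul_inv_cancel₀ hr.ne', one_smul]

/-- The second moments of `T_aa` for one null vector `a`. -/
structure OneMom (Q : GF.Theory D) (T : Ix → Ix → GF.Fld D) (A : (V → V) → D → D)
    (a : V) (M : 𝓢(ℝ, ℂ) → D → D) : Prop extends Rep Q A where
  null : IsNull a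
  lin : ∀ (f g : 𝓢(ℝ, ℂ)) (c : ℂ) v, M (f + c • g) v = M f v + c • M g v
  cont : ∀ v w, Continuous fun f : 𝓢(ℝ, ℂ) => inner ℂ w (M f v)
  mom : ∀ b κ y ψ (f : 𝓢(ℝ, ℂ)) v w, Adm a b κ ψ → (∀ u, f u = ψ u) → Tendsto (fun R =>
    inner ℂ w (sm T (fun m n x => eta m * a m * (eta n * a n) * -GF.mdot x x *
      ctf a b κ y ψ R x) v)) atTop (𝓝 (inner ℂ w (M f v)))

open Classical in
/-- a Lorentz transformation that maps `a0` to `a` -/
def LL (a0 a : V) : Ix → V :=
  if h : IsNull a0 ∧ IsNull a then Classical.choose (exists_lor_null h.1 h.2) else GF.one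

lemma LL_spec {a0 a : V} (h0 : IsNull a0) (h : IsNull a) :
    IsLor (LL a0 a) ∧ sim 1 (LL a0 a) 0 a0 = a := by
  unfold LL
  rw [dif_pos ⟨h0, h⟩]
  exact Classical.choose_spec (exists_lor_null h0 h)

/-- the second moments for all null vectors -/
def Mall (Q : GF.Theory D) (a0 : V) (M : 𝓢(ℝ, ℂ) → D → D) (a : V) (f : 𝓢(ℝ, ℂ)) (v : D) : D :=
  Q.U 1 (LL a0 a) 0 (M f (Q.U 1 (linv (LL a0 a)) 0 v))

/-- **The second moments for one null vector suffice.** -/
theorem sec_of_one (hT : Q.IsStress T) {a0 : V} {M : 𝓢(ℝ, ℂ) → D → D}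
    (h : OneMom Q T A a0 M) : SecMom Q T A (Mall Q a0 M) := by
  have hUi : ∀ {L : Ix → V}, IsLor L → ∀ z : D, Q.U 1 L 0 (Q.U 1 (linv L) 0 z) = z := by
    intro L hL z
    have := U_linv' h.toRep one_pos hL z
    rwa [inv_one] at this
  refine { toRep := h.toRep, lin := ?_, cont := ?_, mom := ?_ }
  · intro a f g c v ha
    obtain ⟨hL, -⟩ := LL_spec h.null ha
    unfold Mall
    rw [h.lin, U_add one_pos hL, U_smul one_pos hL]
  · intro a v w ha
    obtain ⟨hL, -⟩ := LL_spec h.null ha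
    have e : (fun f : 𝓢(ℝ, ℂ) => inner ℂ w (Mall Q a0 M a f v)) = fun f : 𝓢(ℝ, ℂ) =>
        inner ℂ (Q.U 1 (linv (LL a0 a)) 0 w) (M f (Q.U 1 (linv (LL a0 a)) 0 v)) := by
      funext f
      unfold Mall
      conv_lhs => rw [← hUi hL w, Q.U_inner 1 (LL a0 a) 0 _ _ one_pos hL]
    rw [e]
    exact h.cont _ _
  · intro a b κ y ψ f v w hA hf
    obtain ⟨ha, hb, hab, hκ, hκ1, hψ⟩ := hA
    obtain ⟨hL, hLa⟩ := LL_spec h.null ha
    set L : Ix → V := LL a0 a with hLdef
    obtain ⟨b0, hb0def⟩ : ∃ b0, b0 = sim 1 (linv L) 0 b := ⟨_, rfl⟩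
    obtain ⟨y0, hy0def⟩ : ∃ y0, y0 = sim 1 (linv L) 0 y := ⟨_, rfl⟩
    have hLb : sim 1 L 0 b0 = b := by rw [hb0def, sim_linv hL]
    have hLy : sim 1 L 0 y0 = y := by rw [hy0def, sim_linv hL]
    have hab0 : GF.mdot a0 b0 = 1 := by rw [← md_LL hL, hLa, hLb, hab]
    have hb0 : IsNull b0 := by
      have h0 : GF.mdot b0 b0 = 0 := by rw [← md_LL hL, hLb]; exact hb.1
      exact ⟨h0, null_pos h.null h0 (by rw [hab0]; exact one_pos)⟩
    set κ0 : V → ℝ := fun x => κ (sim 1 L 0 x) with hκdef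
    have hκ0 : Tst κ0 := tst_sim hκ one_pos hL
    have hκ01 : ∀ᶠ x in 𝓝 (0 : V), κ0 x = 1 := by
      have hc : Tendsto (fun x : V => sim 1 L 0 x) (𝓝 0) (𝓝 0) := by
        have h1 : Continuous fun x : V => simE 1 L one_pos hL x :=
          (simE 1 L one_pos hL).toContinuousLinearEquiv.continuous
        have h2 := h1.tendsto 0
        have e : sim 1 L 0 (0 : V) = 0 := by funext n; simp [sim]
        simpa [H755.simE_apply, e] using h2
      exact hc.eventually hκ1
    have hax : ∀ x, GF.mdot a (sim 1 L 0 x) = GF.mdot a0 x := by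
      intro x
      rw [← hLa, md_LL hL]
    have hbx : ∀ x, GF.mdot b (sim 1 L 0 x) = GF.mdot b0 x := by
      intro x
      rw [← hLb, md_LL hL]
    have hcut : ∀ R x, cut a b κ R (sim 1 L 0 x - y) = cut a0 b0 κ0 R (x - y0) := by
      intro R x
      rw [← hLy, ← simL_sub]
      generalize x - y0 = z
      unfold cut
      rw [hκdef]
      simp only
      congr 1
      rw [hax, hbx, simL_add, simL_smul, simL_smul, simL_sub, simL_sub, simL_smul,
        simL_smul L (GF.mdot b0 z), hLa, hLb]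
    have hA0 : Adm a0 b0 κ0 ψ := ⟨h.null, hb0, hab0, hκ0, hκ01, hψ⟩
    have hAa : Adm a b κ ψ := ⟨ha, hb, hab, hκ, hκ1, hψ⟩
    have h1 := h.mom b0 κ0 y0 ψ f (Q.U 1 (linv L) 0 v) (Q.U 1 (linv L) 0 w) hA0 hf
    have h2 : inner ℂ w (Mall Q a0 M a f v) = inner ℂ (Q.U 1 (linv L) 0 w)
        (M f (Q.U 1 (linv L) 0 v)) := by
      unfold Mall
      conv_lhs => rw [← hUi hL w, Q.U_inner 1 (LL a0 a) 0 _ _ one_pos hL]
    rw [h2]
    refine h1.congr' ?_
    filter_upwards [eventually_ge_atTop 1] with R hR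
    have hg : Tst fun x => -GF.mdot x x * ctf a b κ y ψ R x := tst_smul SL.m1_sq (ctf_tst hAa y hR)
    have e0 : inner ℂ w (sm T (fun m n x => eta m * a m * (eta n * a n) * -GF.mdot x x *
        ctf a b κ y ψ R x) v) = mt T (Q.U 1 L 0 (Q.U 1 (linv L) 0 w))
          (Q.U 1 L 0 (Q.U 1 (linv L) 0 v)) (fun m n x => (eta m * a m) * (eta n * a n) *
          (-GF.mdot x x * ctf a b κ y ψ R x)) := by
      rw [hUi hL, hUi hL]
      unfold H755.mt
      congr 2
      funext m n x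
      ring
    rw [e0, mt_cov hT hg (fun m => eta m * a m) one_pos hL _ _ (tst_sim hg one_pos hL)]
    unfold H755.mt
    congr 2
    funext k l x
    have e2 : ∀ k, ∑ m, L k m * (eta m * a m) = eta k * a0 k := by
      intro k
      have h5 := md_L hL k a0
      rw [← h5, hLa]
      unfold GF.mdot
      exact Finset.sum_congr rfl fun m _ => by ring
    have e3 : ctf a b κ y ψ R (sim 1 L 0 x) = ctf a0 b0 κ0 y0 ψ R x := by
      unfold ctf
      rw [hcut, hax]
    rw [e2, e2, md_LL hL, e3]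
    ring

end Vale.Agent.P352.MO

end
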