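import Vale.Agent.P352.MO.P6
import Vale.Agent.P352.MO.S3
import Vale.Agent.P352.MO.I
import Vale.Agent.P352.MO.EF
import Vale.Agent.P352.MO.One

/-!
# P352 MO: conformal invariance from the second moments of `T_aa`
-/

set_option linter.all false

noncomputable section

open MeasureTheory Filter Topology Set
open scoped ContDiff ComplexConjugate SchwartzMap

namespace Vale.Agent.P352.MO

open GF (Ix V Fn Fld bas eta pd bar sim o)
open H246 H496 H15 H755 NF SL

variable {D : Type*} [NormedAddCommGroup D] [InnerProductSpace ℂ D] {Q : GF.Theory D}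
  {T : Ix → Ix → GF.Fld D} {J : Ix → GF.Fld D} {A : (V → V) → D → D}
  {M : V → 𝓢(ℝ, ℂ) → D → D}

/-- the zeroth moments of `T_aa` -/
theorem gen0_sec (hT : Q.IsStress T) (h : SecMom Q T A M) (hO : Opp Q T A) : Gen0 Q T A :=
  fun a b κ y ψ v w hA => gen0_of hT h.mom h.toRep hO hA y v w

/-- the first moments of `T_aa` -/
theorem gen1_sec (hT : Q.IsStress T) (h : SecMom Q T A M) (hO : Opp Q T A) : Gen1 Q T A :=
  fun a b κ y ψ x v w hA => gen1_of hT h.mom h.toRep hO hA y x v w

/-- **Conformal invariance from the second moments.** -/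
theorem confM_of (hT : Q.IsStress T) (hJ : IsVirial Q T J) (hO : Opp Q T A)
    (h : SecMom Q T A M) : N86.ConfInv Q T := by
  have g0 := gen0_sec hT h hO
  have g1 := gen1_sec hT h hO
  obtain ⟨K, hK⟩ := sl_of hT hJ h g0 g1
  exact conf0 hT hJ hK g0 g1

/-- **Conformal invariance from the second moments of `T_aa` on null slabs**, if the usual charges
of `T` generate the Poincaré transformations. -/
theorem confM (hT : Q.IsStress T) (hJ : IsVirial Q T J) (hP : ND.PCh Q T A)
    (h : SecMom Q T A M) : N86.ConfInv Q T :=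
  confM_of hT hJ (opp hT h.toRep hP) h

/-- **Conformal invariance from the second moments of one null component `T_aa`.** -/
theorem confM1 (hT : Q.IsStress T) (hJ : IsVirial Q T J) (hP : ND.PCh Q T A) {a : V}
    {M : 𝓢(ℝ, ℂ) → D → D} (h : OneMom Q T A a M) : N86.ConfInv Q T :=
  confM hT hJ hP (sec_of_one hT h)

/-- sharp second moments -/
theorem mc_sec (hT : Q.IsStress T) (hJ : IsVirial Q T J) (hP : ND.PCh Q T A)
    (h : SecMom Q T A M) : ∃ K : V → D → D, MC Q T A K :=
  sl_of hT hJ h (gen0_sec hT h (opp hT h.toRep hP)) (gen1_sec hT h (opp hT h.toRep hP))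

end Vale.Agent.P352.MO

end
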