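import Vale.Agent.P352.MO.D2

/-!
# P352 MO: commutators of the sources with fields, the points that are causally related to the
support of a field
-/

set_option linter.all false

noncomputable section

open MeasureTheory Filter Topology Set
open scoped ContDiff ComplexConjugate SchwartzMap

namespace Vale.Agent.P352.MO

open GF (Ix V Fn bas eta pd bar sim o)
open H246 H496 H15 H755 H846

variable {D : Type*} [NormedAddCommGroup D] [InnerProductSpace ℂ D] {Q : GF.Theory D}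
  {T : Ix → Ix → GF.Fld D}

/-- the points that are not spacelike to `S` -/
def Cau (S : Set V) : Set V :=
  {x | ∃ y ∈ S, 0 ≤ GF.mdot (fun m => x m - y m) (fun m => x m - y m)}

/-- sources that vanish near the points causally related to the support of a field commute with
the field -/
theorem sm_sep (hT : Q.IsStress T) {B : GF.Fld D} (hB : Q.fld B) {f : Fn} (hf : GF.IsTest f)
    {F : Ix → Ix → V → ℝ} (hF : ∀ m n, Tst (F m n))
    (hs : ∀ m n, ∀ x ∈ Cau (tsupport f), F m n =ᶠ[𝓝 x] fun _ => 0) (v : D) :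
    sm T F (B f v) = B f (sm T F v) := by
  unfold sm
  rw [fsum hB hf]
  refine Finset.sum_congr rfl fun m _ => ?_
  rw [fsum hB hf]
  refine Finset.sum_congr rfl fun n _ => ?_
  refine Q.loc (T m n) B _ f v (hT.bose m n) hB (tstIs (hF m n)) hf ?_
  intro x hx y hy
  by_contra hn
  rw [not_lt] at hn
  have h1 := hs m n x ⟨y, hy, hn⟩
  have h2 : (fun x => (F m n x : ℂ)) =ᶠ[𝓝 x] 0 := by
    filter_upwards [h1] with z hz
    rw [hz]
    simp
  exact (notMem_tsupport_iff_eventuallyEq.2 h2) hx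

lemma mdot_subr (a x y : V) : GF.mdot a (x - y) = GF.mdot a x - GF.mdot a y := by
  simp only [mdx, Pi.sub_apply]
  ring

lemma cau_gc {d : V} (hd : 0 ≤ GF.mdot d d) : d ∈ Gc 0 := by
  show d 1 ^ 2 + d 2 ^ 2 + d 3 ^ 2 ≤ (|d 0| + 0) ^ 2
  rw [mdx] at hd
  rw [add_zero, sq_abs]
  linarith

/-- future or past -/
lemma cau_cases {a b : V} (ha : IsNull a) (hb : IsNull b) {x y : V}
    (h : 0 ≤ GF.mdot (fun m => x m - y m) (fun m => x m - y m)) :
    (y 0 ≤ x 0 ∧ GF.mdot a y ≤ GF.mdot a x ∧ GF.mdot b y ≤ GF.mdot b x) ∨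
      (x 0 ≤ y 0 ∧ GF.mdot a x ≤ GF.mdot a y ∧ GF.mdot b x ≤ GF.mdot b y) := by
  have hd : 0 ≤ GF.mdot (x - y) (x - y) := h
  have hg := cau_gc hd
  have e0 : (x - y) 0 = x 0 - y 0 := rfl
  rcases le_total 0 ((x - y) 0) with h0 | h0
  · left
    have h1 := gc_pos ha le_rfl hg h0
    have h2 := gc_pos hb le_rfl hg h0
    rw [mdot_subr] at h1 h2
    rw [e0] at h0
    refine ⟨by linarith, by linarith, by linarith⟩
  · right
    have h1 := gc_neg ha le_rfl hg h0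
    have h2 := gc_neg hb le_rfl hg h0
    rw [mdot_subr] at h1 h2
    rw [e0] at h0
    refine ⟨by linarith, by linarith, by linarith⟩

/-- the transversal components of causal vectors -/
lemma cau_prj {a b : V} (ha : IsNull a) (hb : IsNull b) (hab : GF.mdot a b = 1) {d : V}
    (hd : 0 ≤ GF.mdot d d) {u w : ℝ} (hu : |GF.mdot a d| ≤ u) (hw : |GF.mdot b d| ≤ w) :
    ‖prj a b d‖ ^ 2 ≤ (a 0 + b 0) ^ 2 / 2 * (2 * u * w) := by
  refine (perp_norm ha hb hab (prj_a ha.1 hab _) (prj_b hb.1 hab _)).trans ?_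
  refine mul_le_mul_of_nonneg_left ?_ (by positivity)
  rw [prj_sq ha.1 hb.1 hab]
  have h1 : GF.mdot a d * GF.mdot b d ≤ u * w := by
    calc GF.mdot a d * GF.mdot b d ≤ |GF.mdot a d * GF.mdot b d| := le_abs_self _
      _ = |GF.mdot a d| * |GF.mdot b d| := abs_mul _ _
      _ ≤ u * w := mul_le_mul hu hw (abs_nonneg _) ((abs_nonneg _).trans hu)
  linarith

variable {Ψ ψ : ℝ → ℝ} {p q c h δ R : ℝ} {a b : V}

lemma cont_mdot (a : V) : Continuous fun x : V => GF.mdot a x := (contDiff_mdot a).continuous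

lemma Bt_loc_flat (hδ : 0 < δ) (hR : 0 < R) {x : V} (hx : -(δ * R ^ 2) < GF.mdot b x) :
    Bt a b Ψ h δ R =ᶠ[𝓝 x] fun z => Ψ (GF.mdot a z) := by
  filter_upwards [(cont_mdot b).continuousAt.preimage_mem_nhds (Ioi_mem_nhds hx)] with z hz
  exact Bt_flat hδ hR (le_of_lt hz)

/-- **(F)** the difference of the charges commutes with the fields below the slab -/
theorem f_com (hT : Q.IsStress T) (ha : IsNull a) (hb : IsNull b) (hab : GF.mdot a b = 1)
    {κ : V → ℝ} (hκ : Tst κ) (hΨ : Stp Ψ ψ p q c) (hh : 0 ≤ h) (hδ : 0 < δ) {r : ℝ} {X : V → V}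
    (hX : IsSim r X) {B : GF.Fld D} (hB : Q.fld B) {f : Fn} (hf : H755.CS f)
    (hs : ∀ y ∈ tsupport f, GF.mdot a y < p) :
    ∀ᶠ R : ℝ in atTop, ∀ v,
      sm T (rr a b κ Ψ h δ R X) (B f v) = B f (sm T (rr a b κ Ψ h δ R X) v) := by
  obtain ⟨M, hM⟩ := hf.2.isCompact.exists_bound_of_continuousOn (cont_mdot b).continuousOn
  have hl : Tendsto (fun R : ℝ => δ * R ^ 2) atTop atTop :=
    (tendsto_pow_atTop two_ne_zero).const_mul_atTop hδ
  filter_upwards [eventually_gt_atTop (0:ℝ), hl.eventually_gt_atTop M] with R hR0 hR v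
  refine sm_sep hT hB hf.1 (fun m n => rr_tst hΨ hh hb.1 hab hκ hR0.ne' hX m n) ?_ v
  rintro m n x ⟨y, hy, hxy⟩
  have key : (fun z => Ψ (GF.mdot a z) - Bt a b Ψ h δ R z) =ᶠ[𝓝 x] fun _ => 0 := by
    rcases cau_cases ha hb hxy with ⟨-, -, h2⟩ | ⟨-, h1, -⟩
    · have h3 := hM y hy
      rw [Real.norm_eq_abs] at h3
      have h4 := neg_abs_le (GF.mdot b y)
      have h5 : -(δ * R ^ 2) < GF.mdot b x := by linarith
      filter_upwards [Bt_loc_flat (a := a) (Ψ := Ψ) (h := h) hδ hR0 h5] with z hz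
      rw [hz, sub_self]
    · have h5 : GF.mdot a x < p := lt_of_le_of_lt h1 (hs y hy)
      filter_upwards [(cont_mdot a).continuousAt.preimage_mem_nhds (Iio_mem_nhds h5)] with z hz
      have hz' : GF.mdot a z ≤ p := le_of_lt hz
      rw [hΨ.Bt_lo hh hz', hΨ.lo _ hz', sub_zero]
  filter_upwards [key] with z hz
  show (Ψ (GF.mdot a z) - Bt a b Ψ h δ R z) * dr m (cut a b κ R) z * (eta n * X z n) = 0
  rw [hz]
  ring

/-! ### the geometry of the bent surface -/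

lemma norm_prj_le (a b y : V) : ‖prj a b y‖ ≤ ‖y‖ + |GF.mdot a y| * ‖b‖ + |GF.mdot b y| * ‖a‖ := by
  unfold prj
  refine (norm_sub_le _ _).trans (add_le_add ((norm_sub_le _ _).trans (add_le_add le_rfl ?_)) ?_)
  · rw [norm_smul, Real.norm_eq_abs]
  · rw [norm_smul, Real.norm_eq_abs]

lemma norm_le_prj (a b y : V) : ‖y‖ ≤ ‖prj a b y‖ + |GF.mdot a y| * ‖b‖ + |GF.mdot b y| * ‖a‖ := by
  have e : y = prj a b y + GF.mdot a y • b + GF.mdot b y • a := by
    unfold prj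
    abel
  conv_lhs => rw [e]
  refine (norm_add_le _ _).trans (add_le_add ((norm_add_le _ _).trans (add_le_add le_rfl ?_)) ?_)
  · rw [norm_smul, Real.norm_eq_abs]
  · rw [norm_smul, Real.norm_eq_abs]

lemma abs_mdot_le (a y : V) : |GF.mdot a y| ≤ ‖ml a‖ * ‖y‖ := by
  rw [← ml_apply, ← Real.norm_eq_abs]
  exact (ml a).le_opNorm y

lemma prj_subr (a b x y : V) : prj a b (x - y) = prj a b x - prj a b y := by
  unfold prj
  rw [mdot_subr, mdot_subr]
  module

/-- **the geometry**: near the points that are causally related to a bounded set between the flat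
and the raised part, the bent surface is locally constant or meets only the region where the cutoff
is one -/
theorem geo (ha : IsNull a) (hb : IsNull b) (hab : GF.mdot a b = 1) (hh : 0 < h) {ρ : ℝ}
    (hρ : 0 < ρ) : ∃ δ0 > 0, ∀ δ, 0 < δ → δ ≤ δ0 → ∀ (Ψ ψ : ℝ → ℝ) (p q c : ℝ),
      Stp Ψ ψ p q c → ∀ (S : Set V) (M : ℝ),
      (∀ y ∈ S, ‖y‖ ≤ M) → (∀ y ∈ S, q < GF.mdot a y ∧ GF.mdot a y < p + h) →
      ∀ᶠ R : ℝ in atTop, ∃ N : ℝ, ∀ x, ∀ y ∈ S,
        0 ≤ GF.mdot (fun m => x m - y m) (fun m => x m - y m) →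
        (y 0 ≤ x 0 ∧ Bt a b Ψ h δ R =ᶠ[𝓝 x] fun _ => c) ∨
        (x 0 ≤ y 0 ∧ Bt a b Ψ h δ R =ᶠ[𝓝 x] fun _ => 0) ∨
        (‖cv a b R x‖ < ρ ∧ ‖x‖ ≤ N) := by
  have ha0 : 0 < a 0 := ha.2
  have hb0 : 0 < b 0 := hb.2
  obtain ⟨C0, hC0⟩ : ∃ C0, C0 = (a 0 + b 0) ^ 2 / 2 := ⟨_, rfl⟩
  have hC0p : 0 < C0 := by rw [hC0]; positivity
  obtain ⟨δ0, hδ0, hd1, hd2⟩ : ∃ δ0 > 0, 3 * δ0 * ‖a‖ ≤ ρ / 4 ∧ 6 * C0 * h * δ0 ≤ (ρ / 4) ^ 2 := by
    refine ⟨min (ρ / (12 * (‖a‖ + 1))) ((ρ / 4) ^ 2 / (6 * C0 * h)),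
      lt_min (by positivity) (by positivity), ?_, ?_⟩
    · have h1 : min (ρ / (12 * (‖a‖ + 1))) ((ρ / 4) ^ 2 / (6 * C0 * h)) ≤ ρ / (12 * (‖a‖ + 1)) :=
        min_le_left _ _
      have h2 : 3 * (ρ / (12 * (‖a‖ + 1))) * ‖a‖ ≤ ρ / 4 := by
        have h3 : 3 * (ρ / (12 * (‖a‖ + 1))) * ‖a‖ = ρ / 4 * (‖a‖ / (‖a‖ + 1)) := by
          field_simp
          ring
        rw [h3]
        have h4 : ‖a‖ / (‖a‖ + 1) ≤ 1 := by
          rw [div_le_one (by positivity)]
          linarith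
        calc ρ / 4 * (‖a‖ / (‖a‖ + 1)) ≤ ρ / 4 * 1 := by gcongr
          _ = ρ / 4 := mul_one _
      refine le_trans ?_ h2
      gcongr
    · have h1 : min (ρ / (12 * (‖a‖ + 1))) ((ρ / 4) ^ 2 / (6 * C0 * h)) ≤
          (ρ / 4) ^ 2 / (6 * C0 * h) := min_le_right _ _
      refine (mul_le_mul_of_nonneg_left h1 (by positivity)).trans ?_
      rw [mul_div_cancel₀ _ (by positivity)]
  refine ⟨δ0, hδ0, fun δ hδ hδδ Ψ ψ p q c hΨ S M hM hS => ?_⟩
  obtain ⟨Λ, hΛ⟩ : ∃ Λ, Λ = ‖ml b‖ * |M| := ⟨_, rfl⟩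
  obtain ⟨Λa, hΛa⟩ : ∃ Λa, Λa = ‖ml a‖ * |M| := ⟨_, rfl⟩
  obtain ⟨P, hP⟩ : ∃ P, P = |M| + Λa * ‖b‖ + Λ * ‖a‖ := ⟨_, rfl⟩
  have hby : ∀ y ∈ S, |GF.mdot b y| ≤ Λ := fun y hy => by
    rw [hΛ]
    exact (abs_mdot_le b y).trans (mul_le_mul_of_nonneg_left ((hM y hy).trans (le_abs_self M))
      (norm_nonneg _))
  have hay : ∀ y ∈ S, |GF.mdot a y| ≤ Λa := fun y hy => by
    rw [hΛa]
    exact (abs_mdot_le a y).trans (mul_le_mul_of_nonneg_left ((hM y hy).trans (le_abs_self M))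
      (norm_nonneg _))
  have hPy : ∀ y ∈ S, ‖prj a b y‖ ≤ P := fun y hy => by
    rw [hP]
    refine (norm_prj_le a b y).trans ?_
    have h1 := (hM y hy).trans (le_abs_self M)
    have h2 := mul_le_mul_of_nonneg_right (hay y hy) (norm_nonneg b)
    have h3 := mul_le_mul_of_nonneg_right (hby y hy) (norm_nonneg a)
    linarith
  have hl : Tendsto (fun R : ℝ => δ * R ^ 2) atTop atTop :=
    (tendsto_pow_atTop two_ne_zero).const_mul_atTop hδ
  have hl2 : Tendsto (fun R : ℝ => P / R) atTop (𝓝 0) :=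
    tendsto_const_nhds.div_atTop tendsto_id
  filter_upwards [eventually_gt_atTop (0:ℝ), hl.eventually_gt_atTop Λ,
    hl2.eventually (gt_mem_nhds (by positivity : (0:ℝ) < ρ / 4))] with R hR0 hRΛ hRP
  refine ⟨ρ / 4 * R + h * ‖b‖ + 3 * (δ * R ^ 2) * ‖a‖ + |M|, fun x y hy hxy => ?_⟩
  have hR2 : 0 < R ^ 2 := by positivity
  have hδR : 0 < δ * R ^ 2 := by positivity
  have hby' := abs_le.1 (hby y hy)
  obtain ⟨hqy, hpy⟩ := hS y hy
  rcases cau_cases ha hb hxy with ⟨h0, h1, h2⟩ | ⟨h0, h1, h2⟩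
  · left
    refine ⟨h0, ?_⟩
    have h3 : -(δ * R ^ 2) < GF.mdot b x := by linarith [hby'.1]
    have h4 : q < GF.mdot a x := by linarith
    filter_upwards [Bt_loc_flat (a := a) (Ψ := Ψ) (h := h) hδ hR0 h3,
      (cont_mdot a).continuousAt.preimage_mem_nhds (Ioi_mem_nhds h4)] with z hz hz2
    rw [hz]
    exact hΨ.hi _ (le_of_lt hz2)
  · right
    by_cases c1 : GF.mdot a x < p
    · left
      refine ⟨h0, ?_⟩
      filter_upwards [(cont_mdot a).continuousAt.preimage_mem_nhds (Iio_mem_nhds c1)] with z hz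
      exact hΨ.Bt_lo hh.le (le_of_lt hz)
    by_cases c2 : GF.mdot b x < -(2 * (δ * R ^ 2))
    · left
      refine ⟨h0, ?_⟩
      have h3 : GF.mdot a x < p + h := by linarith
      filter_upwards [(cont_mdot a).continuousAt.preimage_mem_nhds (Iio_mem_nhds h3),
        (cont_mdot b).continuousAt.preimage_mem_nhds (Iio_mem_nhds c2)] with z hz hz2
      rw [Bt_bent hδ hR0 (le_of_lt hz2)]
      apply hΨ.lo
      have : GF.mdot a z < p + h := hz
      linarith
    right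
    rw [not_lt] at c1 c2
    have hd : 0 ≤ GF.mdot (x - y) (x - y) := hxy
    have ea : |GF.mdot a (x - y)| ≤ h := by
      rw [mdot_subr, abs_le]
      constructor <;> linarith
    have eb : |GF.mdot b (x - y)| ≤ 3 * (δ * R ^ 2) := by
      rw [mdot_subr, abs_le]
      constructor <;> linarith [hby'.2]
    have hpr := cau_prj ha hb hab hd ea eb
    rw [← hC0] at hpr
    have hpr2 : ‖prj a b (x - y)‖ ≤ ρ / 4 * R := by
      have h3 : ‖prj a b (x - y)‖ ^ 2 ≤ (ρ / 4 * R) ^ 2 := by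
        calc _ ≤ _ := hpr
          _ = 6 * C0 * h * δ * R ^ 2 := by ring
          _ ≤ 6 * C0 * h * δ0 * R ^ 2 := by gcongr
          _ ≤ (ρ / 4) ^ 2 * R ^ 2 := mul_le_mul_of_nonneg_right hd2 hR2.le
          _ = _ := by ring
      exact le_of_sq_le_sq h3 (by positivity)
    constructor
    · rw [cv_prj]
      have h3 : ‖(GF.mdot b x / R ^ 2) • a‖ ≤ ρ / 4 := by
        rw [norm_smul, Real.norm_eq_abs]
        have h4 : |GF.mdot b x / R ^ 2| ≤ 3 * δ0 := by
          rw [abs_div, abs_of_pos hR2, div_le_iff₀ hR2]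
          have h5 : δ * R ^ 2 ≤ δ0 * R ^ 2 := mul_le_mul_of_nonneg_right hδδ hR2.le
          rw [abs_le]
          constructor <;> linarith [hby'.2]
        exact (mul_le_mul_of_nonneg_right h4 (norm_nonneg a)).trans hd1
      have h4 : ‖R⁻¹ • prj a b x‖ ≤ ρ / 4 + P / R := by
        rw [norm_smul, norm_inv, Real.norm_eq_abs, abs_of_pos hR0]
        have h5 : prj a b x = prj a b (x - y) + prj a b y := by
          rw [prj_subr]
          abel
        have h6 : ‖prj a b x‖ ≤ ρ / 4 * R + P := by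
          rw [h5]
          exact (norm_add_le _ _).trans (add_le_add hpr2 (hPy y hy))
        rw [inv_mul_le_iff₀ hR0, mul_add, mul_div_cancel₀ _ hR0.ne']
        linarith
      have h5 := norm_add_le ((GF.mdot b x / R ^ 2) • a) (R⁻¹ • prj a b x)
      linarith
    · have h3 : ‖x‖ ≤ ‖x - y‖ + ‖y‖ := by
        calc ‖x‖ = ‖(x - y) + y‖ := by rw [sub_add_cancel]
          _ ≤ _ := norm_add_le _ _
      have h4 := norm_le_prj a b (x - y)
      have h5 := mul_le_mul_of_nonneg_right ea (norm_nonneg b)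
      have h6 := mul_le_mul_of_nonneg_right eb (norm_nonneg a)
      have h7 := (hM y hy).trans (le_abs_self M)
      linarith

end Vale.Agent.P352.MO

end
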