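import Vale.Agent.P352.MO.Stm
import Vale.Agent.P352.MO.Fin
import Vale.Agent.P352.MO.Cv

/-!
# P352 MO: the assembly
-/

set_option linter.all false

noncomputable section

open MeasureTheory Filter Topology Set SchwartzMap
open scoped ContDiff ComplexConjugate SchwartzMap

namespace Vale.Agent.P352.MS

open GF (Ix V Fn Fld bas eta pd bar sim o IsLor)
open H246 H496 H15 H755 H121 H846 NF SL MO

variable {D : Type*} [NormedAddCommGroup D] [InnerProductSpace ℂ D] {Q : GF.Theory D}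
  {T : Ix → Ix → GF.Fld D} {J : Ix → GF.Fld D} {A : (V → V) → D → D} {K : V → D → D} {a : V}
  {M M' : 𝓢(ℝ, ℂ) → D → D}

lemma OneMom.toMO (h : OneMom Q T A a M) : MO.OneMom Q T A a M :=
  ⟨h.toRep, h.null, h.lin, h.cont, h.mom⟩

lemma NullK.toMC (h : NullK Q T A K) : MC Q T A K := ⟨h.toRep, h.mom, h.cont⟩

lemma nullP_iff : NullP Q T A ↔ Gen0 Q T A ∧ Gen1 Q T A :=
  ⟨fun h => ⟨h.zero, h.one⟩, fun h => ⟨h.1, h.2⟩⟩

/-- the moments of order zero and one exist if the second moments exist -/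
theorem nullP_of (hT : Q.IsStress T) (hP : ND.PCh Q T A ∨ NullP Q T A)
    (h : OneMom Q T A a M) : NullP Q T A := by
  rcases hP with hP | hP
  · have hs := sec_of_one hT h.toMO
    have hO := MO.opp hT h.toRep hP
    exact ⟨gen0_sec hT hs hO, gen1_sec hT hs hO⟩
  · exact hP

/-- sharp second moments -/
theorem exists_nullK (hT : Q.IsStress T) (hJ : IsVirial Q T J)
    (hP : ND.PCh Q T A ∨ NullP Q T A) (h : OneMom Q T A a M) :
    ∃ K : V → D → D, NullK Q T A K := by
  have g := nullP_iff.1 (nullP_of hT hP h)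
  obtain ⟨K, hK⟩ := sl_of hT hJ (sec_of_one hT h.toMO) g.1 g.2
  exact ⟨K, hK.toRep, hK.mom, hK.cont⟩

/-- **Conformal invariance** from the sharp second moments -/
theorem conf_nullK (hT : Q.IsStress T) (hJ : IsVirial Q T J) (g : NullP Q T A)
    (h : NullK Q T A K) : N86.ConfInv Q T := conf0 hT hJ h.toMC g.zero g.one

/-- **Conformal invariance** from the second moments of one null component of the stress tensor -/
theorem conf_one (hT : Q.IsStress T) (hJ : IsVirial Q T J)
    (hP : ND.PCh Q T A ∨ NullP Q T A) (h : OneMom Q T A a M) : N86.ConfInv Q T := by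
  obtain ⟨K, hK⟩ := exists_nullK hT hJ hP h
  exact conf_nullK hT hJ (nullP_of hT hP h) hK

/-- the charges of the sharp second moments -/
theorem kc_nullK (hT : Q.IsStress T) (hJ : IsVirial Q T J) (g : NullP Q T A)
    (h : NullK Q T A K) : ∀ a b, IsNull a → IsNull b → GF.mdot a b = 1 →
      H731.KC Q A a (K a) (Cop Q A K a b) := fun a b ha hb hab =>
  MO.kc_all (K := K) hT hJ ⟨h.toMC, g.zero, g.one⟩ ha hb hab

/-- sharp second moments define smeared ones -/
theorem one_of_nullK (hT : Q.IsStress T) (hJ : IsVirial Q T J) (g : NullP Q T A)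
    (h : NullK Q T A K) (ha : IsNull a) : ∃ M : 𝓢(ℝ, ℂ) → D → D, OneMom Q T A a M := by
  obtain ⟨C, -, hC⟩ := sec_of hT h.toRep h.mom g.one (kc_nullK hT hJ g h)
  exact ⟨Mk A K C a, h.toRep, ha, fun f g c v => hC.lin a f g c v ha,
    fun v w => hC.cont a v w ha, fun b κ y ψ f v w hA hf => hC.mom a b κ y ψ f v w hA hf⟩

theorem one_unique (h : OneMom Q T A a M) (h' : OneMom Q T A a M') (f : 𝓢(ℝ, ℂ)) (v : D) :
    M f v = M' f v := by
  have ha := h.null
  refine ext_inner_left ℂ fun w => ?_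
  refine m1_ext (F := fun f => inner ℂ w (M f v)) (G := fun f => inner ℂ w (M' f v))
    (h.cont v w) (h'.cont v w) (fun f hf => ?_) f
  obtain ⟨b, hb, hab⟩ := H755.exists_dual ha
  obtain ⟨κ, hκ, hκ1⟩ := exists_kp
  have key : ∀ (p : ℝ → ℝ) (hp : Tst p), inner ℂ w (M (tS p hp) v) =
      inner ℂ w (M' (tS p hp) v) := fun p hp =>
    tendsto_nhds_unique (h.mom b κ 0 p _ v w ⟨ha, hb, hab, hκ, hκ1, hp⟩ fun u => rfl)
      (h'.mom b κ 0 p _ v w ⟨ha, hb, hab, hκ, hκ1, hp⟩ fun u => rfl)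
  obtain ⟨p, q, hp, hq, hpq⟩ := m1_parts hf
  rw [hpq, h.lin _ _ _ v, h'.lin _ _ _ v, inner_add_right, inner_add_right,
    inner_smul_right, inner_smul_right, key, key]

/-- the second moments, if the tensor fields of real dimension generate the theory -/
theorem tgen_nullK (hT : Q.IsStress T) (hJ : IsVirial Q T J) (g : NullP Q T A)
    (h : NullK Q T A K) (hg : TGen Q) : ConfGen Q A K ∧ ∀ a M, OneMom Q T A a M →
      ∀ (f : 𝓢(ℝ, ℂ)) v, M f v = (∫ u : ℝ, f u) • K a v -
        (2 * ∫ u : ℝ, (u : ℂ) * f u) • A (fun z => z) v := by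
  refine ⟨confGen0 hT hJ h.toMC g.zero g.one hg, fun a M hM f v => ?_⟩
  obtain ⟨C, hC, hs⟩ := sec_of hT h.toRep h.mom g.one (kc_nullK hT hJ g h)
  obtain ⟨b, hb, hab⟩ := H755.exists_dual hM.null
  have h2 : C a v = 0 := by
    rw [hC a b v hM.null hb hab]
    exact kc_zero hT h.mom hg (fun l d Φ hΦ μ => gl_ten h.toRep hΦ μ)
      (kc_nullK hT hJ g h a b hM.null hb hab) v
  have h1 : OneMom Q T A a (Mk A K C a) := ⟨h.toRep, hM.null, fun f g c v =>
    hs.lin a f g c v hM.null, fun v w => hs.cont a v w hM.null,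
    fun b κ y ψ f v w hA hf => hs.mom a b κ y ψ f v w hA hf⟩
  rw [one_unique hM h1 f v]
  unfold Mk
  rw [h2, add_zero]

end Vale.Agent.P352.MS

end
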