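import Vale.Agent.P352.NF.F7a
import Vale.Agent.P352.NF.F4
import Vale.Agent.P352.MO.H

/-!
# P352 MO: the moments of order zero and one of the null energy density
-/

set_option linter.all false

noncomputable section

open MeasureTheory Filter Topology Set
open scoped ContDiff ComplexConjugate SchwartzMap

namespace Vale.Agent.P352.MO

open GF (Ix V Fn bas eta pd bar sim o)
open H246 H496 H15 H755 NF SL

variable {D : Type*} [NormedAddCommGroup D] [InnerProductSpace ℂ D] {Q : GF.Theory D}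
  {T : Ix → Ix → GF.Fld D} {J : Ix → GF.Fld D} {A : (V → V) → D → D} {K C : V → D → D}

/-- the integral of `T_aa` over null hyperplanes is the translation generator -/
def Gen0 (Q : GF.Theory D) (T : Ix → Ix → GF.Fld D) (A : (V → V) → D → D) : Prop :=
  ∀ a b κ y ψ v w, Adm a b κ ψ → Tendsto (fun R => inner ℂ w (sm T (fun m n z =>
    eta m * a m * (eta n * a n) * ctf a b κ y ψ R z) v)) atTop
    (𝓝 ((∫ u, (ψ u : ℂ)) * inner ℂ w (A (fun _ => a) v)))

/-- the first moments of `T_aa` on null hyperplanes -/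
def Gen1 (Q : GF.Theory D) (T : Ix → Ix → GF.Fld D) (A : (V → V) → D → D) : Prop :=
  ∀ a b κ y ψ (x : V) v w, Adm a b κ ψ → Tendsto (fun R => inner ℂ w (sm T (fun m n z =>
    eta m * a m * (eta n * a n) * GF.mdot x z * ctf a b κ y ψ R z) v)) atTop
    (𝓝 ((∫ u, (ψ u : ℂ)) * inner ℂ w (A (ro a x) v) +
      (∫ u : ℝ, (u : ℂ) * (ψ u : ℂ)) * inner ℂ w (A (fun _ => x) v)))

lemma gen0_mt (g : Gen0 Q T A) {a b : V} {κ : V → ℝ} {ψ : ℝ → ℝ} (hA : Adm a b κ ψ) (y : V)
    (v w : D) : Tendsto (fun R => mt T w v (F0 a b κ y ψ R)) atTop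
      (𝓝 ((∫ u, (ψ u : ℂ)) * inner ℂ w (A (fun _ => a) v))) := g a b κ y ψ v w hA

lemma gen1_mt (g : Gen1 Q T A) {a b : V} {κ : V → ℝ} {ψ : ℝ → ℝ} (hA : Adm a b κ ψ) (y x : V)
    (v w : D) : Tendsto (fun R => mt T w v (F1 a b κ y ψ x R)) atTop
      (𝓝 ((∫ u, (ψ u : ℂ)) * inner ℂ w (A (ro a x) v) +
      (∫ u : ℝ, (u : ℂ) * (ψ u : ℂ)) * inner ℂ w (A (fun _ => x) v))) := g a b κ y ψ x v w hA

lemma F1_sup {a b : V} {κ : V → ℝ} {ψ : ℝ → ℝ} {x : V} {R : ℝ} {m n : Ix} {z : V}
    (hz : z ∈ tsupport fun z => ((F1 a b κ 0 ψ x R m n z : ℝ) : ℂ)) :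
    GF.mdot a z ∈ tsupport ψ := by
  have hc : IsClosed {x : V | GF.mdot a x ∈ tsupport ψ} :=
    (isClosed_tsupport ψ).preimage (H846.contDiff_mdot a).continuous
  refine closure_minimal ?_ hc hz
  intro y hy
  apply subset_tsupport
  intro h
  apply hy
  show ((F1 a b κ 0 ψ x R m n y : ℝ) : ℂ) = 0
  unfold F1 ctf
  rw [h, mul_zero, mul_zero, Complex.ofReal_zero]

/-- symmetric operators that commute with the stress tensor smeared in a slab commute with its
smearings by tensor fields -/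
lemma sm_com {B : D → D} (hB : ∀ v w, inner ℂ (B v) w = inner ℂ v (B w))
    {F : Ix → Ix → V → ℝ} (hc : ∀ m n v, B (T m n (fun x => (F m n x : ℂ)) v) =
      T m n (fun x => (F m n x : ℂ)) (B v)) (v : D) : B (sm T F v) = sm T F (B v) := by
  have hadd : ∀ u w, B (u + w) = B u + B w := fun u w => ext_inner_left ℂ fun z => by
    rw [← hB, inner_add_right, inner_add_right, ← hB, ← hB]
  unfold sm
  simp only [Fin.sum_univ_four, hadd, hc]

/-- **Symmetric operators that commute with the stress tensor smeared in a slab** between null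
hyperplanes commute with the generators of the translations, the null rotations and the boosts. -/
theorem com01 (g : Gen1 Q T A) {B : D → D}
    (hB : ∀ v w, inner ℂ (B v) w = inner ℂ v (B w)) {a : V} (ha : IsNull a) {α β : ℝ}
    (hαβ : α < β) (hc : ∀ m n f v, GF.IsTest f → HasCompactSupport f →
      (∀ z ∈ tsupport f, GF.mdot a z ∈ Ioo α β) → B (T m n f v) = T m n f (B v)) (x : V) (v : D) :
    B (A (fun _ => x) v) = A (fun _ => x) (B v) ∧ B (A (ro a x) v) = A (ro a x) (B v) := by
  obtain ⟨b, hb, hab⟩ := exists_dual ha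
  obtain ⟨κ, hκ, hκ1⟩ := exists_kp
  have key : ∀ w, ∀ ψ : ℝ → ℝ, Tst ψ → tsupport ψ ⊆ Ioo α β → ∫ u : ℝ, (ψ u : ℂ) *
      ((inner ℂ (B w) (A (ro a x) v) - inner ℂ w (A (ro a x) (B v))) +
      u * (inner ℂ (B w) (A (fun _ => x) v) - inner ℂ w (A (fun _ => x) (B v)))) = 0 := by
    intro w ψ hψ hs
    have hA : Adm a b κ ψ := ⟨ha, hb, hab, hκ, hκ1, hψ⟩
    have h1 := gen1_mt g hA 0 x v (B w)
    have h2 := gen1_mt g hA 0 x (B v) w
    have h3 := tendsto_nhds_unique h1 (h2.congr' (by
      filter_upwards [eventually_ge_atTop (1 : ℝ)] with R hR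
      unfold H755.mt
      rw [hB, sm_com hB fun m n v => hc m n _ v (F1_tst hA 0 x hR m n).isTest
        ((F1_tst hA 0 x hR m n).2.comp_left (g := fun r : ℝ => (r : ℂ)) (by simp))
        fun z hz => hs (F1_sup hz)]))
    have j : ∀ c : ℂ, Integrable fun u : ℝ => (ψ u : ℂ) * c := fun c =>
      tst_intR hψ continuous_const
    have j2 : Integrable fun u : ℝ => (u : ℂ) * (ψ u : ℂ) := by
      have h : Integrable fun u : ℝ => (ψ u : ℂ) * (u : ℂ) :=
        tst_intR hψ Complex.continuous_ofReal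
      refine h.congr (Eventually.of_forall fun u => ?_)
      simp only
      ring
    have e : ∀ c0 c1 : ℂ, ∫ u : ℝ, (ψ u : ℂ) * (c0 + u * c1) =
        (∫ u, (ψ u : ℂ)) * c0 + (∫ u : ℝ, (u : ℂ) * (ψ u : ℂ)) * c1 := by
      intro c0 c1
      rw [← integral_mul_const, ← integral_mul_const, ← integral_add (j c0) (j2.mul_const c1)]
      refine integral_congr_ae (Eventually.of_forall fun u => ?_)
      simp only
      ring
    rw [e]
    linear_combination h3
  refine ⟨ext_inner_left ℂ fun w => ?_, ext_inner_left ℂ fun w => ?_⟩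
  · have h := f4_lin hαβ (key w)
    rw [← hB]
    exact sub_eq_zero.1 h
  · have h := H846.poly_zero (c0 := inner ℂ (B w) (A (ro a x) v) - inner ℂ w (A (ro a x) (B v)))
      (c1 := inner ℂ (B w) (A (fun _ => x) v) - inner ℂ w (A (fun _ => x) (B v))) (c2 := 0) hαβ
      (fun ψ hψ hs => by
        have h1 := key w ψ hψ hs
        simpa only [mul_zero, add_zero] using h1)
    rw [← hB]
    exact sub_eq_zero.1 h

/-- The second moments `K a` of the null energy density `T_aa` on null hyperplanes exist, as operators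
on `D`, and they are continuous under translations. -/
structure MC (Q : GF.Theory D) (T : Ix → Ix → GF.Fld D) (A : (V → V) → D → D) (K : V → D → D) :
    Prop extends H15.Rep Q A where
  mom : Mom Q T K
  cont : ∀ a b v w, IsNull a → IsNull b →
    Continuous fun u : ℝ => inner ℂ w (Q.U 1 GF.one (u • b) (K a (Q.U 1 GF.one (-(u • b)) v)))

/-- the properties of the moments -/
structure MCG (Q : GF.Theory D) (T : Ix → Ix → GF.Fld D) (A : (V → V) → D → D) (K : V → D → D) :
    Prop extends MC Q T A K where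
  gen0 : Gen0 Q T A
  gen1 : Gen1 Q T A

end Vale.Agent.P352.MO

end
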