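import Vale.Agent.P352.MO.P0

/-!
# P352 MO: symmetry, covariance and translations along the null plane of the second moments
-/

set_option linter.all false

noncomputable section

open MeasureTheory Filter Topology Set
open scoped ContDiff ComplexConjugate

namespace Vale.Agent.P352.MO

open GF (Ix V Fn bas eta pd bar sim o)
open H246 H496 H15 H755 NF SL
open H755 (mt)

variable {D : Type*} [NormedAddCommGroup D] [InnerProductSpace ℂ D] {Q : GF.Theory D}
  {T : Ix → Ix → GF.Fld D} {J : Ix → GF.Fld D} {A : (V → V) → D → D} {K : V → D → D}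

theorem nm_symm (hT : Q.IsStress T) (h : MCG Q T A K) {a : V} (ha : IsNull a) (v w : D) :
    inner ℂ (K a v) w = inner ℂ v (K a w) := by
  obtain ⟨b, hb, hab⟩ := exists_dual ha
  obtain ⟨κ, hκ, hκ1⟩ := exists_kp
  have key : (fun u => Kh Q K a b v w u) = fun u => conj (Kh Q K a b w v u) := by
    refine fun_uniqueR (h.cont a b w v ha hb)
      (Complex.continuous_conj.comp (h.cont a b v w ha hb)) fun ψ hψ => ?_
    have hA : Adm a b κ ψ := ⟨ha, hb, hab, hκ, hκ1, hψ⟩
    have h1 := Mom.tt h.mom hA 0 w v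
    have h2 := (Complex.continuous_conj.tendsto _).comp (Mom.tt h.mom hA 0 v w)
    have h3 : (fun R => mt T v w (Fm a b κ 0 ψ R)) =ᶠ[atTop]
        (fun z => conj z) ∘ fun R => mt T w v (Fm a b κ 0 ψ R) := by
      filter_upwards [eventually_ge_atTop 1] with R hR
      exact mt_herm hT (fun m n => Fm_tst hA 0 hR m n) v w
    have h4 := tendsto_nhds_unique h1 (h2.congr' h3.symm)
    rw [h4, ← integral_conj]
    refine integral_congr_ae (Eventually.of_forall fun u => ?_)
    simp
  have h0 := congrFun key 0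
  simp only [Kh_zero] at h0
  rw [h0, inner_conj_symm]

theorem nm_cov (hT : Q.IsStress T) (h : MCG Q T A K) {s r : ℝ} {L : Ix → V} {a b : V}
    (v : D) (hs : 0 < s) (hr : 0 < r) (hL : GF.IsLor L) (ha : IsNull a) (hb : IsNull b)
    (hab : sim 1 L 0 a = r • b) :
    Q.U s L 0 (K a v) = ((r / s : ℝ) : ℂ) • K b (Q.U s L 0 v) := by
  obtain ⟨b', hb', hbb'⟩ := exists_dual hb
  obtain ⟨κ', hκ', hκ1'⟩ := exists_kp
  obtain ⟨a', ha'def⟩ : ∃ a', a' = r⁻¹ • sim 1 (linv L) 0 b' := ⟨_, rfl⟩
  have hLa' : sim 1 L 0 a' = r⁻¹ • b' := by rw [ha'def, simL_smul, sim_linv hL]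
  have haa' : GF.mdot a a' = 1 := by
    rw [← md_LL hL, hab, hLa', md_smul, md_smul_l, hbb']
    field_simp
  have ha' : IsNull a' := by
    have h0 : GF.mdot a' a' = 0 := by
      rw [← md_LL hL, hLa', md_smul, md_smul_l, hb'.1]; simp
    exact ⟨h0, null_pos ha h0 (by rw [haa']; exact one_pos)⟩
  set κ : V → ℝ := fun x => κ' (sim s L 0 x) with hκdef
  have hκ : Tst κ := tst_sim hκ' hs hL
  have hκ1 : ∀ᶠ x in 𝓝 (0 : V), κ x = 1 := by
    have hc : Tendsto (fun x : V => sim s L 0 x) (𝓝 0) (𝓝 0) := by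
      have h1 : Continuous fun x : V => simE s L hs hL x :=
        (simE s L hs hL).toContinuousLinearEquiv.continuous
      have h2 := h1.tendsto 0
      have e : sim s L 0 (0 : V) = 0 := by funext n; simp [sim]
      simpa [H755.simE_apply, e] using h2
    exact hc.eventually hκ1'
  have hsim : ∀ x, sim s L 0 x = s • sim 1 L 0 x := fun x => sim_s s L x
  have hbx : ∀ x, GF.mdot b (sim s L 0 x) = s / r * GF.mdot a x := by
    intro x
    have e : b = r⁻¹ • sim 1 L 0 a := by rw [hab, smul_smul, inv_mul_cancel₀ hr.ne', one_smul]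
    rw [e, md_smul_l, hsim, md_smul, md_LL hL]
    field_simp
  have hb'x : ∀ x, GF.mdot b' (sim s L 0 x) = s * r * GF.mdot a' x := by
    intro x
    have e : b' = r • sim 1 L 0 a' := by rw [hLa', smul_smul, mul_inv_cancel₀ hr.ne', one_smul]
    rw [e, md_smul_l, hsim, md_smul, md_LL hL]
    ring
  have hcut : ∀ R x, cut b b' κ' R (sim s L 0 x) = cut a a' κ R x := by
    intro R x
    unfold cut
    rw [hκdef]
    simp only
    congr 1
    rw [hbx, hb'x, hsim, hsim, simL_add, simL_smul, simL_smul, simL_sub, simL_sub, simL_smul,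
      simL_smul L (GF.mdot a' x), hab, hLa']
    funext n
    simp only [Pi.add_apply, Pi.smul_apply, Pi.sub_apply, smul_eq_mul]
    field_simp
  have hsq : ∀ x, sq b b' (sim s L 0 x) = s ^ 2 * sq a a' x := by
    intro x
    unfold H15.sq
    rw [hbx, hb'x, hsim, md_smul, md_smul_l, md_LL hL]
    field_simp
  -- the limits
  have main : ∀ w, inner ℂ (Q.U s L 0 w) (K b (Q.U s L 0 v)) =
      ((s / r : ℝ) : ℂ) * inner ℂ w (K a v) := by
    intro w
    have key : (fun u => Kh Q K b b' (Q.U s L 0 w) (Q.U s L 0 v) u) =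
        fun u => ((s / r : ℝ) : ℂ) * Kh Q K a a' w v (r / s * u) := by
      have hca : Continuous (Kh Q K a a' w v) := h.cont a a' v w ha ha'
      refine fun_uniqueR (h.cont b b' _ _ hb hb')
        (continuous_const.mul (hca.comp (continuous_const.mul continuous_id))) fun ψ' hψ' => ?_
      set ψ : ℝ → ℝ := fun u => ψ' (s / r * u) with hψdef
      have hsr : s / r ≠ 0 := (div_pos hs hr).ne'
      have hψ : Tst ψ :=
        ⟨hψ'.1.comp (contDiff_const.mul contDiff_id),
          hψ'.2.comp_homeomorph (Homeomorph.mulLeft₀ (s / r) hsr)⟩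
      have hAb : Adm b b' κ' ψ' := ⟨hb, hb', hbb', hκ', hκ1', hψ'⟩
      have hAa : Adm a a' κ ψ := ⟨ha, ha', haa', hκ, hκ1, hψ⟩
      have h1 := Mom.tt h.mom hAb 0 (Q.U s L 0 v) (Q.U s L 0 w)
      have h2 := (Mom.tt h.mom hAa 0 v w).const_mul (((s / r) ^ 2 : ℝ) : ℂ)
      have h3 : (fun R => mt T (Q.U s L 0 w) (Q.U s L 0 v) (Fm b b' κ' 0 ψ' R)) =ᶠ[atTop]
          fun R => (((s / r) ^ 2 : ℝ) : ℂ) * mt T w v (Fm a a' κ 0 ψ R) := by
        filter_upwards [eventually_ge_atTop 1] with R hR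
        have hg : Tst fun x => sq b b' x * ctf b b' κ' 0 ψ' R x :=
          tst_smul (contDiff_sq b b') (ctf_tst hAb 0 hR)
        have e1 : Fm b b' κ' 0 ψ' R = fun m n x => (eta m * b m) * (eta n * b n) *
            (sq b b' x * ctf b b' κ' 0 ψ' R x) := by
          funext m n x; unfold Fm; ring
        rw [e1, mt_cov hT hg (fun m => eta m * b m) hs hL w v (tst_sim hg hs hL),
          ← mt_smul hT (fun m n => Fm_tst hAa 0 hR m n)]
        congr 1
        funext k l x
        have e2 : ∀ k, ∑ m, L k m * (eta m * b m) = r⁻¹ * (eta k * a k) := by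
          intro k
          have e : b = r⁻¹ • sim 1 L 0 a := by
            rw [hab, smul_smul, inv_mul_cancel₀ hr.ne', one_smul]
          have h5 := md_L hL k a
          rw [← h5, ← md_smul, ← e]
          unfold GF.mdot
          exact Finset.sum_congr rfl fun m _ => by ring
        have e3 : ctf b b' κ' 0 ψ' R (sim s L 0 x) = ctf a a' κ 0 ψ R x := by
          unfold ctf
          rw [sub_zero, sub_zero, hcut, hbx]
        rw [e2, e2, hsq, e3]
        unfold Fm
        field_simp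
      have h4 := tendsto_nhds_unique h1 (h2.congr' h3.symm)
      rw [h4]
      have h5 := Measure.integral_comp_mul_left
        (fun u => (ψ' u : ℂ) * Kh Q K a a' w v (r / s * u)) (s / r)
      have h6 : ∀ u, r / s * (s / r * u) = u := by intro u; field_simp
      simp only [h6] at h5
      rw [hψdef]
      simp only
      rw [h5, abs_of_pos (inv_pos.2 (div_pos hs hr))]
      simp_rw [mul_left_comm _ (((s / r : ℝ)) : ℂ) _]
      rw [integral_const_mul, Complex.real_smul, ← mul_assoc]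
      congr 1
      push_cast
      have : (s : ℂ) ≠ 0 := by exact_mod_cast hs.ne'
      have : (r : ℂ) ≠ 0 := by exact_mod_cast hr.ne'
      field_simp
    have h0 := congrFun key 0
    simp only [Kh_zero, mul_zero] at h0
    exact h0
  refine ext_inner_left ℂ fun z => ?_
  have hz := U_linv' h.toRep hs hL z
  rw [← hz, inner_smul_right, main, Q.U_inner s L 0 _ _ hs hL, ← mul_assoc]
  have : (s : ℂ) ≠ 0 := by exact_mod_cast hs.ne'
  have : (r : ℂ) ≠ 0 := by exact_mod_cast hr.ne'
  push_cast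
  field_simp

/-- the combination of the first moments in the translation law -/
lemma XX_comb (R : H15.Rep Q A) (a x0 : V) (h0 : GF.mdot a x0 = 0) (v : D) :
    A (XX a x0) v = (2 : ℂ) • A (ro a x0) v - ((GF.mdot x0 x0 : ℝ) : ℂ) • A (fun _ => a) v := by
  have h1 := R.add 0 0 2 (fun _ => (-(GF.mdot x0 x0)) • a) (ro a x0) v (const_sim _) (ro_sim a x0)
  have e : (fun z => (fun _ : V => (-(GF.mdot x0 x0)) • a) z + (2 : ℝ) • ro a x0 z) =
      XX a x0 := by
    funext z
    unfold XX cK ro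
    simp only [h0]
    module
  rw [e] at h1
  have h2 := R.add 0 0 (-(GF.mdot x0 x0)) (fun _ => (0 : V)) (fun _ => a) v (const_sim _)
    (const_sim _)
  have e2 : (fun z => (fun _ : V => (0 : V)) z + (-(GF.mdot x0 x0)) • (fun _ : V => a) z) =
      fun _ : V => (-(GF.mdot x0 x0)) • a := by
    funext z
    simp
  rw [e2, H755.A_zero' R, zero_add] at h2
  rw [h1, h2]
  push_cast
  module

theorem nm_tra (hT : Q.IsStress T) (h : MCG Q T A K) {a x0 : V} (ha : IsNull a)
    (hx : GF.mdot a x0 = 0) (v : D) :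
    Q.U 1 GF.one x0 (K a (Q.U 1 GF.one (-x0) v)) = K a v + A (XX a x0) v := by
  obtain ⟨b, hb, hab⟩ := exists_dual ha
  obtain ⟨κ, hκ, hκ1⟩ := exists_kp
  refine ext_inner_left ℂ fun w => ?_
  set s : ℝ := GF.mdot b x0 with hs
  have hlin : ∀ (c : ℂ), c * (inner ℂ w (A (fun _ => x0) v) - (s : ℂ) *
      inner ℂ w (A (fun _ => a) v)) = c * inner ℂ w (A (fun _ => x0) v) -
      c * s * inner ℂ w (A (fun _ => a) v) := fun c => by ring
  have key : (fun u => Kh Q K a b (Q.U 1 GF.one (-x0) w) (Q.U 1 GF.one (-x0) v) u) =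
      fun u => Kh Q K a b w v u + inner ℂ w (A (XX a x0) v) +
        2 * ((u : ℂ) * (inner ℂ w (A (fun _ => x0) v) - (s : ℂ) *
          inner ℂ w (A (fun _ => a) v))) := by
    have hc : Continuous (Kh Q K a b w v) := h.cont a b v w ha hb
    refine fun_uniqueR (h.cont a b _ _ ha hb) (by fun_prop) fun ψ hψ => ?_
    have hA : Adm a b κ ψ := ⟨ha, hb, hab, hκ, hκ1, hψ⟩
    have h1 := Mom.tt h.mom hA 0 (Q.U 1 GF.one (-x0) v) (Q.U 1 GF.one (-x0) w)
    have h2 := Mom.tt h.mom hA x0 v w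
    have h3 := gen1_mt h.gen1 hA x0 x0 v w
    have h4 := gen0_mt h.gen0 hA x0 v w
    have h4' := gen0_mt h.gen0 (Adm.umul hA) x0 v w
    have h5 := ((h2.add (h3.const_mul 2)).add (h4.const_mul (-(GF.mdot x0 x0 : ℂ)))).add
      (h4'.const_mul (-(2 * s : ℂ)))
    have h6 : (fun R => mt T (Q.U 1 GF.one (-x0) w) (Q.U 1 GF.one (-x0) v) (Fm a b κ 0 ψ R))
        =ᶠ[atTop] fun R => mt T w v (Fm a b κ x0 ψ R) + 2 * mt T w v (F1 a b κ x0 ψ x0 R) +
          -(GF.mdot x0 x0 : ℂ) * mt T w v (F0 a b κ x0 ψ R) +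
          -(2 * s : ℂ) * mt T w v (F0 a b κ x0 (fun u => u * ψ u) R) := by
      filter_upwards [eventually_ge_atTop 1] with R hR
      have t1 : ∀ m n, Tst (Fm a b κ x0 ψ R m n) := fun m n => Fm_tst hA x0 hR m n
      have t2 : ∀ m n, Tst (F1 a b κ x0 ψ x0 R m n) := fun m n => F1_tst hA x0 x0 hR m n
      have t3 : ∀ m n, Tst (F0 a b κ x0 ψ R m n) := fun m n => F0_tst hA x0 hR m n
      have t4 : ∀ m n, Tst (F0 a b κ x0 (fun u => u * ψ u) R m n) :=
        fun m n => F0_tst (Adm.umul hA) x0 hR m n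
      have s1 : ∀ m n, Tst fun x => Fm a b κ x0 ψ R m n x + 2 * F1 a b κ x0 ψ x0 R m n x :=
        fun m n => ⟨(t1 m n).1.add (contDiff_const.mul (t2 m n).1),
          (t1 m n).2.add ((t2 m n).2.mul_left)⟩
      have s2 : ∀ m n, Tst fun x => Fm a b κ x0 ψ R m n x + 2 * F1 a b κ x0 ψ x0 R m n x +
          (-GF.mdot x0 x0) * F0 a b κ x0 ψ R m n x :=
        fun m n => ⟨(s1 m n).1.add (contDiff_const.mul (t3 m n).1),
          (s1 m n).2.add ((t3 m n).2.mul_left)⟩
      rw [mt_trans hT (fun m n => Fm_tst hA 0 hR m n)]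
      have e1 := mt_add hT t1 t2 2 w v
      have e2 := mt_add hT (F := fun m n x => Fm a b κ x0 ψ R m n x +
        2 * F1 a b κ x0 ψ x0 R m n x) s1 t3 (-GF.mdot x0 x0) w v
      have e3 := mt_add hT (F := fun m n x => Fm a b κ x0 ψ R m n x +
        2 * F1 a b κ x0 ψ x0 R m n x + (-GF.mdot x0 x0) * F0 a b κ x0 ψ R m n x) s2 t4
        (-(2 * s)) w v
      rw [e2, e1] at e3
      push_cast at e3
      rw [← e3]
      congr 1
      funext m n x
      have c1 : ctf a b κ 0 ψ R (x + -x0) = ctf a b κ x0 ψ R x := by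
        unfold ctf
        rw [sub_zero, ← sub_eq_add_neg, md_sub, hx, sub_zero]
      have c2 : ctf a b κ x0 (fun u => u * ψ u) R x = GF.mdot a x * ctf a b κ x0 ψ R x := by
        unfold ctf
        ring
      have c3 : sq a b (x + -x0) = sq a b x + 2 * GF.mdot x0 x - GF.mdot x0 x0 -
          2 * s * GF.mdot a x := by
        rw [← sub_eq_add_neg]
        unfold H15.sq
        rw [md_sub, md_sub, md_sub, md_sub_l, md_sub_l, hx, hs, md_comm x x0]
        ring
      simp only [Fm, F0, F1]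
      rw [c1, c2, c3]
      ring
    have h7 := tendsto_nhds_unique h1 (h5.congr' h6.symm)
    rw [h7]
    have j1 : Integrable fun u => (ψ u : ℂ) * Kh Q K a b w v u := tst_intR hψ hc
    have j2 : Integrable fun u => (ψ u : ℂ) * inner ℂ w (A (XX a x0) v) :=
      tst_intR hψ continuous_const
    have j3 : Integrable fun u => (ψ u : ℂ) * (2 * ((u : ℂ) * (inner ℂ w (A (fun _ => x0) v) -
        (s : ℂ) * inner ℂ w (A (fun _ => a) v)))) := tst_intR hψ (by fun_prop)
    have e : (fun u => (ψ u : ℂ) * (Kh Q K a b w v u + inner ℂ w (A (XX a x0) v) +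
        2 * ((u : ℂ) * (inner ℂ w (A (fun _ => x0) v) -
        (s : ℂ) * inner ℂ w (A (fun _ => a) v))))) = fun u =>
        ((ψ u : ℂ) * Kh Q K a b w v u + (ψ u : ℂ) * inner ℂ w (A (XX a x0) v)) +
        (ψ u : ℂ) * (2 * ((u : ℂ) * (inner ℂ w (A (fun _ => x0) v) -
        (s : ℂ) * inner ℂ w (A (fun _ => a) v)))) := by
      funext u; ring
    have j4 : Integrable fun u => (ψ u : ℂ) * Kh Q K a b w v u +
        (ψ u : ℂ) * inner ℂ w (A (XX a x0) v) := j1.add j2
    have e4 : ∫ u, (ψ u : ℂ) * (2 * ((u : ℂ) * (inner ℂ w (A (fun _ => x0) v) -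
        (s : ℂ) * inner ℂ w (A (fun _ => a) v)))) = 2 * (∫ u : ℝ, (u : ℂ) * (ψ u : ℂ)) *
        (inner ℂ w (A (fun _ => x0) v) - (s : ℂ) * inner ℂ w (A (fun _ => a) v)) := by
      rw [← integral_const_mul, ← integral_mul_const]
      refine integral_congr_ae (Eventually.of_forall fun u => ?_)
      simp only
      ring
    have e5 : (∫ u : ℝ, ((u * ψ u : ℝ) : ℂ)) = ∫ u : ℝ, (u : ℂ) * (ψ u : ℂ) :=
      integral_congr_ae (Eventually.of_forall fun u => by simp)
    rw [e, integral_add j4 j3, integral_add j1 j2, integral_mul_const, e4, e5,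
      XX_comb h.toRep a x0 hx v, inner_sub_right, inner_smul_right, inner_smul_right]
    ring
  have h0 := congrFun key 0
  simp only [Kh_zero] at h0
  have e : inner ℂ w (Q.U 1 GF.one x0 (K a (Q.U 1 GF.one (-x0) v))) =
      inner ℂ (Q.U 1 GF.one (-x0) w) (K a (Q.U 1 GF.one (-x0) v)) := by
    rw [← Q.U_inner 1 GF.one (-x0) w _ one_pos isLor_one, Uadd1, neg_add_cancel, Uone]
  rw [e, h0, inner_add_right]
  simp

/-- the properties of the second moments -/
theorem ks_of (hT : Q.IsStress T) (h : MCG Q T A K) : KS Q A K where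
  toRep := h.toRep
  symm a v w ha := nm_symm hT h ha v w
  cov s L r a b v hs hr hL ha hb hab := nm_cov hT h v hs hr hL ha hb hab
  tra a x v ha hx := nm_tra hT h ha hx v

end Vale.Agent.P352.MO

end
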