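import Vale.Agent.P352.MO.P2
import Vale.Agent.P352.NF.F2
import Vale.Agent.P352.NF.F4b
import Vale.Agent.P352.NF.E11
import Vale.Agent.P352.NF.E12
import Vale.Agent.P352.NC.E13a
import Vale.Agent.P352.H846.TvB
import Vale.Agent.P352.ND.F5
import Vale.Agent.P352.NF.F6

/-!
# P352 MO: the second differences of the second moments vanish
-/

set_option linter.all false

noncomputable section

open MeasureTheory Filter Topology SchwartzMap Complex
open scoped SchwartzMap ComplexConjugate ContDiff LineDeriv

namespace Vale.Agent.P352.MO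

open GF (Ix V Fn Fld Theory Sch IsLor bas eta o sim pd tr ev bar)
open H246 H496 H755 H15 H846 H246R H746 N86 NC NF SL
open UniformSpace (Completion)
open Set (Ioo)

variable {D : Type*} [NormedAddCommGroup D] [InnerProductSpace ℂ D]
variable {Q : GF.Theory D} {T : Ix → Ix → GF.Fld D} {J : Ix → GF.Fld D}
variable {A : (V → V) → D → D} {K : V → D → D}

theorem xi_T (hT : Q.IsStress T) (hJ : IsVirial Q T J) (h : MCG Q T A K) {a : V}
    (ha : IsNull a) (x : V) (g : Ix → Ix → 𝓢(Mink, ℂ)) : Xi A K a x (tvec Q T g) = 0 :=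
  Xi_zero hT hJ (ks_of hT h) ha x g

theorem kh_affT (hT : Q.IsStress T) (hJ : IsVirial Q T J) (h : MCG Q T A K) {a b : V}
    (ha : IsNull a) (hb : IsNull b) (hab : GF.mdot a b = 1) (m n : Ix) (F : 𝓢(Mink, ℂ))
    (w : D) (u t : ℝ) : kh Q A K a b (T m n (fl F) Q.vac) w (u + t) +
      kh Q A K a b (T m n (fl F) Q.vac) w (u - t) =
      2 * kh Q A K a b (T m n (fl F) Q.vac) w u :=
  kh_affine hT (ks_of hT h) ha hb hab (fun F => by
    rw [← e13_single hT m n F]
    exact xi_T hT hJ h ha _ _) F w u t

theorem sdT (hT : Q.IsStress T) (hJ : IsVirial Q T J) (h : MCG Q T A K) {a b : V}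
    (ha : IsNull a) (hb : IsNull b) (hab : GF.mdot a b = 1) : SdT Q T A K a b := by
  intro u t m n f hf hc hs v
  have hk := ks_of hT h
  have hcA : ∀ v, A (fun _ => (-(4 * t ^ 2)) • b) v = ((-(4 * t ^ 2) : ℝ) : ℂ) • A (fun _ => b) v := by
    intro v
    have h1 := A_lin2 h.toRep (-(4 * t ^ 2)) 0 v (const_sim b) (const_sim b)
    simp only [zero_smul, add_zero, ofReal_zero] at h1
    exact h1
  have hz : ∀ {g : Fn}, GF.IsTest g → Sd Q A K a b u t (T m n g Q.vac) = 0 := by
    intro g hg
    obtain ⟨F, rfl⟩ := exists_fl hg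
    refine ext_inner_left ℂ fun w => ?_
    rw [inner_Sd, kh_affT hT hJ h ha hb hab, sub_self, inner_zero_right]
  refine loc_B hT h ha hb hab (hT.bose m n) (fun f v w hf => hT.herm m n f v w hf) (gl_T h.toRep hT m n)
    hf hc (c := ![1, 1, -2]) (u := ![u + t, u - t, u])
    (const_sim ((-(4 * t ^ 2)) • b)) (fun v => ?_) (fun i y hy => ?_) (f2_symm hT hk ha b u t)
    (f2_vac hT hk ha b u t) (hz hf) (hz (isTest_bar hf)) v
  · rw [f2_Sd h.toRep, hcA]
    simp only [Fin.sum_univ_three, Matrix.cons_val_zero, Matrix.cons_val_one, Matrix.cons_val_two,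
      Matrix.head_cons, Matrix.tail_cons]
    push_cast
    module
  · have h1 := hs y hy
    have h2 := neg_abs_le t
    have h3 := le_abs_self t
    have h4 := abs_nonneg t
    fin_cases i
    · simp
      linarith
    · simp
      linarith
    · simp
      linarith

/-- the second differences commute with the translations, the null rotations and the boosts -/
theorem sd_gen (hT : Q.IsStress T) (hJ : IsVirial Q T J) (h : MCG Q T A K) {a b : V}
    (ha : IsNull a) (hb : IsNull b) (hab : GF.mdot a b = 1) (x : V) (u t : ℝ) (v : D) :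
    Sd Q A K a b u t (A (fun _ => x) v) = A (fun _ => x) (Sd Q A K a b u t v) ∧
      Sd Q A K a b u t (A (ro a x) v) = A (ro a x) (Sd Q A K a b u t v) := by
  have hk := MO.ks_of hT h
  refine com01 h.gen1 (fun v w => f2_symm hT hk ha b u t v w) ha
    (α := u - |t| - 2) (β := u - |t| - 1) (by linarith) (fun m n f v hf hc hs => ?_) x v
  exact sdT hT hJ h ha hb hab u t m n f hf hc (fun y hy => by
    have := (hs y hy).2
    linarith) v

end Vale.Agent.P352.MO

end
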