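import Vale.Agent.P352.MO.P3
import Vale.Agent.P352.NF.F4a

/-!
# P352 MO: second moments whose second differences commute with a translation and a boost
-/

set_option linter.all false

noncomputable section

open MeasureTheory Filter Topology SchwartzMap Complex
open scoped SchwartzMap ComplexConjugate ContDiff LineDeriv

namespace Vale.Agent.P352.MO

open GF (Ix V Fn Fld Theory Sch IsLor bas o sim pd tr ev bar)
open H246 H496 H755 H15 H846 H246R H746 N86 NC NF SL
open UniformSpace (Completion)

variable {D : Type*} [NormedAddCommGroup D] [InnerProductSpace ℂ D]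
variable {Q : GF.Theory D} {T : Ix → Ix → GF.Fld D} {J : Ix → GF.Fld D}
variable {A : (V → V) → D → D} {K : V → D → D}

section

variable (R : H15.Rep Q A) {a b : V} (ha : IsNull a) (hb : IsNull b) (hab : GF.mdot a b = 1)
  (hsym : ∀ v w, inner ℂ (K a v) w = inner ℂ v (K a w))
  (hcov : ∀ (r : ℝ) (L : Ix → V) (v : D), 0 < r → IsLor L → sim 1 L 0 a = r • a →
    Q.U 1 L 0 (K a v) = (r : ℂ) • K a (Q.U 1 L 0 v))

include R ha hb hab hsym hcov in
/-- **The second differences vanish if they commute with the Poincaré generators** of the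
translation along `b` and of the boost. -/
theorem sd_zero_two (hcont : ∀ v w, Continuous fun u : ℝ => inner ℂ w (Ku Q K a b u v))
    (hA1 : ∀ u t v, Sd Q A K a b u t (A (fun _ => b) v) = A (fun _ => b) (Sd Q A K a b u t v))
    (hA2 : ∀ u t v, Sd Q A K a b u t (A (Nf a b) v) = A (Nf a b) (Sd Q A K a b u t v))
    (u t : ℝ) (v : D) : Sd Q A K a b u t v = 0 := by
  have hK : Adj (K a) (K a) := hsym
  have hP := A_symm R (const_sim b)
  have hN := A_symm R (f4_Nf_sim a b)
  -- the matrix elements
  set g : D → D → ℝ → ℂ := fun v w u => inner ℂ w (Ku Q K a b u v) with hg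
  set p : D → D → ℝ → ℂ := fun v w u => inner ℂ w (A (fun _ => b) (Ku Q K a b u v)) -
    inner ℂ w (Ku Q K a b u (A (fun _ => b) v)) with hp
  have hpc : ∀ v w, Continuous (p v w) := by
    intro v w
    have e : p v w = fun u => g v (A (fun _ => b) w) u - g (A (fun _ => b) v) w u := by
      funext u
      simp only [hp, hg]
      rw [hP]
    rw [e]
    exact (hcont v _).sub (hcont _ w)
  have hPa := fun v w => NC.e1_add R (const_sim b) v w
  have hPs := fun v w => NC.e1_sub R (const_sim b) v w
  have hPm := fun c v => NC.e1_smul R (const_sim b) c v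
  have hNa := fun v w => NC.e1_add R (f4_Nf_sim a b) v w
  have hNs := fun v w => NC.e1_sub R (f4_Nf_sim a b) v w
  have hNm := fun c v => NC.e1_smul R (f4_Nf_sim a b) c v
  -- commutation with the translations
  have s1 : ∀ v w u t, p v w (u + t) + p v w (u - t) = 2 * p v w u := by
    intro v w u t
    have h1 := congrArg (fun z => inner ℂ w z) (hA1 u t v)
    simp only [Sd_Ku, hPa, hPs, hPm, inner_add_right, inner_sub_right, inner_smul_right] at h1
    simp only [hp]
    linear_combination -h1
  -- commutation with the boosts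
  have s2 : ∀ v w u t, g v w (u + t) + g v w (u - t) - 2 * g v w u =
      -(4 * (t : ℂ) ^ 2) * inner ℂ w (A (fun _ => b) v) +
        I * t * (p v w (u + t) - p v w (u - t)) := by
    intro v w u t
    have h1 := congrArg (fun z => inner ℂ w z) (hA2 u t v)
    simp only [Sd_Ku, hNa, hNs, hNm, f4_NKu R ha hb hab hsym hcov, f4_NP R hb hab,
      inner_add_right, inner_sub_right, inner_smul_right] at h1
    have h2 := s1 v w u t
    simp only [hp] at h2 ⊢
    simp only [hg]
    push_cast at h1
    have hI : I * I = -1 := I_mul_I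
    linear_combination I * h1 + (I * u) * h2 + (inner ℂ w (Ku Q K a b (u + t) v) +
      inner ℂ w (Ku Q K a b (u - t) v) - 2 * inner ℂ w (Ku Q K a b u v) +
      4 * (t : ℂ) ^ 2 * inner ℂ w (A (fun _ => b) v)) * hI
  have s3 : ∀ v w u, p v w u = p v w 0 + (u : ℂ) * (p v w 1 - p v w 0) := fun v w u =>
    f4_mid (hpc v w) (s1 v w) u
  set κ : D → D → ℂ := fun v w => -4 * inner ℂ w (A (fun _ => b) v) +
    2 * I * (p v w 1 - p v w 0) with hκ
  have s4 : ∀ v w u t, g v w (u + t) + g v w (u - t) - 2 * g v w u = (t : ℂ) ^ 2 * κ v w := by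
    intro v w u t
    rw [s2, s3 v w (u + t), s3 v w (u - t), hκ]
    push_cast
    ring
  -- the moments are quadratic polynomials
  have s5 : ∀ v w (u : ℝ), g v w u = g v w 0 + (u : ℂ) * (g v w 1 - g v w 0 - κ v w / 2) +
      (u : ℂ) ^ 2 * (κ v w / 2) := by
    intro v w u
    have h1 := f4_mid (p := fun u => g v w u - (u : ℂ) ^ 2 * (κ v w / 2))
      ((hcont v w).sub (by fun_prop)) (fun u t => by
        have h2 := s4 v w u t
        push_cast
        linear_combination h2) u
    push_cast at h1
    linear_combination h1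
  set C1 : D → D := fun v => (1 / 2 : ℂ) • (Ku Q K a b 1 v - Ku Q K a b (-1) v) with hC1
  set C2 : D → D := fun v => (1 / 2 : ℂ) • (Ku Q K a b 1 v + Ku Q K a b (-1) v - (2 : ℂ) • K a v)
    with hC2
  have s6 : ∀ v (u : ℝ), Ku Q K a b u v = K a v + (u : ℂ) • C1 v + ((u ^ 2 : ℝ) : ℂ) • C2 v := by
    intro v u
    refine ext_inner_left ℂ fun w => ?_
    have h1 := s5 v w u
    have h2 := s5 v w (-1)
    have h3 : g v w 0 = inner ℂ w (K a v) := by
      simp only [hg]
      rw [Ku_zero]
    simp only [hC1, hC2, inner_add_right, inner_sub_right, inner_smul_right]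
    rw [h3] at h1 h2
    simp only [hg] at h1 h2
    push_cast at h1 h2 ⊢
    linear_combination h1 - ((u : ℂ) ^ 2 / 2 - (u : ℂ) / 2) * h2
  -- the first coefficient
  have s7 : ∀ v, A (fun _ => b) (K a v) - K a (A (fun _ => b) v) = (-I) • C1 v := by
    intro v
    have h1 := NC.e1_comm R hK (x := -b) (v := v) (C := C1 v) (E := C2 v) (fun s => by
      have e1 : s • -b = -(s • b) := by module
      have h2 := congrArg (Q.U 1 GF.one (-(s • b))) (s6 v s)
      rw [Ku, Uadd1, neg_add_cancel, Uone] at h2
      rw [e1, h2])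
    have e2 : ∀ z : D, A (fun _ => -b) z = -A (fun _ => b) z := by
      intro z
      have h3 := NC.e1_smulv R (-1) b z
      have e3 : (-1 : ℝ) • b = -b := by module
      rw [e3] at h3
      rw [h3]
      push_cast
      rw [neg_one_smul]
    have hKn : ∀ z, K a (-z) = -K a z := by
      intro z
      have h4 := hK.smul (-1 : ℂ) z
      rwa [neg_one_smul, neg_one_smul] at h4
    rw [e2, e2, hKn] at h1
    rw [neg_smul]
    have h5 : K a (A (fun _ => b) v) = A (fun _ => b) (K a v) + I • C1 v := by
      rw [← neg_neg (K a (A (fun _ => b) v)), h1]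
      abel
    rw [h5]
    abel
  have s8 : ∀ v w u, p v w u = -I * (inner ℂ w (C1 v) + 2 * (u : ℂ) * inner ℂ w (C2 v)) := by
    intro v w u
    have hUs := H746.U_sub' (Q := Q) one_pos isLor_one (u • b)
    have h1 := congrArg (Q.U 1 GF.one (u • b)) (s7 (Q.U 1 GF.one (-(u • b)) v))
    rw [hUs, U_smul one_pos isLor_one, NC.e1_PU R, ← NC.e1_PU R b (u • b)] at h1
    have h2 : Q.U 1 GF.one (u • b) (C1 (Q.U 1 GF.one (-(u • b)) v)) =
        C1 v + (2 * (u : ℂ)) • C2 v := by
      simp only [hC1]
      rw [U_smul one_pos isLor_one, hUs, Ku_shift, Ku_shift, s6 v (1 + u), s6 v (-1 + u), s6 v 1,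
        s6 v (-1)]
      push_cast
      module
    rw [h2] at h1
    have h3 := congrArg (fun z => inner ℂ w z) h1
    simp only [inner_sub_right, inner_smul_right, inner_add_right] at h3
    simp only [hp]
    exact h3
  refine ext_inner_left ℂ fun w => ?_
  have h1 := s4 v w u t
  have h2 : inner ℂ w (C2 v) = κ v w / 2 := by
    have h3 := s5 v w (-1)
    have h4 : g v w 0 = inner ℂ w (K a v) := by
      simp only [hg]
      rw [Ku_zero]
    simp only [hC2, inner_smul_right, inner_add_right, inner_sub_right]
    rw [h4] at h3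
    simp only [hg] at h3
    push_cast at h3
    linear_combination (1 / 2 : ℂ) * h3
  have h3 : κ v w = 4 * inner ℂ w (A (fun _ => b) v) := by
    have h4 := s8 v w 1
    have h5 := s8 v w 0
    have h6 : κ v w = -4 * inner ℂ w (A (fun _ => b) v) + 2 * I * (p v w 1 - p v w 0) := rfl
    rw [h4, h5, h2] at h6
    push_cast at h6
    have hI : I * I = -1 := I_mul_I
    linear_combination -h6 + (2 * κ v w) * hI
  rw [Sd_Ku, inner_sub_right, inner_sub_right, inner_add_right, inner_smul_right,
    inner_smul_right, inner_zero_right]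
  rw [h3] at h1
  simp only [hg] at h1
  push_cast
  linear_combination h1

end

/-- **The second differences vanish.** -/
theorem sd_zero (hT : Q.IsStress T) (hJ : IsVirial Q T J) (h : MCG Q T A K) {a b : V}
    (ha : IsNull a) (hb : IsNull b) (hab : GF.mdot a b = 1) (u t : ℝ) (v : D) :
    Sd Q A K a b u t v = 0 := by
  have hk := MO.ks_of hT h
  refine sd_zero_two h.toRep ha hb hab (fun v w => ks_symm hT hk ha v w)
    (fun r L v hr hL he => ?_) (fun v w => h.cont a b v w ha hb)
    (fun u t v => (MO.sd_gen hT hJ h ha hb hab b u t v).1) (fun u t v => ?_) u t v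
  · have h1 := ks_cov hT hk v one_pos hr hL ha ha he
    rw [div_one] at h1
    exact h1
  · have e : ∀ z : D, A (Nf a b) z = -A (ro a b) z := by
      intro z
      have h1 := h.toRep.add 0 0 (-1) (fun _ => (0 : V)) (ro a b) z (const_sim _) (ro_sim a b)
      have e1 : (fun z => (fun _ : V => (0 : V)) z + (-1 : ℝ) • ro a b z) = Nf a b := by
        funext z
        unfold ro Nf
        simp only [zero_add]
        module
      rw [e1, H755.A_zero' h.toRep, zero_add] at h1
      rw [h1]
      push_cast
      rw [neg_one_smul]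
    have hn : ∀ z : D, Sd Q A K a b u t (-z) = -Sd Q A K a b u t z := by
      intro z
      refine ext_inner_left ℂ fun w => ?_
      rw [← f2_symm hT hk ha b u t, inner_neg_right, inner_neg_right, f2_symm hT hk ha b u t]
    rw [e, e, hn, (MO.sd_gen hT hJ h ha hb hab b u t v).2]

/-- the neutral charge -/
theorem kc_all (hT : Q.IsStress T) (hJ : IsVirial Q T J) (h : MCG Q T A K) {a b : V}
    (ha : IsNull a) (hb : IsNull b) (hab : GF.mdot a b = 1) :
    H731.KC Q A a (K a) (H121.Cop Q A K a b) :=
  ND.kc_of (MO.ks_of hT h) (fun a b v w ha hb => h.cont a b v w ha hb) ha hb hab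
    (fun u t v => MO.sd_zero hT hJ h ha hb hab u t v)

end Vale.Agent.P352.MO

end
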