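import Vale.Agent.P352.MO.P4
import Vale.Agent.P352.NF.F6
import Vale.Agent.P352.NF.F7

/-!
# P352 MO: conformal invariance from the moments of the null energy density
-/

set_option linter.all false

noncomputable section

open MeasureTheory Filter Topology SchwartzMap
open scoped SchwartzMap ComplexConjugate ContDiff

namespace Vale.Agent.P352.MO

open GF (Ix V Fn Fld Theory Sch IsLor bas eta o sim pd tr improve ev bar Sep IsTest)
open H246 H496 H755 H15 H846 NF SL
open H746 (jg_tst tg_tst adm_of A_vac A_symm)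
open G (NGen)
open GMain (C_add C_smul C_zero C_sub C_sum C_sm exists_one)

variable {D : Type*} [NormedAddCommGroup D] [InnerProductSpace ℂ D]
variable {Q : GF.Theory D} {T : Ix → Ix → GF.Fld D} {J : Ix → GF.Fld D}
  {A : (V → V) → D → D} {K C : V → D → D}

/-- charges that commute with `T` commute with the generators of the Poincaré group -/
lemma comA0 (hs : ∀ a v w, IsNull a → inner ℂ (C a v) w = inner ℂ v (C a w))
    (hcT : ∀ a m n f v, IsNull a → GF.IsTest f → C a (T m n f v) = T m n f (C a v))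
    (h : MCG Q T A K) {a : V} (ha : IsNull a) {X : V → V} (hX : IsSim 0 X) (v : D) :
    C a (A X v) = A X (C a v) := by
  have key : ∀ (a' : V), IsNull a' → ∀ x v, C a (A (fun _ => x) v) = A (fun _ => x) (C a v) ∧
      C a (A (ro a' x) v) = A (ro a' x) (C a v) := fun a' ha' x v =>
    com01 h.gen1 (fun v w => hs a v w ha) ha' (α := 0) (β := 1) one_pos
      (fun m n f v hf _ _ => hcT a m n f v ha hf) x v
  refine sim_ind (P := fun Y => ∀ v, C a (A Y v) = A Y (C a v)) ?_ ?_ ?_ hX v
  · intro c v
    exact (key a ha c v).1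
  · intro a' w ha' hw v
    exact (key a' ha' w v).2
  · intro Y Y' c hY hY' h1 h2 v
    have e : ∀ u, A (fun z => Y z + c • Y' z) u = A Y u + (c : ℂ) • A Y' u := fun u =>
      h.toRep.add 0 0 c Y Y' u hY hY'
    rw [e, e, C_add hs ha, C_smul hs ha, h1, h2]

/-- **Special conformal generators up to neutral charges**, from the Poincaré charges and the second
moments only. -/
theorem ngen_of (hT : Q.IsStress T) (h : MCG Q T A K)
    (hs : ∀ a v w, IsNull a → inner ℂ (C a v) w = inner ℂ v (C a w))
    (htra : ∀ a x v, IsNull a → Q.U 1 GF.one x (K a (Q.U 1 GF.one (-x) v)) = K a v +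
      A (H755.XX a x) v - ((2 * GF.mdot a x : ℝ) : ℂ) • C a v)
    (hcT : ∀ a m n f v, IsNull a → GF.IsTest f → C a (T m n f v) = T m n f (C a v))
    (hcJ : ∀ a m f v, IsNull a → GF.IsTest f → C a (J m f v) = J m f (C a v)) :
    NGen Q J A K C := by
  have hcov : ∀ s L r a b v, 0 < s → 0 < r → IsLor L → IsNull a → IsNull b →
      sim 1 L 0 a = r • b → Q.U s L 0 (K a v) = ((r / s : ℝ) : ℂ) • K b (Q.U s L 0 v) :=
    fun s L r a b v hs hr hL ha hb hab => MO.nm_cov hT h v hs hr hL ha hb hab
  have hvac : ∀ a, IsNull a → C a Q.vac = 0 := by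
    intro a ha
    obtain ⟨b, hb, hab⟩ := H755.exists_dual ha
    have h1 := htra a b Q.vac ha
    rw [Q.U_vac 1 GF.one (-b) one_pos isLor_one, f7_K_vac hcov ha, hab,
      A_vac h.toRep (XX_sim a b)] at h1
    have h4 : Q.U 1 GF.one b (0 : D) = 0 := by
      have := U_smul (Q := Q) one_pos isLor_one b 0 (0 : D)
      rwa [zero_smul, zero_smul] at this
    rw [h4, add_zero, zero_sub] at h1
    have h5 := neg_eq_zero.1 h1.symm
    have h6 : (((2 * (1:ℝ) : ℝ)) : ℂ) ≠ 0 := by norm_num
    exact (smul_eq_zero.1 h5).resolve_left h6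
  exact
    { toRep := h.toRep
      symm := fun a v w ha => MO.nm_symm hT h ha v w
      cov := hcov
      tra := htra
      comJ := hcJ
      comK := fun a b v ha hb => f7_comK hs hcT h.mom h.cont ha hb v
      comA := fun a r X v ha hX => f7_comA hs h.toRep
        (fun a s v ha hs' => f7_dil h.toRep hcov htra a s v ha hs') ha
        (fun X v hX => comA0 hs hcT h ha hX v) hX v
      vac := hvac
      symC := hs }

/-- **Conformal invariance** from charges that commute with the fields. -/
theorem conf_of (hT : Q.IsStress T) (hJ : IsVirial Q T J) (h : MCG Q T A K)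
    (hs : ∀ a v w, IsNull a → inner ℂ (C a v) w = inner ℂ v (C a w))
    (htra : ∀ a x v, IsNull a → Q.U 1 GF.one x (K a (Q.U 1 GF.one (-x) v)) = K a v +
      A (H755.XX a x) v - ((2 * GF.mdot a x : ℝ) : ℂ) • C a v)
    (hcT : ∀ a m n f v, IsNull a → GF.IsTest f → C a (T m n f v) = T m n f (C a v))
    (hcJ : ∀ a m f v, IsNull a → GF.IsTest f → C a (J m f v) = J m f (C a v)) :
    N86.ConfInv Q T :=
  G.H731.main_conf hT hJ (MO.ngen_of hT h hs htra hcT hcJ) (Or.inl h.mom)

/-- **Conformal invariance**, assembled from the blocks on the charge `Cop`. -/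
theorem conf_fin (hT : Q.IsStress T) (hJ : IsVirial Q T J) (h : MCG Q T A K)
    (hs : ∀ a b, IsNull a → IsNull b → GF.mdot a b = 1 → ∀ v w,
      inner ℂ (H121.Cop Q A K a b v) w = inner ℂ v (H121.Cop Q A K a b w))
    (htra : ∀ a b, IsNull a → IsNull b → GF.mdot a b = 1 → ∀ x v,
      Q.U 1 GF.one x (K a (Q.U 1 GF.one (-x) v)) = K a v + A (H755.XX a x) v -
        ((2 * GF.mdot a x : ℝ) : ℂ) • H121.Cop Q A K a b v)
    (hcT : ∀ a b, IsNull a → IsNull b → GF.mdot a b = 1 → ∀ m n f v, GF.IsTest f →
      H121.Cop Q A K a b (T m n f v) = T m n f (H121.Cop Q A K a b v))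
    (hcJ : ∀ a b, IsNull a → IsNull b → GF.mdot a b = 1 → ∀ m f v, GF.IsTest f →
      H121.Cop Q A K a b (J m f v) = J m f (H121.Cop Q A K a b v)) :
    N86.ConfInv Q T := by
  have e : ∀ (a : V) (ha : IsNull a) (v : D), Cch Q A K a v =
      H121.Cop Q A K a (Classical.choose (H755.exists_dual ha)) v := fun a ha v => by
    simp only [Cch, dif_pos ha]
  have hc : ∀ (a : V) (ha : IsNull a), IsNull (Classical.choose (H755.exists_dual ha)) ∧
      GF.mdot a (Classical.choose (H755.exists_dual ha)) = 1 := fun a ha =>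
    Classical.choose_spec (H755.exists_dual ha)
  refine MO.conf_of (C := Cch Q A K) hT hJ h ?_ ?_ ?_ ?_
  · intro a v w ha
    rw [e a ha, e a ha]
    exact hs a _ ha (hc a ha).1 (hc a ha).2 v w
  · intro a x v ha
    rw [e a ha]
    exact htra a _ ha (hc a ha).1 (hc a ha).2 x v
  · intro a m n f v ha hf
    rw [e a ha, e a ha]
    exact hcT a _ ha (hc a ha).1 (hc a ha).2 m n f v hf
  · intro a m f v ha hf
    rw [e a ha, e a ha]
    exact hcJ a _ ha (hc a ha).1 (hc a ha).2 m f v hf


/-- **Conformal invariance** from the moments of the null energy density on null hyperplanes. -/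
theorem conf (hT : Q.IsStress T) (hJ : IsVirial Q T J) (h : MCG Q T A K) : N86.ConfInv Q T := by
  have k : ∀ a b, IsNull a → IsNull b → GF.mdot a b = 1 →
      H731.KC Q A a (K a) (H121.Cop Q A K a b) := fun a b ha hb hab =>
    MO.kc_all hT hJ h ha hb hab
  exact MO.conf_fin hT hJ h (fun a b ha hb hab => (k a b ha hb hab).cs)
    (fun a b ha hb hab x v => (k a b ha hb hab).tra x v)
    (fun a b ha hb hab m n f v hf => hcT1 hT h.mom (k a b ha hb hab) m n hf v)
    (fun a b ha hb hab m f v hf => hcJ1 hT hJ h.mom (k a b ha hb hab) m hf v)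

end Vale.Agent.P352.MO

end
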