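import Vale.Agent.P352.MO.P5
import Vale.Agent.P352.NF.G1
import Vale.Agent.P352.NF.G2

/-!
# P352 MO: special conformal generators from the moments of the null energy density
-/

set_option linter.all false

noncomputable section

open MeasureTheory Filter Topology

namespace Vale.Agent.P352.MO

open GF (Ix V Fn Fld bas eta o bar)
open H755 H496 H15 H121 H246 NF
open H846 (TGen)

variable {D : Type*} [NormedAddCommGroup D] [InnerProductSpace ℂ D]
variable {Q : GF.Theory D} {T : Ix → Ix → GF.Fld D} {J : Ix → GF.Fld D}
  {A : (V → V) → D → D} {K : V → D → D}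

/-- **Special conformal generators** from the second moments, if the tensor fields generate. -/
theorem confGen (hT : Q.IsStress T) (hJ : IsVirial Q T J) (h : MCG Q T A K) (hg : TGen Q) :
    ConfGen Q A K where
  toRep := h.toRep
  symm a v w ha := MO.nm_symm hT h ha v w
  cov s L r a b v hs hr hL ha hb hab := MO.nm_cov hT h v hs hr hL ha hb hab
  tra a x v ha := by
    obtain ⟨b, hb, hab⟩ := H755.exists_dual ha
    have k := MO.kc_all hT hJ h ha hb hab
    have h1 : Q.U 1 GF.one x (K a (Q.U 1 GF.one (-x) v)) = K a v + A (XX a x) v -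
      ((2 * GF.mdot a x : ℝ) : ℂ) • Cop Q A K a b v := k.tra x v
    rw [kc_zero hT h.mom hg (fun l d Φ hΦ μ => gl_ten h.toRep hΦ μ) k v, smul_zero,
      sub_zero] at h1
    exact h1

/-- **Conformal invariance** from the moments of order zero, one and two. -/
theorem conf0 (hT : Q.IsStress T) (hJ : IsVirial Q T J) (h : MC Q T A K) (g0 : Gen0 Q T A)
    (g1 : Gen1 Q T A) : N86.ConfInv Q T := MO.conf hT hJ (K := K) ⟨h, g0, g1⟩

/-- **Special conformal generators** from the moments of order zero, one and two. -/
theorem confGen0 (hT : Q.IsStress T) (hJ : IsVirial Q T J) (h : MC Q T A K) (g0 : Gen0 Q T A)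
    (g1 : Gen1 Q T A) (hg : TGen Q) : ConfGen Q A K := MO.confGen hT hJ ⟨h, g0, g1⟩ hg

end Vale.Agent.P352.MO

end
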