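import Vale.Agent.P352.MO.Defs
import Vale.Agent.P352.MO.P0
import Vale.Agent.P352.SL.M1

/-!
# P352 MO: the smeared second moments without the charges
-/

set_option linter.all false

noncomputable section

open MeasureTheory Filter Topology Set SchwartzMap
open scoped ContDiff ComplexConjugate SchwartzMap

namespace Vale.Agent.P352.MO

open GF (Ix V Fn bas eta pd bar sim o IsLor)
open H246 H496 H15 H755 NF SL

variable {D : Type*} [NormedAddCommGroup D] [InnerProductSpace ℂ D] {Q : GF.Theory D}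
  {T : Ix → Ix → GF.Fld D} {A : (V → V) → D → D} {M : V → 𝓢(ℝ, ℂ) → D → D}

lemma m1_tt (h : SecMom Q T A M) {a b : V} {κ : V → ℝ} {ψ : ℝ → ℝ} (hA : Adm a b κ ψ) (y : V)
    (hψ : Tst ψ) (v w : D) :
    Tendsto (fun R => mt T w v (Fs a b κ y ψ R)) atTop (𝓝 (inner ℂ w (M a (tS ψ hψ) v))) :=
  h.mom a b κ y ψ (tS ψ hψ) v w hA fun u => rfl

/-- symmetry -/
lemma m1_adj (hT : Q.IsStress T) (h : SecMom Q T A M) {a : V} (ha : IsNull a) {ψ : ℝ → ℝ}
    (hψ : Tst ψ) (v w : D) :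
    inner ℂ (M a (tS ψ hψ) v) w = inner ℂ v (M a (tS ψ hψ) w) := by
  obtain ⟨b, hb, hab⟩ := exists_dual ha
  obtain ⟨κ, hκ, hκ1⟩ := exists_kp
  have hA : Adm a b κ ψ := ⟨ha, hb, hab, hκ, hκ1, hψ⟩
  have h1 := m1_tt h hA 0 hψ w v
  have h2 := (Complex.continuous_conj.tendsto _).comp (m1_tt h hA 0 hψ v w)
  have h3 : (fun R => mt T v w (Fs a b κ 0 ψ R)) =ᶠ[atTop]
      (fun z => conj z) ∘ fun R => mt T w v (Fs a b κ 0 ψ R) := by
    filter_upwards [eventually_ge_atTop 1] with R hR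
    exact mt_herm hT (fun m n => Fs_tst hA 0 hR m n) v w
  have h4 := tendsto_nhds_unique h1 (h2.congr' h3.symm)
  rw [h4]
  exact (inner_conj_symm _ _).symm

/-- the sources of the first moments -/
def sF1 (a b : V) (κ : V → ℝ) (y : V) (ψ : ℝ → ℝ) (R : ℝ) (x : V) : Ix → Ix → V → ℝ := fun m n z =>
  eta m * a m * (eta n * a n) * GF.mdot x z * ctf a b κ y ψ R z

/-- the sources of the zeroth moments -/
def sF0 (a b : V) (κ : V → ℝ) (y : V) (ψ : ℝ → ℝ) (R : ℝ) : Ix → Ix → V → ℝ := fun m n z =>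
  eta m * a m * (eta n * a n) * ctf a b κ y ψ R z

lemma sF1_tst {a b : V} {κ : V → ℝ} {ψ : ℝ → ℝ} (h : Adm a b κ ψ) (y : V) {R : ℝ} (hR : 1 ≤ R)
    (x : V) (m n : Ix) : Tst (sF1 a b κ y ψ R x m n) :=
  tst_smul (f := fun z => eta m * a m * (eta n * a n) * GF.mdot x z)
    (contDiff_const.mul (H846.contDiff_mdot x)) (ctf_tst h y hR)

lemma sF0_tst {a b : V} {κ : V → ℝ} {ψ : ℝ → ℝ} (h : Adm a b κ ψ) (y : V) {R : ℝ} (hR : 1 ≤ R)
    (m n : Ix) : Tst (sF0 a b κ y ψ R m n) :=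
  tst_smul (f := fun z => eta m * a m * (eta n * a n)) contDiff_const (ctf_tst h y hR)

lemma m1_g0 (g0 : Gen0 Q T A) {a b : V} {κ : V → ℝ} {ψ : ℝ → ℝ} (hA : Adm a b κ ψ) (y : V)
    (v w : D) : Tendsto (fun R => mt T w v (sF0 a b κ y ψ R)) atTop
      (𝓝 ((∫ u, (ψ u : ℂ)) * inner ℂ w (A (fun _ => a) v))) :=
  g0 a b κ y ψ v w hA

lemma m1_g1 (g1 : Gen1 Q T A) {a b : V} {κ : V → ℝ} {ψ : ℝ → ℝ} (hA : Adm a b κ ψ) (y x : V)
    (v w : D) : Tendsto (fun R => mt T w v (sF1 a b κ y ψ R x)) atTop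
      (𝓝 ((∫ u, (ψ u : ℂ)) * inner ℂ w (A (ro a x) v) +
        (∫ u : ℝ, (u : ℂ) * (ψ u : ℂ)) * inner ℂ w (A (fun _ => x) v))) :=
  g1 a b κ y ψ x v w hA

lemma m1_tra (hT : Q.IsStress T) (h : SecMom Q T A M) (g0 : Gen0 Q T A) (g1 : Gen1 Q T A) {a : V}
    (ha : IsNull a) (y : V) {ψ : ℝ → ℝ} (hψ : Tst ψ) (v : D) :
    Q.U 1 GF.one y (M a (tS ψ hψ) (Q.U 1 GF.one (-y) v)) =
      M a (tS (fun u => ψ (u - GF.mdot a y)) (m1_shift hψ _)) v +
      (2 * ∫ u, (ψ (u - GF.mdot a y) : ℂ)) • A (ro a y) v +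
      (2 * ∫ u : ℝ, (u : ℂ) * (ψ (u - GF.mdot a y) : ℂ)) • A (fun _ => y) v -
      ((GF.mdot y y : ℂ) * ∫ u, (ψ (u - GF.mdot a y) : ℂ)) • A (fun _ => a) v := by
  obtain ⟨b, hb, hab⟩ := exists_dual ha
  obtain ⟨κ, hκ, hκ1⟩ := exists_kp
  set φ : ℝ → ℝ := fun u => ψ (u - GF.mdot a y) with hφdef
  have hφ : Tst φ := m1_shift hψ _
  refine ext_inner_left ℂ fun w => ?_
  have hA0 : Adm a b κ ψ := ⟨ha, hb, hab, hκ, hκ1, hψ⟩
  have hA : Adm a b κ φ := ⟨ha, hb, hab, hκ, hκ1, hφ⟩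
  have h1 := m1_tt h hA0 0 hψ (Q.U 1 GF.one (-y) v) (Q.U 1 GF.one (-y) w)
  have h2 := m1_tt h hA y hφ v w
  have h3 := m1_g1 g1 hA y y v w
  have h5 := m1_g0 g0 hA y v w
  have h6 := (h2.add (h3.const_mul 2)).add (h5.const_mul (-(GF.mdot y y : ℂ)))
  have h7 : (fun R => mt T (Q.U 1 GF.one (-y) w) (Q.U 1 GF.one (-y) v) (Fs a b κ 0 ψ R))
      =ᶠ[atTop] fun R => mt T w v (Fs a b κ y φ R) + 2 * mt T w v (sF1 a b κ y φ R y) +
        -(GF.mdot y y : ℂ) * mt T w v (sF0 a b κ y φ R) := by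
    filter_upwards [eventually_ge_atTop 1] with R hR
    have t1 : ∀ m n, Tst (Fs a b κ y φ R m n) := fun m n => Fs_tst hA y hR m n
    have t2 : ∀ m n, Tst (sF1 a b κ y φ R y m n) := fun m n => sF1_tst hA y hR y m n
    have t4 : ∀ m n, Tst (sF0 a b κ y φ R m n) := fun m n => sF0_tst hA y hR m n
    have s1 : ∀ m n, Tst fun x => Fs a b κ y φ R m n x + 2 * sF1 a b κ y φ R y m n x :=
      fun m n => ⟨(t1 m n).1.add (contDiff_const.mul (t2 m n).1), (t1 m n).2.add ((t2 m n).2.mul_left)⟩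
    rw [mt_trans hT (fun m n => Fs_tst hA0 0 hR m n)]
    have e1 := mt_add hT t1 t2 2 w v
    have e3 := mt_add hT (F := fun m n x => Fs a b κ y φ R m n x + 2 * sF1 a b κ y φ R y m n x)
      s1 t4 (-GF.mdot y y) w v
    rw [e1] at e3
    push_cast at e3
    rw [← e3]
    congr 1
    funext m n x
    have c1 : ctf a b κ 0 ψ R (x + -y) = ctf a b κ y φ R x := by
      unfold ctf
      rw [sub_zero, ← sub_eq_add_neg, md_sub]
    have c3 : -GF.mdot (x + -y) (x + -y) = -GF.mdot x x + 2 * GF.mdot y x - GF.mdot y y := by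
      simp only [GF.mdot, Fin.sum_univ_four, Pi.add_apply, Pi.neg_apply]
      ring
    simp only [Fs, sF1, sF0]
    rw [c1, c3]
    ring
  have h8 := tendsto_nhds_unique h1 (h6.congr' h7.symm)
  have e : inner ℂ w (Q.U 1 GF.one y (M a (tS ψ hψ) (Q.U 1 GF.one (-y) v))) =
      inner ℂ (Q.U 1 GF.one (-y) w) (M a (tS ψ hψ) (Q.U 1 GF.one (-y) v)) := by
    rw [← Q.U_inner 1 GF.one (-y) w _ one_pos isLor_one, Uadd1, neg_add_cancel, Uone]
  rw [e, h8, inner_sub_right, inner_add_right, inner_add_right, inner_smul_right,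
    inner_smul_right, inner_smul_right]
  ring

/-- covariance -/
lemma m1_cov (hT : Q.IsStress T) (h : SecMom Q T A M) {s : ℝ} {L : Ix → V} {a b : V}
    (v : D) (hs : 0 < s) (hL : GF.IsLor L) (ha : IsNull a) (hb : IsNull b)
    (hab : sim 1 L 0 a = s • b) {ψ : ℝ → ℝ} (hψ : Tst ψ) :
    Q.U s L 0 (M a (tS ψ hψ) v) = M b (tS ψ hψ) (Q.U s L 0 v) := by
  obtain ⟨b', hb', hbb'⟩ := exists_dual hb
  obtain ⟨κ', hκ', hκ1'⟩ := exists_kp
  obtain ⟨a', ha'def⟩ : ∃ a', a' = s⁻¹ • sim 1 (linv L) 0 b' := ⟨_, rfl⟩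
  have hLa' : sim 1 L 0 a' = s⁻¹ • b' := by rw [ha'def, simL_smul, sim_linv hL]
  have haa' : GF.mdot a a' = 1 := by
    rw [← md_LL hL, hab, hLa', md_smul, md_smul_l, hbb']
    field_simp
  have ha' : IsNull a' := by
    have h0 : GF.mdot a' a' = 0 := by
      rw [← md_LL hL, hLa', md_smul, md_smul_l, hb'.1]; simp
    exact ⟨h0, null_pos ha h0 (by rw [haa']; exact one_pos)⟩
  set κ : V → ℝ := fun x => κ' (sim s L 0 x) with hκdef
  have hκ : Tst κ := tst_sim hκ' hs hL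
  have hκ1 : ∀ᶠ x in 𝓝 (0 : V), κ x = 1 := by
    have hc : Tendsto (fun x : V => sim s L 0 x) (𝓝 0) (𝓝 0) := by
      have h1 : Continuous fun x : V => simE s L hs hL x :=
        (simE s L hs hL).toContinuousLinearEquiv.continuous
      have h2 := h1.tendsto 0
      have e : sim s L 0 (0 : V) = 0 := by funext n; simp [sim]
      simpa [H755.simE_apply, e] using h2
    exact hc.eventually hκ1'
  have hsim : ∀ x, sim s L 0 x = s • sim 1 L 0 x := fun x => sim_s s L x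
  have hbx : ∀ x, GF.mdot b (sim s L 0 x) = GF.mdot a x := by
    intro x
    have e : b = s⁻¹ • sim 1 L 0 a := by rw [hab, smul_smul, inv_mul_cancel₀ hs.ne', one_smul]
    rw [e, md_smul_l, hsim, md_smul, md_LL hL]
    field_simp
  have hb'x : ∀ x, GF.mdot b' (sim s L 0 x) = s * s * GF.mdot a' x := by
    intro x
    have e : b' = s • sim 1 L 0 a' := by rw [hLa', smul_smul, mul_inv_cancel₀ hs.ne', one_smul]
    rw [e, md_smul_l, hsim, md_smul, md_LL hL]
    ring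
  have hcut : ∀ R x, cut b b' κ' R (sim s L 0 x) = cut a a' κ R x := by
    intro R x
    unfold cut
    rw [hκdef]
    simp only
    congr 1
    rw [hbx, hb'x, hsim, hsim, simL_add, simL_smul, simL_smul, simL_sub, simL_sub, simL_smul,
      simL_smul L (GF.mdot a' x), hab, hLa']
    funext n
    simp only [Pi.add_apply, Pi.smul_apply, Pi.sub_apply, smul_eq_mul]
    field_simp
  have hsq : ∀ x, GF.mdot (sim s L 0 x) (sim s L 0 x) = s ^ 2 * GF.mdot x x := by
    intro x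
    rw [hsim, md_smul, md_smul_l, md_LL hL]
    ring
  have main : ∀ w, inner ℂ (Q.U s L 0 w) (M b (tS ψ hψ) (Q.U s L 0 v)) =
      inner ℂ w (M a (tS ψ hψ) v) := by
    intro w
    have hAb : Adm b b' κ' ψ := ⟨hb, hb', hbb', hκ', hκ1', hψ⟩
    have hAa : Adm a a' κ ψ := ⟨ha, ha', haa', hκ, hκ1, hψ⟩
    have h1 := m1_tt h hAb 0 hψ (Q.U s L 0 v) (Q.U s L 0 w)
    have h2 := m1_tt h hAa 0 hψ v w
    have h3 : (fun R => mt T (Q.U s L 0 w) (Q.U s L 0 v) (Fs b b' κ' 0 ψ R)) =ᶠ[atTop]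
        fun R => mt T w v (Fs a a' κ 0 ψ R) := by
      filter_upwards [eventually_ge_atTop 1] with R hR
      have hg : Tst fun x => -GF.mdot x x * ctf b b' κ' 0 ψ R x :=
        tst_smul m1_sq (ctf_tst hAb 0 hR)
      have e1 : Fs b b' κ' 0 ψ R = fun m n x => (eta m * b m) * (eta n * b n) *
          (-GF.mdot x x * ctf b b' κ' 0 ψ R x) := by
        funext m n x; unfold Fs; ring
      rw [e1, mt_cov hT hg (fun m => eta m * b m) hs hL w v (tst_sim hg hs hL)]
      congr 1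
      funext k l x
      have e2 : ∀ k, ∑ m, L k m * (eta m * b m) = s⁻¹ * (eta k * a k) := by
        intro k
        have e : b = s⁻¹ • sim 1 L 0 a := by
          rw [hab, smul_smul, inv_mul_cancel₀ hs.ne', one_smul]
        have h5 := md_L hL k a
        rw [← h5, ← md_smul, ← e]
        unfold GF.mdot
        exact Finset.sum_congr rfl fun m _ => by ring
      have e3 : ctf b b' κ' 0 ψ R (sim s L 0 x) = ctf a a' κ 0 ψ R x := by
        unfold ctf
        rw [sub_zero, sub_zero, hcut, hbx]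
      rw [e2, e2, hsq, e3]
      unfold Fs
      field_simp
    exact tendsto_nhds_unique h1 (h2.congr' h3.symm)
  refine ext_inner_left ℂ fun z => ?_
  have hz := U_linv' h.toRep hs hL z
  rw [← hz, main, Q.U_inner s L 0 _ _ hs hL]

/-- scaling of the null vector -/
lemma m1_hom (hT : Q.IsStress T) (h : SecMom Q T A M) {a : V} (ha : IsNull a) {r : ℝ}
    (hr : 0 < r) {ψ : ℝ → ℝ} (hψ : Tst ψ) (v : D) :
    M (r • a) (tS ψ hψ) v = ((r ^ 2 : ℝ) : ℂ) • M a (tS (fun u => ψ (r * u)) (m1_dil hψ hr)) v := by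
  obtain ⟨b, hb, hab⟩ := exists_dual ha
  obtain ⟨κ, hκ, hκ1⟩ := exists_kp
  have hra : IsNull (r • a) := ⟨by rw [md_smul, md_smul_l, ha.1]; simp, mul_pos hr ha.2⟩
  have hrb : IsNull (r⁻¹ • b) :=
    ⟨by rw [md_smul, md_smul_l, hb.1]; simp, mul_pos (inv_pos.2 hr) hb.2⟩
  have hrab : GF.mdot (r • a) (r⁻¹ • b) = 1 := by
    rw [md_smul, md_smul_l, hab]; field_simp
  have hA : Adm (r • a) (r⁻¹ • b) κ ψ := ⟨hra, hrb, hrab, hκ, hκ1, hψ⟩
  have hB : Adm a b κ fun u => ψ (r * u) := ⟨ha, hb, hab, hκ, hκ1, m1_dil hψ hr⟩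
  refine ext_inner_left ℂ fun w => ?_
  have h1 := m1_tt h hA 0 hψ v w
  have h2 := (m1_tt h hB 0 (m1_dil hψ hr) v w).const_mul ((r ^ 2 : ℝ) : ℂ)
  have h3 : (fun R => mt T w v (Fs (r • a) (r⁻¹ • b) κ 0 ψ R)) =ᶠ[atTop]
      fun R => ((r ^ 2 : ℝ) : ℂ) * mt T w v (Fs a b κ 0 (fun u => ψ (r * u)) R) := by
    filter_upwards [eventually_ge_atTop 1] with R hR
    rw [← mt_smul hT (fun m n => Fs_tst hB 0 hR m n)]
    congr 1
    funext m n x
    have e3 : ctf (r • a) (r⁻¹ • b) κ 0 ψ R x = ctf a b κ 0 (fun u => ψ (r * u)) R x := by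
      unfold ctf
      rw [sub_zero, md_smul_l]
      congr 1
      unfold cut
      congr 1
      rw [md_smul_l, md_smul_l]
      funext k
      simp only [Pi.add_apply, Pi.smul_apply, Pi.sub_apply, smul_eq_mul]
      field_simp
    simp only [Fs]
    rw [e3]
    simp only [Pi.smul_apply, smul_eq_mul]
    ring
  rw [inner_smul_right]
  exact tendsto_nhds_unique h1 (h2.congr' h3.symm)

/-- the translations of the second moments -/
theorem m_tra (hT : Q.IsStress T) (h : SecMom Q T A M) (g0 : Gen0 Q T A) (g1 : Gen1 Q T A) {a : V} (ha : IsNull a) (y : V)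
    {f g : 𝓢(ℝ, ℂ)} (hf : HasCompactSupport f) (hg : ∀ u, g u = f (u - GF.mdot a y)) (v : D) :
    Q.U 1 GF.one y (M a f (Q.U 1 GF.one (-y) v)) = M a g v +
      (2 * ∫ u, g u) • A (fun z => GF.mdot y z • a - GF.mdot a z • y) v +
      (2 * ∫ u : ℝ, (u : ℂ) * g u) • A (fun _ => y) v -
      ((GF.mdot y y : ℂ) * ∫ u, g u) • A (fun _ => a) v := by
  obtain ⟨p, q, hp, hq, hpq⟩ := m1_parts hf
  have hg' : g = tS (fun u => p (u - GF.mdot a y)) (m1_shift hp _) +
      Complex.I • tS (fun u => q (u - GF.mdot a y)) (m1_shift hq _) := by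
    ext u
    rw [hg, hpq]
    rfl
  have hgu : ∀ u, g u = (p (u - GF.mdot a y) : ℂ) + Complex.I * (q (u - GF.mdot a y) : ℂ) := by
    intro u
    rw [hg']
    rfl
  have i0 : ∫ u, g u = (∫ u, (p (u - GF.mdot a y) : ℂ)) +
      Complex.I * ∫ u, (q (u - GF.mdot a y) : ℂ) := by
    have := m1_int (m1_shift hp (GF.mdot a y)) (m1_shift hq (GF.mdot a y)) (F := fun _ => 1)
      continuous_const
    simp only [one_mul] at this
    rw [← this]
    exact integral_congr_ae (Eventually.of_forall hgu)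
  have i1 : ∫ u : ℝ, (u : ℂ) * g u = (∫ u : ℝ, (u : ℂ) * (p (u - GF.mdot a y) : ℂ)) +
      Complex.I * ∫ u : ℝ, (u : ℂ) * (q (u - GF.mdot a y) : ℂ) := by
    have := m1_int (m1_shift hp (GF.mdot a y)) (m1_shift hq (GF.mdot a y))
      (F := fun u : ℝ => (u : ℂ)) Complex.continuous_ofReal
    rw [← this]
    refine integral_congr_ae (Eventually.of_forall fun u => ?_)
    simp only
    rw [hgu]
  have h1 := m1_tra hT h g0 g1 ha y hp v
  have h2 := m1_tra hT h g0 g1 ha y hq v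
  unfold ro at h1 h2
  rw [i0, i1, hg', h.lin a _ _ Complex.I v ha, hpq, h.lin a _ _ Complex.I _ ha,
    U_add one_pos isLor_one, U_smul one_pos isLor_one, h1, h2]
  module

lemma m1_adjC (hT : Q.IsStress T) (h : SecMom Q T A M) {a : V} (ha : IsNull a)
    (f : 𝓢(ℝ, ℂ)) (v w : D) : inner ℂ (M a f v) w = inner ℂ v (M a (cjL f) w) := by
  refine m1_ext (F := fun f => inner ℂ (M a f v) w) (G := fun f => inner ℂ v (M a (cjL f) w))
    ?_ ((h.cont a w v ha).comp cjL.continuous) (fun f hf => ?_) f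
  · have h1 := Complex.continuous_conj.comp (h.cont a v w ha)
    have e : (fun f => inner ℂ (M a f v) w) = (fun z => conj z) ∘ fun f => inner ℂ w (M a f v) := by
      funext f
      exact (inner_conj_symm _ _).symm
    rw [e]
    exact h1
  · obtain ⟨p, q, hp, hq, hpq⟩ := m1_parts hf
    have e : cjL f = tS p hp + (-Complex.I) • tS q hq := by
      ext u
      rw [cjL_apply, hpq]
      simp only [SchwartzMap.add_apply, SchwartzMap.smul_apply, tS_apply, smul_eq_mul, map_add,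
        map_mul, Complex.conj_ofReal, Complex.conj_I]
    rw [e, hpq, h.lin a _ _ _ v ha, h.lin a _ _ _ w ha, inner_add_left, inner_smul_left,
      inner_add_right, inner_smul_right, m1_adj hT h ha hp, m1_adj hT h ha hq, Complex.conj_I]

lemma m1_covC (hT : Q.IsStress T) (h : SecMom Q T A M) {s : ℝ} {L : Ix → V} {a b : V}
    (v : D) (hs : 0 < s) (hL : IsLor L) (ha : IsNull a) (hb : IsNull b)
    (hab : sim 1 L 0 a = s • b) {f : 𝓢(ℝ, ℂ)} (hf : HasCompactSupport f) :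
    Q.U s L 0 (M a f v) = M b f (Q.U s L 0 v) := by
  obtain ⟨p, q, hp, hq, hpq⟩ := m1_parts hf
  rw [hpq, h.lin a _ _ _ v ha, h.lin b _ _ _ _ hb, U_add hs hL, U_smul hs hL,
    m1_cov hT h v hs hL ha hb hab, m1_cov hT h v hs hL ha hb hab]

lemma m1_homC (hT : Q.IsStress T) (h : SecMom Q T A M) {a : V} (ha : IsNull a) {r : ℝ}
    (hr : 0 < r) {f : 𝓢(ℝ, ℂ)} (hf : HasCompactSupport f) (v : D) :
    M (r • a) f v = ((r ^ 2 : ℝ) : ℂ) • M a (dlL r hr.ne' f) v := by
  obtain ⟨p, q, hp, hq, hpq⟩ := m1_parts hf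
  have hra : IsNull (r • a) := ⟨by rw [md_smul, md_smul_l, ha.1]; simp, mul_pos hr ha.2⟩
  have e : dlL r hr.ne' f = tS (fun u => p (r * u)) (m1_dil hp hr) +
      Complex.I • tS (fun u => q (r * u)) (m1_dil hq hr) := by
    ext u
    rw [dlL_apply, hpq]
    rfl
  rw [e, hpq, h.lin _ _ _ _ v hra, h.lin a _ _ _ v ha, m1_hom hT h ha hr, m1_hom hT h ha hr]
  module

/-- translations of the second derivatives -/
lemma m1_traN (hT : Q.IsStress T) (h : SecMom Q T A M) (g0 : Gen0 Q T A) (g1 : Gen1 Q T A) {a : V} (ha : IsNull a) (y : V)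
    (f : 𝓢(ℝ, ℂ)) (v : D) :
    Q.U 1 GF.one y (M a (dd f) v) = M a (dd (compSubConstCLM ℂ (GF.mdot a y) f))
      (Q.U 1 GF.one y v) := by
  refine ext_inner_left ℂ fun w => ?_
  refine m1_ext (F := fun f => inner ℂ w (Q.U 1 GF.one y (M a (dd f) v)))
    (G := fun f => inner ℂ w (M a (dd (compSubConstCLM ℂ (GF.mdot a y) f)) (Q.U 1 GF.one y v)))
    ?_ ((h.cont a _ w ha).comp (ddL.continuous.comp
      (compSubConstCLM ℂ (GF.mdot a y)).continuous)) (fun f hf => ?_) f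
  · have e : (fun f => inner ℂ w (Q.U 1 GF.one y (M a (dd f) v))) =
        fun f => inner ℂ (Q.U 1 GF.one (-y) w) (M a (ddL f) v) := by
      funext f
      rw [← Q.U_inner 1 GF.one (-y) w _ one_pos isLor_one, Uadd1, neg_add_cancel, Uone]
      rfl
    rw [e]
    exact (h.cont a v _ ha).comp ddL.continuous
  · have h1 := m_tra hT h g0 g1 ha y (dd_cc hf) (g := dd (compSubConstCLM ℂ (GF.mdot a y) f))
      (fun u => by rw [SL.dd_tr]; rfl) (Q.U 1 GF.one y v)
    obtain ⟨i0, i1⟩ := m1_dd_int (m1_trc f (GF.mdot a y) hf)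
    rw [i0, i1, Uadd1, neg_add_cancel, Uone] at h1
    rw [h1]
    simp

/-- **the properties of `N a f = M a f''`** -/
theorem sn_of (hT : Q.IsStress T) (h : SecMom Q T A M) (g0 : Gen0 Q T A) (g1 : Gen1 Q T A) : SN Q fun a f => M a (dd f) where
  lin a f g c v ha := by
    rw [dd_lin]
    exact h.lin a _ _ c v ha
  cont a v w ha := (h.cont a v w ha).comp ddL.continuous
  adj a f g v w ha hg := by
    have e : g = cjL f := by
      ext u
      exact hg u
    rw [e, dd_cj]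
    exact m1_adjC hT h ha (dd f) v w
  cov s L y a b f g v hs hL ha hab hg := by
    have hb : IsNull b := m1_null hs hL ha hab
    have e : g = compSubConstCLM ℂ (GF.mdot b y) f := m1_tr f _ hg
    have h1 : ∀ z : D, Q.U s L y z = Q.U 1 GF.one y (Q.U s L 0 z) := by
      intro z
      rw [h.mul 1 GF.one y s L 0 z one_pos hs isLor_one hL, one_mul]
      congr 1
      · funext m n
        simp [sim, GF.one, bas]
      · funext n
        simp [sim]
    have h2 : Q.U s L 0 (M a (dd f) v) = M b (dd f) (Q.U s L 0 v) := by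
      refine ext_inner_left ℂ fun w => ?_
      refine m1_ext (F := fun f => inner ℂ w (Q.U s L 0 (M a (dd f) v)))
        (G := fun f => inner ℂ w (M b (dd f) (Q.U s L 0 v)))
        ?_ ((h.cont b _ w hb).comp ddL.continuous) (fun f hf => ?_) f
      · have e : (fun f => inner ℂ w (Q.U s L 0 (M a (dd f) v))) =
            fun f => inner ℂ (Q.U s⁻¹ (linv L) 0 w) (M a (ddL f) v) := by
          funext f
          conv_lhs => rw [← U_linv' h.toRep hs hL w, Q.U_inner s L 0 _ _ hs hL]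
          rfl
        rw [e]
        exact (h.cont a v _ ha).comp ddL.continuous
      · rw [m1_covC hT h v hs hL ha hb hab (dd_cc hf)]
    rw [h1, h2, m1_traN hT h g0 g1 hb y f, e, ← h1]
  hom r a f g v hr ha hg := by
    have e : g = dlL r hr.ne' f := by
      ext u
      rw [hg, dlL_apply]
    rw [e]
    refine ext_inner_left ℂ fun w => ?_
    have hra : IsNull (r • a) := ⟨by rw [md_smul, md_smul_l, ha.1]; simp, mul_pos hr ha.2⟩
    refine m1_ext (F := fun f => inner ℂ w (M (r • a) (dd f) v))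
      (G := fun f => inner ℂ w (M a (dd (dlL r hr.ne' f)) v))
      ((h.cont _ _ w hra).comp ddL.continuous) ((h.cont a _ w ha).comp
        (ddL.continuous.comp (dlL r hr.ne').continuous)) (fun f hf => ?_) f
    rw [m1_homC hT h ha hr (dd_cc hf), dd_dl]
    have h3 : M a (((r ^ 2 : ℝ) : ℂ) • dlL r hr.ne' (dd f)) v =
        ((r ^ 2 : ℝ) : ℂ) • M a (dlL r hr.ne' (dd f)) v := by
      have h4 := h.lin a 0 (dlL r hr.ne' (dd f)) ((r ^ 2 : ℝ) : ℂ) v ha
      have h5 := h.lin a 0 0 1 v ha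
      have h6 : M a 0 v = 0 := by simpa using h5
      rw [zero_add, h6, zero_add] at h4
      exact h4
    rw [h3]


end Vale.Agent.P352.MO

end
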