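import Vale.Agent.P352.MO.S1
import Vale.Agent.P352.SL.M5
import Vale.Agent.P352.SL.M6

/-!
# P352 MO: the smeared second moments of second derivatives vanish
-/

set_option linter.all false

noncomputable section

open MeasureTheory Filter Topology SchwartzMap Complex
open scoped SchwartzMap ComplexConjugate ContDiff FourierTransform

namespace Vale.Agent.P352.MO

open GF (Ix V Fn Fld Theory Sch IsLor bas o sim pd tr ev bar)
open H246 H496 H755 H15 H846 H246R H746 N86 NC NF SL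
open UniformSpace (Completion)

variable {D : Type*} [NormedAddCommGroup D] [InnerProductSpace ℂ D]
variable {Q : GF.Theory D} {T : Ix → Ix → GF.Fld D} {J : Ix → GF.Fld D}
variable {A : (V → V) → D → D} {N M : V → 𝓢(ℝ, ℂ) → D → D}

/-! ### Operators that commute with the stress tensor below a plane -/

section

variable {B : D → D} (hsym : ∀ v w, inner ℂ (B v) w = inner ℂ v (B w))
include hsym

lemma com_L (g1 : Gen1 Q T A) {a b : V} (ha : IsNull a) (hb : IsNull b)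
    (hab : GF.mdot a b = 1) {M : ℝ} (hs : ComT T a M B) {φ : ℝ → ℝ} (hφ : Tst φ)
    (hφs : ∀ u ∈ tsupport φ, u < M) (x : V) (v : D) :
    B ((∫ u, (φ u : ℂ)) • A (ro a x) v + (∫ u : ℝ, (u : ℂ) * (φ u : ℂ)) • A (fun _ => x) v) =
      (∫ u, (φ u : ℂ)) • A (ro a x) (B v) +
        (∫ u : ℝ, (u : ℂ) * (φ u : ℂ)) • A (fun _ => x) (B v) := by
  obtain ⟨κ, hκ, hκ1⟩ := exists_kp
  have hA : Adm a b κ φ := ⟨ha, hb, hab, hκ, hκ1, hφ⟩
  have hsp : ∀ R m n, ∀ y ∈ tsupport (sF1 a b κ 0 φ R x m n), GF.mdot a y < M := by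
    intro R m n y hy
    have h1 : IsClosed {x : V | GF.mdot a x ∈ tsupport φ} :=
      (isClosed_tsupport φ).preimage (H846.contDiff_mdot a).continuous
    have h2 : tsupport (sF1 a b κ 0 φ R x m n) ⊆ {x : V | GF.mdot a x ∈ tsupport φ} := by
      refine closure_minimal (fun z hz => ?_) h1
      refine subset_closure fun h0 => hz ?_
      show GF.eta m * a m * (GF.eta n * a n) * GF.mdot x z *
        (cut a b κ R (z - 0) * φ (GF.mdot a z)) = 0
      rw [h0]
      ring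
    exact hφs _ (h2 hy)
  have lim : ∀ v z : D, Tendsto (fun R => inner ℂ z (sm T (sF1 a b κ 0 φ R x) v)) atTop
      (𝓝 (inner ℂ z ((∫ u, (φ u : ℂ)) • A (ro a x) v +
        (∫ u : ℝ, (u : ℂ) * (φ u : ℂ)) • A (fun _ => x) v))) := by
    intro v z
    rw [inner_add_right, inner_smul_right, inner_smul_right]
    exact m1_g1 g1 hA 0 x v z
  refine ext_inner_left ℂ fun z => ?_
  have l1 := lim v (B z)
  have l2 := lim (B v) z
  rw [← hsym]
  refine tendsto_nhds_unique l1 (l2.congr' ?_)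
  filter_upwards [eventually_ge_atTop (1 : ℝ)] with R hR
  rw [hsym, com_sm hsym hs (fun m n => sF1_tst hA 0 hR x m n) (hsp R)]

lemma exists_below {ρ : ℝ → ℝ} (hρ : Tst ρ) (M : ℝ) : ∃ c : ℝ, ∀ u ∈ tsupport (fun u => ρ (u - c)),
    u < M := by
  obtain ⟨K, hK⟩ : ∃ K, ∀ u ∈ tsupport ρ, u ≤ K := by
    obtain ⟨K, hK⟩ := IsCompact.bddAbove hρ.2
    exact ⟨K, fun u hu => hK hu⟩
  refine ⟨M - 1 - K, fun u hu => ?_⟩
  have h1 : IsClosed {u : ℝ | u - (M - 1 - K) ∈ tsupport ρ} :=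
    (isClosed_tsupport ρ).preimage (by fun_prop)
  have h2 : tsupport (fun u => ρ (u - (M - 1 - K))) ⊆ {u : ℝ | u - (M - 1 - K) ∈ tsupport ρ} :=
    closure_minimal (fun z hz => subset_closure hz) h1
  have h3 := hK _ (h2 hu)
  linarith

lemma com_const (g1 : Gen1 Q T A) {a b : V} (ha : IsNull a) (hb : IsNull b)
    (hab : GF.mdot a b = 1) {M : ℝ} (hs : ComT T a M B) (x : V) (v : D) :
    B (A (fun _ => x) v) = A (fun _ => x) (B v) := by
  obtain ⟨ρ₁, h1, h10, h11⟩ := a_psi1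
  obtain ⟨c, hc⟩ := exists_below hsym h1 M
  have h := com_L hsym g1 ha hb hab hs (m1_shift h1 c) hc x v
  rw [m6_shift0, m6_shift1 h1, h10, h11] at h
  simpa using h

lemma com_ro (g1 : Gen1 Q T A) {a b : V} (ha : IsNull a) (hb : IsNull b)
    (hab : GF.mdot a b = 1) {M : ℝ} (hs : ComT T a M B) (x : V) (v : D) :
    B (A (ro a x) v) = A (ro a x) (B v) := by
  obtain ⟨ρ₀, h0, h00, h01⟩ := a_psi0
  obtain ⟨c, hc⟩ := exists_below hsym h0 M
  have h := com_L hsym g1 ha hb hab hs (m1_shift h0 c) hc x v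
  rw [m6_shift0, m6_shift1 h0, h00, h01, sym_add hsym, sym_smul hsym, sym_smul hsym,
    com_const hsym g1 ha hb hab hs x v] at h
  simpa using h

end

lemma m_split (hT : Q.IsStress T) (h : SecMom Q T A M) (g0 : Gen0 Q T A) (g1 : Gen1 Q T A) {a : V} (ha : IsNull a)
    (f1 f2 : 𝓢(ℝ, ℂ)) (v : D) :
    M a (dd (f1 + I • f2)) v = M a (dd f1) v + I • M a (dd f2) v :=
  (sn_of hT h g0 g1).lin a f1 f2 I v ha

section

variable (hT : Q.IsStress T) (hJ : IsVirial Q T J) (h : SecMom Q T A M) (g0 : Gen0 Q T A) (g1 : Gen1 Q T A) {a : V}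
  (ha : IsNull a)
include hT h g0 g1 ha

lemma m_symm {f : 𝓢(ℝ, ℂ)} (hr : ∀ u, conj (f u) = f u) (v w : D) :
    inner ℂ (M a (dd f) v) w = inner ℂ v (M a (dd f) w) :=
  (sn_of hT h g0 g1).adj a f f v w ha fun u => (hr u).symm

lemma m_lim {f : 𝓢(ℝ, ℂ)} (hr : ∀ u, conj (f u) = f u) (hf : HasCompactSupport f)
    {b : V} {κ : V → ℝ} (hAd : Adm a b κ (drp f)) (v z : D) : Tendsto (fun R => inner ℂ z
      (tq T a (fun x => -GF.mdot x x * ctf a b κ 0 (drp f) R x) v)) atTop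
      (𝓝 (inner ℂ z (M a (dd f) v))) := by
  have h1 := h.mom a b κ 0 (drp f) (dd f) v z hAd (dd_real hr)
  refine h1.congr fun R => ?_
  unfold tq
  congr 2
  funext m n x
  ring

include hJ

/-- real functions -/
lemma m_vac0 {f : 𝓢(ℝ, ℂ)} (hr : ∀ u, conj (f u) = f u) (hf : HasCompactSupport f) :
    M a (dd f) Q.vac = 0 := by
  obtain ⟨b, hb, hab⟩ := H755.exists_dual ha
  obtain ⟨κ, hκ, hκ1⟩ := exists_kp
  have hAd : Adm a b κ (drp f) := ⟨ha, hb, hab, hκ, hκ1, drp_tst hf⟩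
  have h1 := m_lim hT h g0 g1 ha hr hf hAd Q.vac (M a (dd f) Q.vac)
  have hz : ∀ R, 1 ≤ R → inner ℂ (M a (dd f) Q.vac)
      (tq T a (fun x => -GF.mdot x x * ctf a b κ 0 (drp f) R x) Q.vac) = 0 := by
    intro R hR
    have hp : Tst fun x => -GF.mdot x x * ctf a b κ 0 (drp f) R x :=
      H755.tst_smul (by unfold GF.mdot; fun_prop) (H755.ctf_tst hAd 0 hR)
    have hF : ∀ m n, GF.IsTest fun x => ((GF.eta m * a m * (GF.eta n * a n) *
        (-GF.mdot x x * ctf a b κ 0 (drp f) R x) : ℝ) : ℂ) := fun m n => (tst_c hp _).isTest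
    choose g hg using fun m n => exists_fl (hF m n)
    have e : tq T a (fun x => -GF.mdot x x * ctf a b κ 0 (drp f) R x) Q.vac = tvec Q T g := by
      unfold tq sm tvec
      simp only [hg]
    rw [e, m_symm hT h g0 g1 ha hr, nT hT hJ h.toRep (sn_of hT h g0 g1) ha f g, inner_zero_right]
  have h2 : Tendsto (fun R => inner ℂ (M a (dd f) Q.vac)
      (tq T a (fun x => -GF.mdot x x * ctf a b κ 0 (drp f) R x) Q.vac)) atTop (𝓝 0) := by
    refine (tendsto_const_nhds (x := (0 : ℂ))).congr' ?_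
    filter_upwards [eventually_ge_atTop (1:ℝ)] with R hR
    exact (hz R hR).symm
  exact inner_self_eq_zero.1 (tendsto_nhds_unique h1 h2)

/-- real functions -/
lemma m_loc0 {f : 𝓢(ℝ, ℂ)} (hr : ∀ u, conj (f u) = f u) (hf : HasCompactSupport f) (m n : Ix)
    {F : Fn} (hF : GF.IsTest F) (hc : HasCompactSupport F)
    (hs : ∀ u ∈ tsupport f, ∀ y ∈ tsupport F, GF.mdot a y < u) (v : D) :
    M a (dd f) (T m n F v) = T m n F (M a (dd f) v) := by
  obtain ⟨b, hb, hab⟩ := H755.exists_dual ha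
  obtain ⟨κ, hκ, hκ1⟩ := exists_kp
  have hAd : Adm a b κ (drp f) := ⟨ha, hb, hab, hκ, hκ1, drp_tst hf⟩
  have hz : ∀ {G : Fn}, GF.IsTest G → M a (dd f) (T m n G Q.vac) = 0 := by
    intro G hG
    obtain ⟨F', rfl⟩ := exists_fl hG
    rw [← e13_single hT m n F']
    exact nT hT hJ h.toRep (sn_of hT h g0 g1) ha f _
  exact loc_S hT ha hb hab (hT.bose m n) (fun f v w hf => hT.herm m n f v w hf) hF hc hAd
    (p0 := fun x => -GF.mdot x x) (by unfold GF.mdot; fun_prop) (m_lim hT h g0 g1 ha hr hf hAd)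
    (fun u hu y hy => hs u (drp_supp f hu) y hy) (m_symm hT h g0 g1 ha hr) (m_vac0 hT hJ h g0 g1 ha hr hf)
    (hz hF) (hz (isTest_bar hF)) v

/-- real functions -/
lemma m_comT {f : 𝓢(ℝ, ℂ)} (hr : ∀ u, conj (f u) = f u) (hf : HasCompactSupport f) :
    ∃ c : ℝ, ComT T a c (M a (dd f)) := by
  obtain ⟨c, hc⟩ : ∃ c, ∀ u ∈ tsupport f, c ≤ u := by
    obtain ⟨c, hc⟩ := IsCompact.bddBelow hf
    exact ⟨c, fun u hu => hc hu⟩
  refine ⟨c, ?_⟩
  intro m n F hF hFc hs v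
  exact m_loc0 hT hJ h g0 g1 ha hr hf m n hF hFc (fun u hu y hy => (hs y hy).trans_le (hc u hu)) v

/-- real functions -/
lemma m_Ac {f : 𝓢(ℝ, ℂ)} (hr : ∀ u, conj (f u) = f u) (hf : HasCompactSupport f) (x : V) (v : D) :
    M a (dd f) (A (fun _ => x) v) = A (fun _ => x) (M a (dd f) v) := by
  obtain ⟨b, hb, hab⟩ := H755.exists_dual ha
  obtain ⟨c, hc⟩ := m_comT hT hJ h g0 g1 ha hr hf
  exact com_const (m_symm hT h g0 g1 ha hr) g1 ha hb hab hc x v

/-- real functions -/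
lemma m_Ar {f : 𝓢(ℝ, ℂ)} (hr : ∀ u, conj (f u) = f u) (hf : HasCompactSupport f) (x : V) (v : D) :
    M a (dd f) (A (ro a x) v) = A (ro a x) (M a (dd f) v) := by
  obtain ⟨b, hb, hab⟩ := H755.exists_dual ha
  obtain ⟨c, hc⟩ := m_comT hT hJ h g0 g1 ha hr hf
  exact com_ro (m_symm hT h g0 g1 ha hr) g1 ha hb hab hc x v

/-- real functions -/
lemma m_AN {f : 𝓢(ℝ, ℂ)} (hr : ∀ u, conj (f u) = f u) (hf : HasCompactSupport f) (b : V) (v : D) :
    M a (dd f) (A (Nf a b) v) = A (Nf a b) (M a (dd f) v) := by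
  have e : Nf a b = fun z => (-1 : ℝ) • ro a b z := by
    funext z
    simp only [Nf, ro]
    module
  have h1 : ∀ u, A (Nf a b) u = ((-1 : ℝ) : ℂ) • A (ro a b) u := by
    intro u
    rw [e]
    exact m6_smul h.toRep (ro_sim a b) (-1) u
  rw [h1, h1, sym_smul (m_symm hT h g0 g1 ha hr), m_Ar hT hJ h g0 g1 ha hr hf b v]

end

section

variable (hT : Q.IsStress T) (hJ : IsVirial Q T J) (h : SecMom Q T A M) (g0 : Gen0 Q T A) (g1 : Gen1 Q T A) {a : V}
  (ha : IsNull a)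
include hT hJ h g0 g1 ha

/-- translations -/
lemma m_inv {f g : 𝓢(ℝ, ℂ)} (hr : ∀ u, conj (f u) = f u) (hf : HasCompactSupport f) {t : ℝ}
    (hg : ∀ u, g u = f (u - t)) (v : D) : M a (dd g) v = M a (dd f) v := by
  obtain ⟨b, hb, hab⟩ := H755.exists_dual ha
  have hS := sn_of hT h g0 g1
  have h1a : sim 1 GF.one 0 a = (1 : ℝ) • a := by
    rw [sim_one, one_smul]
    funext n
    simp
  have hbd : ∀ v, ∃ C : ℝ, ∀ t : ℝ, |t| ≤ 1 → ‖M a (dd f) (Q.U 1 GF.one (t • b) v)‖ ≤ C := by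
    intro v
    obtain ⟨C, k, hC, hb'⟩ := sn_grow hS ha f v
    refine ⟨C * 2 ^ k, fun t ht => ?_⟩
    obtain ⟨g', hg'⟩ := exists_tr f (-t)
    have h2 := hS.cov 1 GF.one (t • b) a a g' f v one_pos isLor_one ha h1a (fun u => by
      rw [hg', md_smul, hab]
      congr 1
      ring)
    have h3 := hb' (-t) g' hg'
    rw [← h2, U_nrm0 one_pos isLor_one]
    refine h3.trans (mul_le_mul_of_nonneg_left ?_ hC)
    refine pow_le_pow_left₀ (by positivity) ?_ k
    rw [abs_neg]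
    linarith
  have hcm : ∀ v, M a (dd f) (A (fun _ => b) v) = A (fun _ => b) (M a (dd f) v) := fun v =>
    m_Ac hT hJ h g0 g1 ha hr hf b v
  have h3 := com_U h.toRep (m_symm hT h g0 g1 ha hr) hbd hcm t (Q.U 1 GF.one (-(t • b)) v)
  have h4 := hS.cov 1 GF.one (t • b) a a f g (Q.U 1 GF.one (-(t • b)) v) one_pos isLor_one ha h1a
    (fun u => by
      rw [hg, md_smul, hab, mul_one])
  rw [← h3, Uadd1, add_neg_cancel, Uone] at h4
  exact h4.symm

/-- real functions -/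
lemma m_int {f k : 𝓢(ℝ, ℂ)} (hr : ∀ u, conj (f u) = f u) (hf : HasCompactSupport f)
    (hr' : ∀ u, conj (k u) = k u) (hk : HasCompactSupport k) (hk1 : ∫ u, k u = 1) (v : D) :
    M a (dd f) v = (∫ u, f u) • M a (dd k) v := by
  refine ext_inner_left ℂ fun w => ?_
  obtain ⟨κ, hκ⟩ := sn_fun (sn_of hT h g0 g1) ha v w
  have h1 := inv_int (κ := κ) (g := f) (k := k)
    (fun t g' hg' => by rw [hκ, hκ]; exact congrArg _ (m_inv hT hJ h g0 g1 ha hr hf hg' v))
    (fun t g' hg' => by rw [hκ, hκ]; exact congrArg _ (m_inv hT hJ h g0 g1 ha hr' hk hg' v))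
  rw [hk1, one_mul, hκ, hκ] at h1
  rw [inner_smul_right]
  exact h1

/-- the bump function -/
lemma m_bump {k : 𝓢(ℝ, ℂ)} (hr : ∀ u, conj (k u) = k u) (hk : HasCompactSupport k)
    (hk1 : ∫ u, k u = 1) (v : D) : M a (dd k) v = 0 := by
  obtain ⟨b, hb, hab⟩ := H755.exists_dual ha
  have hS := sn_of hT h g0 g1
  obtain ⟨L, h0, hL, hd, he⟩ := f4_boost ha hb hab
  have hN := f4_Nf_sim a b
  have hsym := m_symm hT h g0 g1 ha hr
  have hcm : ∀ v, M a (dd k) (A (Nf a b) v) = A (Nf a b) (M a (dd k) v) := fun v =>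
    m_AN hT hJ h g0 g1 ha hr hk b v
  have hcov : ∀ e v, Q.U 1 (L e) 0 (M a (dd k) v) =
      ((Real.exp e : ℝ) : ℂ) • M a (dd k) (Q.U 1 (L e) 0 v) := by
    intro e v
    obtain ⟨g, hg⟩ := exists_dl k (Real.exp_pos (-e))
    have h1 := hS.cov 1 (L e) 0 a (Real.exp (-e) • a) k k v one_pos (hL e) ha
      (by rw [he, one_smul]) (fun u => by rw [show GF.mdot (Real.exp (-e) • a) 0 = 0 by
        simp [GF.mdot], sub_zero])
    have h2 := hS.hom (Real.exp (-e)) a k g (Q.U 1 (L e) 0 v) (Real.exp_pos _) ha hg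
    have hgr : ∀ u, conj (g u) = g u := fun u => by rw [hg, hr]
    have hgc : HasCompactSupport g := by
      have e1 : (g : ℝ → ℂ) = (k : ℝ → ℂ) ∘ (Homeomorph.mulLeft₀ _ (Real.exp_pos (-e)).ne') :=
        funext fun u => hg u
      rw [e1]
      exact hk.comp_homeomorph _
    have hgi : ∫ u, g u = ((Real.exp e : ℝ) : ℂ) := by
      have e1 : (fun u => g u) = fun u => k (Real.exp (-e) * u) := funext fun u => hg u
      rw [e1, Measure.integral_comp_mul_left (fun u => k u), hk1, abs_of_pos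
        (inv_pos.2 (Real.exp_pos _)), Real.exp_neg, inv_inv]
      rw [Complex.real_smul, mul_one]
    have h3 := m_int hT hJ h g0 g1 ha hgr hgc hr hk hk1 (Q.U 1 (L e) 0 v)
    rw [h1, h2, h3, hgi]
  have hder : ∀ v : D, HasDerivAt (fun e => Q.U 1 (L e) 0 v) (I • A (Nf a b) v) 0 := by
    intro v
    refine h.toRep.der (fun _ => 1) L (fun _ => 0) (Nf a b) v rfl h0 rfl
      (fun e => ⟨one_pos, hL e⟩) fun n x => ?_
    have e : (fun e => sim 1 (L e) 0 x n) = fun e => ∑ m, x m * L e m n := by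
      funext e
      simp [sim]
    rw [e]
    have h2 : HasDerivAt (fun e => ∑ m, x m * L e m n)
        (∑ m, x m * (GF.eta m * (a m * b n - b m * a n))) 0 :=
      HasDerivAt.fun_sum fun m _ => (hd m n).const_mul (x m)
    refine h2.congr_deriv ?_
    show _ = GF.mdot a x * b n - GF.mdot b x * a n
    simp only [GF.mdot, Fin.sum_univ_four]
    ring
  have hU0 : ∀ v : D, Q.U 1 (L 0) 0 v = v := by
    intro v
    rw [h0]
    exact U1_zero_all (Q := Q) v
  refine ext_inner_left ℂ fun z => ?_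
  have h1 : HasDerivAt (fun e => inner ℂ z (Q.U 1 (L e) 0 (M a (dd k) v)))
      (inner ℂ z (I • A (Nf a b) (M a (dd k) v))) 0 :=
    ((innerSL ℂ z).restrictScalars ℝ).hasFDerivAt.comp_hasDerivAt (0 : ℝ) (hder (M a (dd k) v))
  have h2 : HasDerivAt (fun e => inner ℂ (M a (dd k) z) (Q.U 1 (L e) 0 v))
      (inner ℂ (M a (dd k) z) (I • A (Nf a b) v)) 0 :=
    ((innerSL ℂ (M a (dd k) z)).restrictScalars ℝ).hasFDerivAt.comp_hasDerivAt (0 : ℝ) (hder v)
  have h3 : HasDerivAt (fun e : ℝ => ((Real.exp e : ℝ) : ℂ)) 1 0 := by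
    have h5 := (Real.hasDerivAt_exp 0).ofReal_comp
    refine h5.congr_deriv ?_
    simp
  have h6 := h3.mul h2
  have e1 : (fun e => inner ℂ z (Q.U 1 (L e) 0 (M a (dd k) v))) =
      (fun e : ℝ => ((Real.exp e : ℝ) : ℂ)) *
        fun e => inner ℂ (M a (dd k) z) (Q.U 1 (L e) 0 v) := by
    funext e
    rw [hcov, inner_smul_right]
    show _ = ((Real.exp e : ℝ) : ℂ) * inner ℂ (M a (dd k) z) (Q.U 1 (L e) 0 v)
    rw [hsym]
  rw [← e1] at h6
  have h7 := h1.unique h6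
  rw [inner_smul_right, inner_smul_right, hU0, hsym, hsym, hcm] at h7
  simp only [Real.exp_zero, ofReal_one] at h7
  rw [inner_zero_right]
  linear_combination -h7

end

/-- **The smeared second moments of second derivatives vanish.** -/
theorem m_zero (hT : Q.IsStress T) (hJ : IsVirial Q T J) (h : SecMom Q T A M) (g0 : Gen0 Q T A) (g1 : Gen1 Q T A) {a : V}
    (ha : IsNull a) {f : 𝓢(ℝ, ℂ)} (hf : HasCompactSupport f) (v : D) : M a (dd f) v = 0 := by
  obtain ⟨f1, f2, r1, r2, rfl, s1, s2⟩ := re_im f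
  obtain ⟨k, hr, hk, hk1⟩ := exists_one
  rw [m_split hT h g0 g1 ha,
    m_int hT hJ h g0 g1 ha r1 (hf.mono' (subset_closure.trans s1)) hr hk hk1,
    m_int hT hJ h g0 g1 ha r2 (hf.mono' (subset_closure.trans s2)) hr hk hk1,
    m_bump hT hJ h g0 g1 ha hr hk hk1, smul_zero, smul_zero, smul_zero, add_zero]


end Vale.Agent.P352.MO

end
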